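import Vale.Agent.P281Z.Gr.Defs
import Vale.Agent.P277Z.Slc.Basic
import Vale.Agent.P272.K.INT.Part

/-!
# P281Z, block GR: smooth functions, cut-offs, the calculus of supports
-/

open scoped Manifold ContDiff Topology
open Set Filter
open Vale.Agent.P272.K Vale.Agent.P285.H281.FD
open Vale.Agent.P277Z (Hol)
open Vale.Agent.P277Z.Slc (at_chartAt tendsto_symm)

set_option linter.unusedSectionVars false

noncomputable section

namespace Vale.Agent.P281Z.Gr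

section sm

variable {n : ℕ} {V : Type} [TopologicalSpace V] [ChartedSpace (Cm n) V] {φ ψ θ u : V → ℂ} {x : V}

/-- smooth at a point; `Sm n φ` is `∀ x, SmAt n φ x` by definition -/
def SmAt (n : ℕ) [ChartedSpace (Cm n) V] (φ : V → ℂ) (x : V) : Prop :=
  ∀ e : Chart n V, At e x → ContDiffAt ℝ ∞ (fun z => φ (e.symm z)) (e x)

theorem Sm.at (h : Sm n φ) (x : V) : SmAt n φ x := h x

theorem smAt_of_hol (h : Hol n φ x) : SmAt n φ x := fun e he =>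
  ((h e he).restrictScalars (𝕜 := ℝ)).contDiffAt

theorem SmAt.congr (h : SmAt n φ x) (k : ∀ᶠ y in 𝓝 x, φ y = ψ y) : SmAt n ψ x := fun e he =>
  (h e he).congr_of_eventuallyEq (((tendsto_symm he).eventually k).mono fun _ => Eq.symm)

theorem SmAt.add (h : SmAt n φ x) (k : SmAt n ψ x) : SmAt n (fun y => φ y + ψ y) x :=
  fun e he => (h e he).add (k e he)

theorem SmAt.sub (h : SmAt n φ x) (k : SmAt n ψ x) : SmAt n (fun y => φ y - ψ y) x :=
  fun e he => (h e he).sub (k e he)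

theorem SmAt.mul (h : SmAt n φ x) (k : SmAt n ψ x) : SmAt n (fun y => φ y * ψ y) x :=
  fun e he => (h e he).mul (k e he)

theorem SmAt.inv (h : SmAt n φ x) (k : φ x ≠ 0) : SmAt n (fun y => (φ y)⁻¹) x :=
  fun e he => (h e he).inv (by rwa [e.left_inv he.2])

theorem SmAt.cont (h : SmAt n φ x) : ContinuousAt φ x := by
  have he := at_chartAt (n := n) x
  refine ((h _ he).continuousAt.comp ((chartAt (Cm n) x).continuousAt he.2)).congr ?_
  filter_upwards [(chartAt (Cm n) x).eventually_left_inverse he.2] with y hy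
  simp only [Function.comp_apply, hy]

theorem smAt_const (c : ℂ) (x : V) : SmAt n (fun _ => c) x := fun _ _ => contDiffAt_const

theorem sm_const (c : ℂ) : Sm n fun _ : V => c := smAt_const c

theorem sm_of_hol (h : ∀ x, Hol n φ x) : Sm n φ := fun x => smAt_of_hol (h x)

theorem Sm.add (h : Sm n φ) (k : Sm n ψ) : Sm n fun y => φ y + ψ y := fun x => (h.at x).add (k x)

theorem Sm.sub (h : Sm n φ) (k : Sm n ψ) : Sm n fun y => φ y - ψ y := fun x => (h.at x).sub (k x)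

theorem Sm.mul (h : Sm n φ) (k : Sm n ψ) : Sm n fun y => φ y * ψ y := fun x => (h.at x).mul (k x)

theorem Sm.neg (h : Sm n φ) : Sm n fun y => -φ y := fun x e he => (h x e he).neg

theorem sm_sum {ι : Type*} (s : Finset ι) {f : ι → V → ℂ} (h : ∀ i ∈ s, Sm n (f i)) :
    Sm n fun y => ∑ i ∈ s, f i y := fun x e he => ContDiffAt.sum fun i hi => h i hi x e he

theorem sm_prod {ι : Type*} (s : Finset ι) {f : ι → V → ℂ} (h : ∀ i ∈ s, Sm n (f i)) :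
    Sm n fun y => ∏ i ∈ s, f i y := fun x e he => contDiffAt_prod fun i hi => h i hi x e he

theorem Sm.cont (h : Sm n φ) : Continuous φ := continuous_iff_continuousAt.2 fun x => (h.at x).cont

theorem Sm.mul_of (h : Sm n θ) (k : ∀ x ∈ tsupport θ, SmAt n u x) : Sm n fun y => θ y * u y :=
  fun x => (em (x ∈ tsupport θ)).elim (fun hx => (h.at x).mul (k x hx)) fun hx =>
    (smAt_const 0 x).congr (ψ := fun y => θ y * u y) ((notMem_tsupport_iff_eventuallyEq.1 hx).mono fun y hy => by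
      rw [hy, Pi.zero_apply, zero_mul])

theorem Sm.mul_hol (h : Sm n θ) (k : ∀ x ∈ tsupport θ, Hol n u x) : Sm n fun y => θ y * u y :=
  h.mul_of fun x hx => smAt_of_hol (k x hx)

theorem hol_of_const {c : ℂ} (h : ∀ᶠ y in 𝓝 x, φ y = c) : Hol n φ x :=
  Hol.congr (a := fun _ => c) (fun _ _ => analyticAt_const) (h.mono fun _ => Eq.symm)

/-- cut-off functions -/
theorem exists_bump (n : ℕ) [ChartedSpace (Cm n) V] [T2Space V] [CompactSpace V]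
    [IsManifold 𝓘(ℂ, Cm n) ω V] {K W : Set V} (hK : IsCompact K) (hW : IsOpen W) (h : K ⊆ W) :
    ∃ φ : V → ℂ, Sm n φ ∧ (∀ x ∈ K, ∀ᶠ y in 𝓝 x, φ y = 1) ∧ tsupport φ ⊆ W := by
  have := INT.isManifold_real n V
  obtain ⟨K', h1, h2, h3⟩ := exists_compact_between hK hW h
  obtain ⟨f, h4, h5, -⟩ := exists_contMDiffMap_one_nhds_of_subset_interior (n := ⊤) 𝓘(ℝ, Cm n)
    hK.isClosed h2
  refine ⟨fun y => f y, fun x e he => Complex.ofRealCLM.contDiff.contDiffAt.comp _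
    (INT.smoothFn_of_contMDiff f.contMDiff e x he), fun x hx =>
      (h4.filter_mono (nhds_le_nhdsSet hx)).mono fun y hy => by simp [hy],
    (closure_minimal (fun y hy => by_contra fun k => ?_) h1.isClosed).trans h3⟩
  simp [h5 y k] at hy

end sm

theorem bump : BUMP := fun n _ _ _ _ _ _ _ _ _ _ hK hW h => exists_bump n hK hW h

namespace Cx

variable {n p : ℕ} {V : Type} [TopologicalSpace V] [CompactSpace V] [ChartedSpace (Cm n) V]
  {L : Bd V} {C : Cx p L} {F : V → Cm p} {K₀ : Set V} {s : Finset (Fin p)} {ξ η : C.X} {x : V}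
  {T U : C.X →L[ℂ] C.X} {φ : V → ℂ}

theorem Dt_apply (τ : Cm p) (ξ : C.X) : C.Dt τ ξ = C.D ξ + C.E τ ξ := rfl

theorem Dt_zero : C.Dt 0 = C.D := by rw [Dt, map_zero, add_zero]

theorem Pw.zero (h : C.Pw T) (k : C.π ξ x = 0) : C.π (T ξ) x = 0 := by
  obtain ⟨M, h⟩ := h
  simpa [k] using h ξ x

theorem isOpen_Z (ξ : C.X) : IsOpen (C.Z ξ) := isOpen_setOfPred_eventually_nhds

theorem Z_zero : C.Z 0 = univ := eq_univ_of_forall fun _ => .of_forall fun _ => by simp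

theorem Z_add (h : x ∈ C.Z ξ) (k : x ∈ C.Z η) : x ∈ C.Z (ξ + η) := by
  filter_upwards [h, k] with y a b using by simp [a.1, a.2, b.1, b.2]

theorem Z_smul (c : ℂ) (h : x ∈ C.Z ξ) : x ∈ C.Z (c • ξ) := by
  filter_upwards [h] with y a using by simp [a.1, a.2]

theorem Z_neg (h : x ∈ C.Z ξ) : x ∈ C.Z (-ξ) := by simpa using Z_smul (-1) h

theorem Z_sub (h : x ∈ C.Z ξ) (k : x ∈ C.Z η) : x ∈ C.Z (ξ - η) := by
  simpa only [sub_eq_add_neg] using Z_add h (Z_neg k)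

theorem Z_sum {ι : Type*} (t : Finset ι) {f : ι → C.X} (h : ∀ i ∈ t, x ∈ C.Z (f i)) :
    x ∈ C.Z (∑ i ∈ t, f i) :=
  Finset.sum_induction f (fun ξ => x ∈ C.Z ξ) (fun _ _ => Z_add) ((Z_zero (C := C)).symm ▸ trivial) h

theorem Z_π (h : x ∈ C.Z ξ) : C.π ξ x = 0 := h.self_of_nhds.1

theorem Z_val (h : x ∈ C.Z ξ) (i : L.ι) : C.val ξ i x = 0 := by rw [val, Z_π h, map_zero]

theorem Z_val_near (h : x ∈ C.Z ξ) : ∀ᶠ y in 𝓝 x, ∀ i, C.val ξ i y = 0 :=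
  ((isOpen_Z ξ).eventually_mem h).mono fun _ => Z_val

theorem val_add (ξ η : C.X) (i : L.ι) (x : V) : C.val (ξ + η) i x = C.val ξ i x + C.val η i x := by
  simp [val]

theorem val_sub (ξ η : C.X) (i : L.ι) (x : V) : C.val (ξ - η) i x = C.val ξ i x - C.val η i x := by
  simp [val]

theorem val_smul (c : ℂ) (ξ : C.X) (i : L.ι) (x : V) : C.val (c • ξ) i x = c * C.val ξ i x := by
  simp [val]

theorem val_sum {ι : Type*} (t : Finset ι) (f : ι → C.X) (i : L.ι) (x : V) :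
    C.val (∑ a ∈ t, f a) i x = ∑ a ∈ t, C.val (f a) i x := by
  simp [val]

/-- local operators -/
def Loc (T : C.X →L[ℂ] C.X) : Prop := ∀ ξ, C.Z ξ ⊆ C.Z (T ξ)

theorem loc_one : Loc (1 : C.X →L[ℂ] C.X) := fun _ => Subset.rfl

theorem loc_zero : Loc (0 : C.X →L[ℂ] C.X) := fun _ _ _ => (Z_zero (C := C)).symm ▸ trivial

theorem Loc.add (h : Loc T) (k : Loc U) : Loc (T + U) := fun ξ _ a => Z_add (h ξ a) (k ξ a)

theorem Loc.sub (h : Loc T) (k : Loc U) : Loc (T - U) := fun ξ _ a => Z_sub (h ξ a) (k ξ a)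

theorem Loc.neg (h : Loc T) : Loc (-T) := fun ξ _ a => Z_neg (h ξ a)

theorem Loc.smul (h : Loc T) (c : ℂ) : Loc (c • T) := fun ξ _ a => Z_smul c (h ξ a)

theorem Loc.mul (h : Loc T) (k : Loc U) : Loc (T * U) := fun ξ _ a => h _ (k ξ a)

namespace Ok

variable (h : C.Ok n F K₀ s)
include h

theorem ext (h1 : C.π ξ = 0) (h2 : C.π (C.D ξ) = 0) : ξ = 0 := by
  obtain ⟨M, k⟩ := h.nrm
  simpa [h1, h2] using k ξ

theorem dtdt (τ : Cm p) (ξ : C.X) : C.Dt τ (C.Dt τ ξ) = 0 := h.fam.sq τ ξ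

theorem dd (ξ : C.X) : C.D (C.D ξ) = 0 := by simpa only [Dt_zero] using h.dtdt 0 ξ

theorem N_Dt (τ : Cm p) (ξ : C.X) : C.N (C.Dt τ ξ) = C.Dt τ (C.N ξ) + C.Dt τ ξ := h.fam.deg τ ξ

theorem N_D (ξ : C.X) : C.N (C.D ξ) = C.D (C.N ξ) + C.D ξ := by
  simpa only [Dt_zero] using h.N_Dt 0 ξ

theorem eq_zero (k : K₀ ⊆ C.Z ξ) : ξ = 0 :=
  h.ext (ContinuousMap.ext fun x => (em (x ∈ K₀)).elim (fun a => Z_π (k a)) (h.supp _ x))
    (ContinuousMap.ext fun x => (em (x ∈ K₀)).elim (fun a => (k a).self_of_nhds.2) (h.supp _ x))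

theorem mem_Z (τ : Cm p) : x ∈ C.Z ξ ↔ ∀ᶠ y in 𝓝 x, C.π ξ y = 0 ∧ C.π (C.Dt τ ξ) y = 0 :=
  eventually_congr (.of_forall fun y => and_congr_right fun a => by
    rw [Dt_apply, map_add, ContinuousMap.add_apply, (h.pwE τ).zero a, add_zero])

theorem Z_of_not_mem (hK : IsClosed K₀) (hx : x ∉ K₀) (ξ : C.X) : x ∈ C.Z ξ :=
  (hK.isOpen_compl.eventually_mem hx).mono fun y a => ⟨h.supp _ y a, h.supp _ y a⟩

theorem loc_Dt (τ : Cm p) : Loc (C.Dt τ) := fun ξ _ a => (h.mem_Z τ).2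
  (((h.mem_Z τ).1 a).mono fun _ b => ⟨b.2, by rw [h.dtdt, map_zero, ContinuousMap.zero_apply]⟩)

theorem loc_D : Loc C.D := Dt_zero (C := C) ▸ h.loc_Dt 0

theorem loc_E (τ : Cm p) : Loc (C.E τ) := by
  simpa only [Dt, add_sub_cancel_left] using (h.loc_Dt τ).sub h.loc_D

theorem loc_N : Loc C.N := fun ξ _ a => a.mono fun y b => ⟨h.pwN.zero b.1, by
  rw [eq_sub_of_add_eq (h.N_D ξ).symm, map_sub, ContinuousMap.sub_apply, h.pwN.zero b.2, b.2,
    sub_zero]⟩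

theorem loc_mul (hφ : Sm n φ) : Loc (C.mul φ) := fun ξ _ a => a.mono fun y b =>
  ⟨by rw [h.mulπ φ hφ, b.1, smul_zero], by
    have := (h.cm φ hφ).zero b.1
    simpa [h.mulπ φ hφ, b.2] using this⟩

theorem mul_one (ξ : C.X) : C.mul (fun _ => 1) ξ = ξ := by rw [h.mulc, one_smul]

theorem mul_comm {ψ : V → ℂ} (hφ : Sm n φ) (hψ : Sm n ψ) (ξ : C.X) :
    C.mul φ (C.mul ψ ξ) = C.mul ψ (C.mul φ ξ) := by
  rw [← h.mulm φ ψ hφ hψ, ← h.mulm ψ φ hψ hφ]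
  simp only [_root_.mul_comm]

theorem mul_sub {ψ : V → ℂ} (hφ : Sm n φ) (hψ : Sm n ψ) (ξ : C.X) :
    C.mul (fun x => φ x - ψ x) ξ = C.mul φ ξ - C.mul ψ ξ := by
  rw [eq_sub_iff_add_eq, ← h.mula _ _ (hφ.sub hψ) hψ]
  simp only [sub_add_cancel]

/-- multiplication by a function which is constant near `x` -/
theorem Z_mul_const (hφ : Sm n φ) {c : ℂ} (k : ∀ᶠ y in 𝓝 x, φ y = c) (ξ : C.X) :
    x ∈ C.Z (c • ξ - C.mul φ ξ) :=
  k.eventually_nhds.mono fun y a => by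
    simp [h.cm0 φ hφ ξ y (hol_of_const a), h.mulπ φ hφ, a.self_of_nhds]

theorem Z_mul (hφ : Sm n φ) (k : ∀ᶠ y in 𝓝 x, φ y = 0) (ξ : C.X) : x ∈ C.Z (C.mul φ ξ) := by
  simpa using Z_neg (h.Z_mul_const hφ k ξ)

theorem Z_sub_mul (hφ : Sm n φ) (k : ∀ᶠ y in 𝓝 x, φ y = 1) (ξ : C.X) :
    x ∈ C.Z (ξ - C.mul φ ξ) := by
  simpa using h.Z_mul_const hφ k ξ

theorem Z_mul_supp (hφ : Sm n φ) (k : x ∉ tsupport φ) (ξ : C.X) : x ∈ C.Z (C.mul φ ξ) :=
  h.Z_mul hφ (notMem_tsupport_iff_eventuallyEq.1 k) ξ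

theorem D_mul (hφ : Sm n φ) (k : ∀ x ∈ K₀, Hol n φ x) (ξ : C.X) :
    C.D (C.mul φ ξ) = C.mul φ (C.D ξ) := by
  have a : ∀ ξ, C.π (C.D (C.mul φ ξ)) = C.π (C.mul φ (C.D ξ)) := fun ξ =>
    ContinuousMap.ext fun x => (em (x ∈ K₀)).elim (fun a => h.cm0 φ hφ ξ x (k x a)) fun a => by
      rw [h.supp _ x a, h.supp _ x a]
  exact sub_eq_zero.1 (h.ext (by rw [map_sub, a, sub_self]) (by simp [h.dd, a]))

theorem Dt_mul (hφ : Sm n φ) (k : ∀ x ∈ K₀, Hol n φ x) (τ : Cm p) (ξ : C.X) :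
    C.Dt τ (C.mul φ ξ) = C.mul φ (C.Dt τ ξ) := by
  rw [Dt_apply, Dt_apply, h.D_mul hφ k, h.mulE φ hφ, map_add]

theorem Dt_mulF (hd : Dat n F K₀) (l : Fin p) (τ : Cm p) (ξ : C.X) :
    C.Dt τ (C.mul (fun y => F y l) ξ) = C.mul (fun y => F y l) (C.Dt τ ξ) :=
  h.Dt_mul (hd.sm l) (fun x a => hd.hol x a l) τ ξ

theorem Dt_congr {τ τ' : Cm p} (k : ∀ l ∈ s, τ l = τ' l) : C.Dt τ = C.Dt τ' := by
  rw [Dt, Dt, h.dep τ τ' k]

theorem val_Dt {τ : Cm p} (k : ∀ l ∈ s, τ l = F x l) (η : C.X) (i : L.ι) :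
    C.val (C.Dt τ η) i x = 0 := by
  rw [h.Dt_congr k, h.evd]

theorem val_mul (hφ : Sm n φ) (ξ : C.X) (i : L.ι) (x : V) :
    C.val (C.mul φ ξ) i x = φ x * C.val ξ i x := by
  rw [val, h.mulπ φ hφ, map_smul, smul_eq_mul, val]

/-- the local lift of a holomorphic function -/
theorem lift_at [T2Space V] [IsManifold 𝓘(ℂ, Cm n) ω V] (hL : IsLB n L) (hx : x ∈ interior K₀)
    {i : L.ι} (hi : x ∈ L.U i) {b : V → ℂ} (hb : Hol n b x) : ∃ ζ, C.N ζ = 0 ∧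
      (∀ τ, C.E τ ζ = 0) ∧ (∀ τ, x ∈ C.Z (C.Dt τ ζ)) ∧
      ∀ᶠ y in 𝓝 x, ∀ j, y ∈ L.U j → C.val ζ j y = L.g j i y * b y := by
  have hO : IsOpen {y | y ∈ L.U i ∧ Hol n b y} := isOpen_iff_eventually.2 fun y a =>
    ((hL.isOpen i).eventually_mem a.1).and a.2.near
  obtain ⟨φ, a1, a2, a3⟩ := exists_bump n isCompact_singleton (hO.inter isOpen_interior)
    (singleton_subset_iff.2 ⟨⟨hi, hb⟩, hx⟩)
  obtain ⟨ζ, b1, b2, b3, b4⟩ := h.lift _ hO (fun j y => L.g j i y * b y) ⟨fun y a j c e he =>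
    (hL.holo j i e y he c a.1).analyticAt.fun_mul (a.2 e he), fun y a j k c d => by
      rw [← mul_assoc, hL.cocycle j k i y c d a.1]⟩ φ a1 a3
  refine ⟨ζ, b1, b2, fun τ => ?_, (a2 x rfl).mono fun y a j c => by rw [b3 j y c, a, one_mul]⟩
  rw [Dt_apply, b2, add_zero]
  exact (a2 x rfl).eventually_nhds.mono fun y a =>
    ⟨b4 y (hol_of_const a), by rw [h.dd, map_zero, ContinuousMap.zero_apply]⟩

/-- the Koszul homotopies are local -/
theorem loc_of_hom (hd : Dat n F K₀) {e : C.X →L[ℂ] C.X} (he : C.Pw e) {l : Fin p} {τ : Cm p}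
    (k : ∀ ξ, C.Dt τ (e ξ) + e (C.Dt τ ξ) = τ l • ξ - C.mul (fun y => F y l) ξ) : Loc e :=
  fun ξ _ a => (h.mem_Z τ).2 (((h.mem_Z τ).1 a).mono fun y b => ⟨he.zero b.1, by
    simp [eq_sub_of_add_eq (k ξ), he.zero b.2, h.mulπ _ (hd.sm l), b.1]⟩)

end Ok

end Cx

end Vale.Agent.P281Z.Gr
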