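import Vale.Agent.P281Z.Gr.Sk
import Vale.Agent.P281Z.Gr.Api
import Vale.Agent.P281Z.An.Basic

/-!
# P281Z, block GR: the assembly of the local and of the global statement
-/

open scoped Manifold ContDiff Topology
open Set Filter Metric
open Vale.Agent.P272.K Vale.Agent.P285.H281.FD
open Vale.Agent.P277Z (Hol)
open Vale.Agent.P277Z.Slc (Ind dd_congr dd_sub_const at_chartAt)

noncomputable section

namespace Vale.Agent.P281Z.Gr

namespace As

section lin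

variable {X Y : Type} [AddCommGroup X] [Module ℂ X] [AddCommGroup Y] [Module ℂ Y]

theorem rk_iff {Z : Submodule ℂ X} {B : Set X} {Z' : Set Y} {B' : Submodule ℂ Y} (f : X →ₗ[ℂ] Y)
    (h1 : ∀ ξ ∈ Z, f ξ ∈ Z') (h2 : ∀ ξ ∈ Z, f ξ ∈ B' → ξ ∈ B) (h3 : ∀ ξ ∈ B, f ξ ∈ B')
    (h4 : ∀ t ∈ Z', ∃ ξ ∈ Z, t - f ξ ∈ B') (j : ℕ) : Rk (Z : Set X) B j ↔ Rk Z' (B' : Set Y) j := by
  refine ⟨fun ⟨z, a, b⟩ => ⟨fun j => f (z j), fun j => h1 _ (a j), fun c hc => b c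
    (h2 _ (Z.sum_mem fun j _ => Z.smul_mem _ (a j)) ?_)⟩, fun ⟨t, a, b⟩ => ?_⟩
  · simpa only [map_sum, map_smul, SetLike.mem_coe] using hc
  · choose z hz hz' using fun j => h4 _ (a j)
    refine ⟨z, hz, fun c hc => b c ?_⟩
    have := B'.add_mem (B'.sum_mem (t := .univ) fun j _ => B'.smul_mem (c j) (hz' j)) (h3 _ hc)
    simpa only [map_sum, map_smul, smul_sub, Finset.sum_sub_distrib, sub_add_cancel,
      SetLike.mem_coe] using this

theorem rk_succ {Z B : Set X} {j : ℕ} (h : Rk Z B (j + 1)) : Rk Z B j := by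
  obtain ⟨z, a, b⟩ := h
  refine ⟨fun j => z j.succ, fun j => a _, fun c hc => funext fun j => ?_⟩
  have := b (Fin.cons 0 c) (by simpa [Fin.sum_univ_succ] using hc)
  simpa using congrFun this j.succ

theorem rk_le {Z B : Set X} {i j : ℕ} (h : Rk Z B j) (k : i ≤ j) : Rk Z B i := by
  induction k with
  | refl => exact h
  | step _ ih => exact ih (rk_succ h)

theorem rk_eq {Z B : Set X} {i j : ℕ} (h : Rk Z B i ∧ ¬ Rk Z B (i + 1))
    (k : Rk Z B j ∧ ¬ Rk Z B (j + 1)) : i = j :=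
  le_antisymm (not_lt.1 fun a => k.2 (rk_le h.1 a)) (not_lt.1 fun a => h.2 (rk_le k.1 a))

end lin

section sec

variable {n : ℕ} {V : Type} [TopologicalSpace V] [ChartedSpace (Cm n) V] {L : Bd V}

/-- `Van` as a submodule -/
def vanS {V : Type} (L : Bd V) (S : Set V) : Submodule ℂ (L.ι → V → ℂ) where
  carrier := Van L S
  add_mem' a b x hx i hi := by simp [a x hx i hi, b x hx i hi]
  zero_mem' _ _ _ _ := rfl
  smul_mem' c _ a x hx i hi := by simp [a x hx i hi]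

/-- `FSec` as a submodule -/
def secS (n : ℕ) [ChartedSpace (Cm n) V] (L : Bd V) (S : Set V) : Submodule ℂ (L.ι → V → ℂ) where
  carrier := FSec n L S
  add_mem' a b x hx := ⟨fun i hi =>
      let ⟨u, hu, k⟩ := (a x hx).1 i hi
      let ⟨v, hv, k'⟩ := (b x hx).1 i hi
      ⟨fun y => u y + v y, fun e he => (hu e he).add (hv e he),
        (k.and k').mono fun y c hy => by simp [c.1 hy, c.2 hy]⟩,
    fun i j hi hj => by simp [(a x hx).2 i j hi hj, (b x hx).2 i j hi hj, mul_add]⟩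
  zero_mem' _ _ := ⟨fun _ _ => ⟨fun _ => 0, fun _ _ => analyticAt_const, .of_forall fun _ _ => rfl⟩,
    fun _ _ _ _ => by simp⟩
  smul_mem' c _ a x hx := ⟨fun i hi =>
      let ⟨u, hu, k⟩ := (a x hx).1 i hi
      ⟨fun y => c * u y, fun e he => analyticAt_const.mul (hu e he),
        k.mono fun y c hy => by simp [c hy]⟩,
    fun i j hi hj => by simp [(a x hx).2 i j hi hj, mul_left_comm]⟩

theorem secOn_mono {O O' : Set V} {t : L.ι → V → ℂ} (h : SecOn n L O t) (k : O' ⊆ O) :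
    SecOn n L O' t := ⟨fun x hx => h.hol x (k hx), fun x hx => h.chg x (k hx)⟩

theorem secOn_fsec {O : Set V} {t : L.ι → V → ℂ} (h : SecOn n L O t) : t ∈ FSec n L O :=
  fun x hx => ⟨fun i hi => ⟨_, h.hol x hx i hi, .of_forall fun _ _ => rfl⟩, h.chg x hx⟩

theorem ind_congr {α : Type} {h h' : α → V → ℂ} {x : V} (hi : Ind n h x)
    (k : ∀ a, ∀ᶠ y in 𝓝 x, h a y = h' a y) : Ind n h' x :=
  ⟨fun a => (hi.1 a).congr (k a), fun e he => by
    simpa only [fun a => dd_congr (k a) he] using hi.2 e he⟩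

end sec

section cx

variable {n p : ℕ} {V : Type} [TopologicalSpace V] [CompactSpace V] [ChartedSpace (Cm n) V]
  {L : Bd V} {F : V → Cm p} {K₀ : Set V} {s : Finset (Fin p)}

/-- the values, as a linear map -/
def valL (C : Cx p L) : C.X →ₗ[ℂ] (L.ι → V → ℂ) where
  toFun := C.val
  map_add' ξ η := funext₂ (Cx.val_add ξ η)
  map_smul' c ξ := funext₂ (Cx.val_smul c ξ)

theorem val_bd {C : Cx p L} (h : C.Ok n F K₀ s) {τ : Cm p} {S : Set V} (hS : ∀ x ∈ S, F x = τ)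
    (ξ : C.X) (hξ : ξ ∈ Bc (C.Dt τ) C.N) : valL C ξ ∈ vanS L S := by
  obtain ⟨η, -, rfl⟩ := hξ
  intro x hx i _
  rw [← hS x hx]
  exact h.evd η i x

theorem val_comb {C : Cx p L} (h : C.Ok n F K₀ s) {τ : Cm p} {S : Set V} (hS : ∀ x ∈ S, F x = τ)
    {k : ℕ} {v : Fin k → Cm p → C.X} {c : Fin k → ℂ} {ξ : C.X} {t : L.ι → V → ℂ}
    (h1 : t - C.val ξ ∈ Van L S) (h2 : ξ - ∑ j, c j • v j τ ∈ Bc (C.Dt τ) C.N) :
    t - ∑ j, c j • (fun i y => C.val (v j (F y)) i y) ∈ Van L S := by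
  have h3 := (vanS L S).add_mem h1 (val_bd h hS _ h2)
  rw [map_sub, map_sum] at h3
  intro x hx i hi
  have h4 := h3 x hx i hi
  simp only [map_smul, Pi.add_apply, Pi.sub_apply, Finset.sum_apply, Pi.smul_apply] at h4 ⊢
  rw [hS x hx]
  exact (sub_add_sub_cancel _ _ _).symm.trans h4

end cx

end As

open As in
theorem asm0 : ASM0 := by
  intro bump cx0 cone loc fin parx hol iso fam n V _ _ _ _ _ L hL p O F R hO hF hR hK
  obtain ⟨φ, hφ, h1, hs⟩ := bump n V L hL _ O hK hO inter_subset_left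
  set K₀ := O ∩ F ⁻¹' closedBall 0 R with hK₀
  obtain ⟨G, hG⟩ : ∃ G : V → Cm p, G = fun y l => φ y * F y l := ⟨_, rfl⟩
  have e1 : ∀ x ∈ K₀, ∀ᶠ y in 𝓝 x, F y = G y := fun x hx => (h1 x hx).mono fun y hy => by
    simp only [hG, hy, one_mul]
  have hd : Dat n G K₀ := ⟨hK, fun l => hG ▸ hφ.mul_hol fun x hx => hF x (hs hx) l,
    fun x hx l => (hF x hx.1 l).congr ((e1 x hx).mono fun y hy => congrFun hy l)⟩
  have hc : ContinuousOn F O := fun x hx =>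
    (continuousAt_pi.2 fun l => (hF x hx l).continuousAt).continuousWithinAt
  have hi : ∀ x ∈ O, F x ∈ ball (0 : Cm p) R → x ∈ interior K₀ := fun x hx hx' =>
    interior_maximal (inter_subset_inter_right _ (preimage_mono ball_subset_closedBall))
      (hc.isOpen_inter_preimage hO isOpen_ball) ⟨hx, hx'⟩
  have e2 : ∀ x ∈ K₀, F x = G x := fun x hx => (e1 x hx).self_of_nhds
  have e3 : ∀ τ ∈ ball (0 : Cm p) R, K₀ ∩ G ⁻¹' {τ} = O ∩ F ⁻¹' {τ} := fun τ hτ => Set.ext fun x =>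
    ⟨fun h => ⟨h.1.1, (e2 x h.1).trans h.2⟩, fun h =>
      have a : x ∈ K₀ := interior_subset (hi x h.1 ((show F x = τ from h.2) ▸ hτ))
      ⟨a, (e2 x a).symm.trans h.2⟩⟩
  have e4 : ∀ τ ∈ ball (0 : Cm p) R, ∀ x ∈ K₀, G x = τ → x ∈ interior K₀ := fun τ hτ x hx h =>
    hi x hx.1 (((e2 x hx).trans h) ▸ hτ)
  obtain ⟨C, hC⟩ : ∃ C : Cx p L, C.Good n G K₀ .univ := by
    induction (Finset.univ : Finset (Fin p)) using Finset.induction_on with
    | empty => exact cx0 n V L hL p G K₀ hd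
    | insert l s hl ih =>
      obtain ⟨C, hC⟩ := ih
      obtain ⟨a, b, c⟩ := cone n V L hL p G K₀ C hd s l hl hC.ok
      exact ⟨_, a, b hC.par, c hC.hom, fun x hx k =>
        loc n V L hL p G K₀ C hd s l hl hC.ok x hx k (hC.loc x hx k)⟩
  obtain ⟨P, hP, hP'⟩ := parx n V L hL p G K₀ C hd hC (e4 0 (mem_ball_self hR))
  obtain ⟨ε, k, m, ρ, v, μ, hε, g⟩ := fin p C.X C.D C.N P C.E hC.ok.fam hP hP' R hR
  have hb : ball (0 : Cm p) ε ⊆ ball 0 R := ball_subset_ball hε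
  refine ⟨ε, k, m, ρ, fun j i y => C.val (v j (G y)) i y, μ, hε, g.pos, g.anμ, g.ne,
    fun j => ⟨fun x hx i hxi => ?_, fun x _ i i' a b => hC.ok.chg _ i i' x a b⟩,
    fun τ hτ r hr t ht => ?_, fun τ hτ hI => ?_⟩
  · have a := hi x hx.1 (hb hx.2)
    have b : G x ∈ ball (0 : Cm p) ε := e2 x (interior_subset a) ▸ hx.2
    exact hol n V L hL p G K₀ C hd _ hC.ok (v j) i x a hxi (g.anv j _ b)
      ((isOpen_ball.eventually_mem b).mono fun τ hτ => (g.cyc τ hτ j).2)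
  · obtain ⟨z, hz, hz'⟩ := fam n V L hL p G K₀ C hd hC τ (e4 τ (hb hτ)) _
      (hc.isOpen_inter_preimage hO isOpen_ball) (by
        rw [e3 τ (hb hτ)]
        exact inter_subset_inter_right _ (preimage_mono (singleton_subset_iff.2 (mem_ball_self hr))))
      t ht
    obtain ⟨c, a, b⟩ := g.gen τ hτ z hz (hz'.mono fun σ h => h.1)
    refine ⟨c, a, ?_⟩
    filter_upwards [hz', b, isOpen_ball.eventually_mem (hb hτ)] with σ a₁ a₂ a₃
    rw [← e3 σ a₃]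
    exact val_comb hC.ok (fun x hx => hx.2) a₁.2 a₂
  · obtain ⟨a₁, a₂, a₃⟩ := iso n V L hL p G K₀ C hd hC τ fun x hx h => ⟨e4 τ (hb hτ) x hx h,
      ind_congr (hI x hx.1 ((e2 x hx).trans h)) fun l => (e1 x hx).mono fun y hy => congrFun hy l⟩
    rw [← e3 τ (hb hτ)]
    have r := rk_iff (Z := LinearMap.ker C.N.toLinearMap ⊓ LinearMap.ker (C.Dt τ).toLinearMap)
      (B' := vanS L (K₀ ∩ G ⁻¹' {τ})) (valL C) a₁ a₂ (val_bd hC.ok fun x hx => hx.2) a₃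
    refine ⟨fun h => ⟨fun t ht => ?_, (r _).1 (g.rk τ hτ h).1,
      fun a => (g.rk τ hτ h).2 ((r _).2 a)⟩, fun h => (r _).1 (g.jump τ hτ h)⟩
    obtain ⟨ξ, b₁, b₂⟩ := a₃ t ht
    obtain ⟨c, b₃⟩ := g.span τ hτ h ξ b₁
    exact ⟨c, val_comb hC.ok (fun x hx => hx.2) b₂ b₃⟩

namespace As

variable {n p : ℕ} {V : Mf n} {Y : Mf p} {f : V.X → Y.X} {L : Bd V.X} {Q : Set Y.X}

/-- the local statement on the base -/
structure Near (f : V.X → Y.X) (L : Bd V.X) (Q U : Set Y.X) {k m : ℕ} (ρ : ℕ)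
    (s : Fin k → L.ι → V.X → ℂ) (μ : Fin m → Y.X → ℂ) : Prop where
  opn : IsOpen U
  hol : ∀ y ∈ U, ∀ l, Hol p (μ l) y
  ne : ∀ y ∈ U, ∃ᶠ y' in 𝓝 y, ∃ l, μ l y' ≠ 0
  sec : ∀ j, SecOn n L (f ⁻¹' U) (s j)
  gen : ∀ U', IsOpen U' → ∀ t, SecOn n L (f ⁻¹' U') t → ∀ y ∈ U ∩ U',
    ∃ a : Fin k → Y.X → ℂ, (∀ j, Hol p (a j) y) ∧
      ∀ᶠ y' in 𝓝 y, t - ∑ j, a j y' • s j ∈ Van L (f ⁻¹' {y'})
  fib : ∀ y ∈ U, y ∉ Q → ((∃ l, μ l y ≠ 0) → (∀ t ∈ FSec n L (f ⁻¹' {y}),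
        ∃ c : Fin k → ℂ, t - ∑ j, c j • s j ∈ Van L (f ⁻¹' {y})) ∧
      Rk (FSec n L (f ⁻¹' {y})) (Van L (f ⁻¹' {y})) ρ ∧
      ¬ Rk (FSec n L (f ⁻¹' {y})) (Van L (f ⁻¹' {y})) (ρ + 1)) ∧
    ((∀ l, μ l y = 0) → Rk (FSec n L (f ⁻¹' {y})) (Van L (f ⁻¹' {y})) (ρ + 1))

theorem exists_near (gr : GR0) (hf : HolM n p f) (hL : IsLB n L)
    (hI : ∀ y ∉ Q, ∀ x, f x = y → ∀ e' : Chart p Y.X, At e' y →
      Ind n (fun (a : Fin p) z => e' (f z) a) x) (y₀ : Y.X) :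
    ∃ (U : Set Y.X) (k m ρ : ℕ) (s : Fin k → L.ι → V.X → ℂ) (μ : Fin m → Y.X → ℂ), y₀ ∈ U ∧
      Near f L Q U ρ s μ := by
  obtain ⟨e, he⟩ : ∃ e : Chart p Y.X, At e y₀ := ⟨_, at_chartAt y₀⟩
  obtain ⟨R, hR, hb⟩ := nhds_basis_closedBall.mem_iff.1
    (e.open_target.mem_nhds (e.map_source he.2))
  obtain ⟨G, hG⟩ : ∃ G : Y.X → Cm p, G = fun y => e y - e y₀ := ⟨_, rfl⟩
  have hm : ∀ y ∈ e.source, map G (𝓝 y) = 𝓝 (G y) := fun y hy => by
    rw [hG]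
    exact (congrArg (map fun z => z - e y₀) (e.map_nhds_eq hy)).trans
      ((Homeomorph.subRight (e y₀)).map_nhds_eq _)
  have hj : InjOn G e.source := fun y hy y' hy' h => e.injOn hy hy' (by simpa [hG] using h)
  have hh : ∀ y ∈ e.source, ∀ c : Cm p → ℂ, AnalyticAt ℂ c (G y) → Hol p (fun y => c (G y)) y :=
    fun y hy c hc => by
      subst hG
      exact Ana.hol_chart ⟨he.1, hy⟩ (g := fun z => c (z - e y₀))
        (hc.comp (f := fun z => z - e y₀) (analyticAt_id.sub analyticAt_const))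
  have e1 : ∀ y ∈ e.source, f ⁻¹' e.source ∩ (fun x => G (f x)) ⁻¹' {G y} = f ⁻¹' {y} :=
    fun y hy => Set.ext fun x => ⟨fun h => hj h.1 hy h.2, fun (h : f x = y) =>
      ⟨show f x ∈ e.source from h ▸ hy, congrArg G h⟩⟩
  have hK : IsCompact (f ⁻¹' e.source ∩ (fun x => G (f x)) ⁻¹' closedBall 0 R) := by
    have : f ⁻¹' e.source ∩ (fun x => G (f x)) ⁻¹' closedBall 0 R =
        f ⁻¹' (e.symm '' closedBall (e y₀) R) := by
      rw [e.symm_image_eq_source_inter_preimage hb]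
      exact Set.ext fun x => by simp [hG, dist_eq_norm]
    rw [this]
    exact (((isCompact_closedBall _ _).image_of_continuousOn
      (e.continuousOn_symm.mono hb)).isClosed.preimage hf.cont).isCompact
  obtain ⟨ε, k, m, ρ, s, μ, -, g⟩ := gr n V.X L hL p _ (fun x => G (f x)) R
    (e.open_source.preimage hf.cont) (fun x hx l => hf.hol (hh _ hx (fun z => z l)
      ((ContinuousLinearMap.proj l : Cm p →L[ℂ] ℂ).analyticAt _))) hR hK
  refine ⟨e.source ∩ G ⁻¹' ball 0 ε, k, m, ρ, s, fun l y => μ l (G y),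
    ⟨he.2, by simp [hG, g.pos]⟩, ContinuousOn.isOpen_inter_preimage
      (fun y hy => (show ContinuousAt G y from (hm y hy).le).continuousWithinAt) e.open_source
      isOpen_ball, fun y hy l => hh y hy.1 _ (g.anμ l _ hy.2), fun y hy => ?_, g.sec,
    fun U' hU' t ht y hy => ?_, fun y hy hQ => ?_⟩
  · refine (frequently_map (P := fun τ => ∃ l, μ l τ ≠ 0) (m := G)).1 ?_
    rw [hm y hy.1]
    intro h
    obtain ⟨l, τ, hτ, h'⟩ := g.ne
    exact h' ((g.anμ l).eqOn_zero_of_preconnected_of_eventuallyEq_zero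
      (convex_ball _ _).isPreconnected hy.2 (h.mono fun σ a => not_not.1 fun b => a ⟨l, b⟩) hτ)
  · obtain ⟨r, hr, h⟩ := Metric.mem_nhds_iff.1 (hm y hy.1.1 ▸ image_mem_map (m := G)
      (inter_mem (e.open_source.mem_nhds hy.1.1) (hU'.mem_nhds hy.2)))
    obtain ⟨c, a, b⟩ := g.gen (G y) hy.1.2 r hr t (secOn_mono ht fun x hx =>
      let ⟨y', a, b⟩ := h hx.2
      show f x ∈ U' from hj a.1 hx.1 b ▸ a.2)
    refine ⟨fun j y => c j (G y), fun j => hh y hy.1.1 _ (a j), ?_⟩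
    rw [← hm y hy.1.1, eventually_map] at b
    filter_upwards [b, e.open_source.mem_nhds hy.1.1] with y' b₁ b₂
    rwa [e1 y' b₂] at b₁
  · have := g.fib (G y) hy.2 fun x hx h => by
      have a := hI y hQ x (hj hx hy.1 h) e ⟨he.1, hy.1⟩
      subst hG
      exact ⟨fun l e' he' => (a.1 l e' he').sub analyticAt_const, fun e' he' => by
        simpa only [Pi.sub_apply, dd_sub_const] using a.2 e' he'⟩
    rwa [e1 y hy.1] at this

variable {U : Set Y.X} {k m ρ : ℕ} {s : Fin k → L.ι → V.X → ℂ} {μ : Fin m → Y.X → ℂ}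

theorem Near.ev (h : Near f L Q U ρ s μ) {y : Y.X} (hy : y ∈ U) (a : ∃ l, μ l y ≠ 0) :
    ∀ᶠ y' in 𝓝 y, ∃ l, μ l y' ≠ 0 :=
  a.elim fun l b => ((h.hol y hy l).continuousAt.eventually_ne b).mono fun _ c => ⟨l, c⟩

theorem Near.fr (h : Near f L Q U ρ s μ) (hQ : Thin p Q) {y : Y.X} (hy : y ∈ U) :
    ∃ᶠ y' in 𝓝 y, y' ∉ Q ∧ ∃ l, μ l y' ≠ 0 := fun a => by
  obtain ⟨y', b, c, d⟩ := ((h.ne y hy).and_eventually
    (a.eventually_nhds.and (h.opn.mem_nhds hy))).exists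
  obtain ⟨y'', b', c', d'⟩ := ((mem_closure_iff_frequently.1 (hQ.2 y')).and_eventually
    (c.and (h.ev d b))).exists
  exact c' ⟨b', d'⟩

end As

open As in
theorem glob : GLOB := by
  intro rkf gr n p V Y f L Q hY hf hL hQ hI
  choose U k m ρ s μ hU h using exists_near gr hf hL hI
  have lc : IsLocallyConstant ρ := (IsLocallyConstant.iff_eventually_eq ρ).2 fun y₀ => by
    filter_upwards [(h y₀).opn.mem_nhds (hU y₀)] with y₁ h₁
    obtain ⟨y, a, b, c⟩ := (((h y₀).ne y₁ h₁).and_eventually (((h y₀).opn.eventually_mem h₁).and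
      ((h y₁).opn.eventually_mem (hU y₁)))).exists
    obtain ⟨y', ⟨q, a'⟩, a'', b', c'⟩ := (((h y₁).fr hQ c).and_eventually (((h y₀).ev b a).and
      (((h y₀).opn.eventually_mem b).and ((h y₁).opn.eventually_mem c)))).exists
    exact rk_eq (((h y₁).fib y' c' q).1 a').2 (((h y₀).fib y' b' q).1 a'').2
  obtain ⟨ρ₀, rfl⟩ := lc.exists_eq_const
  have hS : ∀ y₀, ∀ y ∈ U y₀, y ∈ Q ∪ {y | Rk (FSec n L (f ⁻¹' {y})) (Van L (f ⁻¹' {y})) (ρ₀ + 1)} ↔
      y ∈ Q ∪ {y | ∀ l, μ y₀ l y = 0} := fun y₀ y hy =>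
    or_congr_right' fun q => ⟨fun a l => not_not.1 fun b =>
      (((h y₀).fib y hy q).1 ⟨l, b⟩).2.2 a, ((h y₀).fib y hy q).2⟩
  refine ⟨_, ρ₀, ⟨fun y₀ => Ana.AnAt.congr (Ana.AnAt.union (hQ.1 y₀)
    ⟨_, μ y₀, (h y₀).hol y₀ (hU y₀), .of_forall fun _ => Iff.rfl⟩)
    (((h y₀).opn.eventually_mem (hU y₀)).mono fun y hy => (hS y₀ y hy).symm), fun y₀ => ?_⟩,
    subset_union_left, fun y₀ => ⟨U y₀, k y₀, s y₀, (h y₀).opn, hU y₀, (h y₀).sec, (h y₀).gen,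
      fun y hy hy' => ?_⟩⟩
  · refine mem_closure_iff_frequently.2 ((((h y₀).fr hQ (hU y₀)).and_eventually
      ((h y₀).opn.eventually_mem (hU y₀))).mono fun y ⟨⟨a, l, b⟩, c⟩ d => ?_)
    exact ((hS y₀ y c).1 d).elim a fun d => b (d l)
  · rw [hS y₀ y hy] at hy'
    obtain ⟨a, b, c⟩ := ((h y₀).fib y hy fun q => hy' (.inl q)).1
      (not_forall.1 fun q => hy' (.inr q))
    refine ⟨a, fun W hW => ?_⟩
    obtain rfl : W = (vanS L (f ⁻¹' {y})).comap (Fintype.linearCombination ℂ (s y₀)) :=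
      Submodule.ext hW
    exact rkf _ (secS n L (f ⁻¹' {y})) _ _ _ _ (fun j => secOn_fsec
      (secOn_mono ((h y₀).sec j) (preimage_mono (singleton_subset_iff.2 hy)))) a b c

end Vale.Agent.P281Z.Gr
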