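import Vale.Agent.P281Z.Gr.Calc
import Vale.Agent.P277Z.Ln.Dol0
import Mathlib.Topology.ContinuousMap.Bounded.ArzelaAscoli

/-!
# P281Z, block GR: the Dolbeault lemma in all degrees, compact operators
-/

open scoped ContDiff Topology Matrix
open Set Filter Metric
open Vale.Agent.P272.K Vale.Agent.P299.IX Vale.Agent.P299.IX.Fock
open Vale.Agent.P277Z.Ln

noncomputable section

namespace Vale.Agent.P281Z.Gr

namespace DgH

variable {n : ℕ} {z : Cm n}

/-- the equation in one variable, with parameters -/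
theorem sol (k : Fin n) {f : Cm n → ℂ} (hf : ∀ᶠ y in 𝓝 z, ContDiffAt ℝ ∞ f y) :
    ∃ c : Cm n → ℂ, ContDiff ℝ ∞ c ∧ (∀ᶠ y in 𝓝 z, dzb k c y = f y) ∧
      (∀ l, l ≠ k → (∀ᶠ y in 𝓝 z, dzb l f y = 0) → ∀ᶠ y in 𝓝 z, dzb l c y = 0) ∧
      ((∀ᶠ y in 𝓝 z, f y = 0) → ∀ y, c y = 0) := by
  by_cases h0 : ∀ᶠ y in 𝓝 z, f y = 0
  · exact ⟨fun _ => 0, contDiff_const, h0.mono fun y e => (C2.dzb_const k 0).trans e.symm,
      fun l _ _ => .of_forall fun y => C2.dzb_const l 0, fun _ _ => rfl⟩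
  obtain ⟨R, hR, h⟩ := eventually_nhds_iff_ball.1 (hf.and (eventually_all.2 fun l =>
    (eventually_imp_distrib_left (p := ∀ᶠ y in 𝓝 z, dzb l f y = 0)).2 id))
  obtain ⟨U, C, -, h1, -, h2, -, h3⟩ := Dol.step z (half_pos hR) (half_lt_self hR) k
  have hs : Dol.Sm (ball z R) f := fun y hy => (h y hy).1
  have hb := ball_mem_nhds z (half_pos hR)
  refine ⟨U f, h1 f hs, Eventually.mono hb (h2 f hs), fun l hl e => Eventually.mono hb
    fun y hy => neg_eq_zero.1 ((zero_sub _).symm.trans ?_), fun e => absurd e h0⟩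
  have h4 := h3 f (fun _ => 0) l hl hs (.of contDiff_const)
  rw [Dol.L1_congr (f := fun y => dzb l f y - _) (g := fun _ => 0) measurableSet_ball fun y hy => by
    rw [(h y hy).2 l e, C2.dzb_const, sub_zero]] at h4
  exact Dol.eq_zero_of_L1 isOpen_ball ((Dol.Sm.of contDiff_const).sub
    ((Dol.Sm.of (h1 f hs)).dzb l)).cont (by simpa [Dol.L1] using h4) y hy

/-- the formula of Cartan -/
theorem iot_db {u : Cm n → Fk n} (h : ContDiffAt ℝ ∞ u z) (l : Fin n)
    (h0 : ∀ᶠ y in 𝓝 z, iot l *ᵥ u y = 0) : iot l *ᵥ db u z = DVb l u z := by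
  have e : ∀ j, iot l *ᵥ (eps j *ᵥ DVb j u z) = if l = j then DVb j u z else 0 := fun j => by
    rw [Matrix.mulVec_mulVec, ← add_sub_cancel_right (iot l * eps j) (eps j * iot l), car,
      Matrix.sub_mulVec, ← Matrix.mulVec_mulVec, ← DVb_const_mulVec (iot l) h, DVb_congr h0,
      show DVb j (fun _ : Cm n => (0 : Fk n)) z = 0 from funext fun I => C2.dzb_const j 0]
    split_ifs <;> simp
  simp only [db, Matrix.mulVec_sum, e, Finset.sum_ite_eq, Finset.mem_univ, if_true]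

theorem iot_zero {a : Fk n} {l : Fin n} : iot l *ᵥ a = 0 ↔ ∀ I, l ∈ I → a I = 0 := by
  refine ⟨fun h I hI => ?_, fun h => funext fun K => ?_⟩
  · have := congrFun h (I.erase l)
    rw [iot_mulVec, if_neg (I.notMem_erase l), Finset.insert_erase hI] at this
    exact (mul_eq_zero.1 this).resolve_left (left_ne_zero_of_mul_eq_one (sg_mul_self _ _))
  · simp [iot_mulVec, h]

theorem Nm_iff {a : Fk n} {c : ℂ} : Nm n *ᵥ a = c • a ↔ ∀ I, (I.card : ℂ) ≠ c → a I = 0 := by
  simp only [funext_iff, Nm_apply, Pi.smul_apply, smul_eq_mul, mul_eq_mul_right_iff,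
    or_iff_not_imp_left]

theorem aux {q : ℕ} (hq : 0 < q) (k : ℕ) : ∀ u : Cm n → Fk n,
    (∀ᶠ y in 𝓝 z, (ContDiffAt ℝ ∞ u y ∧ Nm n *ᵥ u y = (q : ℂ) • u y ∧ db u y = 0) ∧
      ∀ l : Fin n, k ≤ l → iot l *ᵥ u y = 0) → ∃ w : Cm n → Fk n, ∀ᶠ y in 𝓝 z,
      ContDiffAt ℝ ∞ w y ∧ Nm n *ᵥ w y = ((q : ℂ) - 1) • w y ∧ db w y = u y := by
  induction k with
  | zero =>
    refine fun u h => ⟨fun _ => 0, h.mono fun y hy => ⟨contDiffAt_const, by simp,
      (db_const 0).trans (funext fun I => Eq.symm ?_)⟩⟩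
    rcases I.eq_empty_or_nonempty with rfl | ⟨l, hl⟩
    · exact Nm_iff.1 hy.1.2.1 _ (by exact_mod_cast hq.ne)
    · exact iot_zero.1 (hy.2 l (Nat.zero_le _)) I hl
  | succ k ih =>
    intro u h
    by_cases hk : n ≤ k
    · exact ih u (h.mono fun y hy => ⟨hy.1, fun l hl => absurd l.2 (by omega)⟩)
    let κ : Fin n := ⟨k, not_le.1 hk⟩
    have h1 : ∀ l : Fin n, k + 1 ≤ l → ∀ᶠ y in 𝓝 z, DVb l u y = 0 := fun l hl =>
      h.eventually_nhds.mono fun y hy => by
        rw [← iot_db hy.self_of_nhds.1.1 l (hy.mono fun _ e => e.2 l hl), hy.self_of_nhds.1.2.2,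
          Matrix.mulVec_zero]
    choose c c1 c2 c3 c4 using fun I => sol (z := z) (f := fun y => (iot κ *ᵥ u y) I) κ
      (h.mono fun y hy => contDiffAt_pi.1 (smooth_mulVec (MC_const _ y) hy.1.1) I)
    have d1 : ∀ y, ContDiffAt ℝ ∞ (fun y I => c I y) y := fun y =>
      contDiffAt_pi.2 fun I => (c1 I).contDiffAt
    have d2 : ∀ y, Nm n *ᵥ (fun I => c I y) = ((q : ℂ) - 1) • fun I => c I y := fun y =>
      Nm_iff.2 fun I hI => c4 I (h.mono fun y hy => Nm_iff.1 (by
        rw [Nm_iot, hy.1.2.1, Matrix.mulVec_smul, sub_smul, one_smul]) I hI) y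
    have d3 : ∀ l : Fin n, k ≤ l → ∀ y, iot l *ᵥ (fun I => c I y) = 0 := fun l hl y =>
      iot_zero.2 fun I hI => c4 I (h.mono fun y hy => iot_zero.1 (by
        rw [Matrix.mulVec_mulVec]
        rcases hl.eq_or_lt with e | e
        · rw [show l = κ from Fin.ext e.symm, iot_sq, Matrix.zero_mulVec]
        · rw [iot_iot, Matrix.neg_mulVec, ← Matrix.mulVec_mulVec, hy.2 l e, Matrix.mulVec_zero,
            neg_zero]) I hI) y
    have d4 : ∀ l : Fin n, k ≤ l → ∀ᶠ y in 𝓝 z, DVb l (fun y I => c I y) y = iot l *ᵥ u y := by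
      intro l hl
      rcases hl.eq_or_lt with e | e
      · rw [show l = κ from Fin.ext e.symm]
        exact (eventually_all.2 c2).mono fun y => funext
      · refine ((eventually_all.2 fun I => c3 I l (fun e' => by simp [e', κ] at e) ?_).and h).mono
          fun y hy => (funext hy.1).trans (hy.2.2 l e).symm
        filter_upwards [h, h1 l e] with y k1 k2
        exact congrFun ((DVb_const_mulVec (iot κ) k1.1.1 l).trans
          (by rw [k2, Matrix.mulVec_zero])) I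
    obtain ⟨w, hw⟩ := ih (fun y => u y - db (fun y I => c I y) y) (by
      filter_upwards [h, eventually_all.2 fun l : Fin n => eventually_imp_distrib_left.2 (d4 l)]
        with y k1 k2
      refine ⟨⟨k1.1.1.sub (db_smooth (d1 y)), ?_, ?_⟩, fun l hl => ?_⟩
      · simp only [Matrix.mulVec_sub, k1.1.2.1, Nm_db (d1 y), d2, db_const_smul _ (d1 y)]
        module
      · rw [db_sub k1.1.1 (db_smooth (d1 y)), k1.1.2.2, db_db (d1 y), sub_zero]
      · rw [Matrix.mulVec_sub, iot_db (d1 y) l (.of_forall (d3 l hl)), k2 l hl, sub_self])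
    refine ⟨fun y => w y + fun I => c I y, hw.mono fun y hy => ⟨hy.1.add (d1 y), ?_, ?_⟩⟩
    · rw [Matrix.mulVec_add, hy.2.1, d2, smul_add]
    · rw [db_add hy.1 (d1 y), hy.2.2, sub_add_cancel]

end DgH

/-- **DG** -/
theorem dg : DG := fun n _ u _ hq h =>
  DgH.aux hq n u (h.mono fun _ hy => ⟨hy, fun l hl => absurd l.2 (not_lt.2 hl)⟩)

/-- **CPT** -/
theorem cpt : CPT := fun V Y Λ _ _ _ _ _ _ _ T h => by
  have := FiniteDimensional.proper ℂ Λ
  let e := ContinuousMap.isometryEquivBoundedOfCompact V Λ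
  refine ⟨e.symm '' closure ((fun v => e (T v)) '' closedBall 0 1),
    (BoundedContinuousFunction.arzela_ascoli (closedBall 0 ‖T‖) (isCompact_closedBall _ _) _ ?_
      fun x => Metric.equicontinuousAt_iff_right.2 fun ε hε => ?_).image e.symm.continuous,
    mem_of_superset (closedBall_mem_nhds 0 one_pos) fun v hv =>
      ⟨_, subset_closure ⟨v, hv, rfl⟩, e.symm_apply_apply _⟩⟩
  · rintro _ x ⟨v, hv, rfl⟩
    exact mem_closedBall_zero_iff.2 (((T v).norm_coe_le_norm x).trans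
      (T.unit_le_opNorm v (mem_closedBall_zero_iff.1 hv)))
  · filter_upwards [h x _ (half_pos hε)] with y hy
    rintro ⟨_, v, hv, rfl⟩
    rw [dist_comm, dist_eq_norm]
    exact (hy v).trans_lt ((mul_le_of_le_one_right (half_pos hε).le
      (mem_closedBall_zero_iff.1 hv)).trans_lt (half_lt_self hε))

end Vale.Agent.P281Z.Gr
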