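import Vale.Agent.P281Z.Gr.Sk
import Vale.Agent.P281Z.Gr.Api
import Vale.Agent.P281Z.Mf.Loc
import Vale.Agent.P281.H511.Gen.Local

/-!
# P281Z, block GR: division, density, analytic families of cycles
-/

open scoped Manifold ContDiff Topology NNReal
open Set Filter Metric
open Vale.Agent.P272.K Vale.Agent.P285.H281.FD
open Vale.Agent.P277Z (Hol at_chart)
open Vale.Agent.P277Z.Slc (Ind)

set_option linter.unusedSectionVars false

noncomputable section

namespace Vale.Agent.P281Z.Gr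

namespace Dv

section
variable {n : ℕ} {V : Type} [TopologicalSpace V] [ChartedSpace (Cm n) V]
  [IsManifold 𝓘(ℂ, Cm n) ω V] {x : V} {α : Type} {h : α → V → ℂ}

/-- independent functions take near `x` any pattern of values -/
theorem freq [Finite α] (hi : Ind n h x) (t : α → Prop) :
    ∃ᶠ y in 𝓝 x, ∀ a, h a y = h a x ↔ t a := by
  classical
  have := Fintype.ofFinite α
  obtain ⟨Θ, -, h2, -, h4⟩ := exists_co hi (Nat.add_sub_cancel' (ind_le hi)) univ_mem
  let w : (α → ℂ) × Cm (n - Fintype.card α) := (fun a => if t a then 0 else 1, 0)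
  have k1 : Tendsto (fun ε : ℂ => Θ x + ε • w) (𝓝[≠] 0) (𝓝 (Θ x)) :=
    ((by fun_prop : Continuous fun ε : ℂ => Θ x + ε • w).tendsto' 0 _ (by simp)).mono_left
      nhdsWithin_le_nhds
  refine ((Θ.tendsto_symm h2).comp k1).frequently (Eventually.frequently ?_)
  filter_upwards [k1.eventually (Θ.open_target.mem_nhds (Θ.map_source h2)),
    self_mem_nhdsWithin] with ε a b c
  have e := congrFun (h4 _ (Θ.map_target a)) c
  rw [Θ.right_inv a] at e
  rw [Function.comp_apply, ← e, ← congrFun (h4 x h2) c]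
  by_cases k : t c <;> simp [w, k, show ε ≠ 0 from b]

/-- division by one of the functions on a common level set of some others -/
theorem dv [Fintype α] (hi : Ind n h x) (s : α → Prop) (l : α) {b : V → ℂ} (hb : Hol n b x)
    (h0 : ∀ᶠ y in 𝓝 x, (∀ a, s a → h a y = h a x) → h l y = h l x → b y = 0) :
    ∃ b', Hol n b' x ∧ ∀ᶠ y in 𝓝 x, (∀ a, s a → h a y = h a x) → b y = (h l x - h l y) * b' y := by
  classical
  obtain ⟨Θ, h1, h2, -, h4⟩ := exists_co hi (Nat.add_sub_cancel' (ind_le hi)) univ_mem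
  let A : (α → ℂ) →L[ℂ] α → ℂ := .pi fun a => if s a ∨ a = l then 0 else .proj a
  have hA : ∀ w a, A w a = if s a ∨ a = l then 0 else w a := fun w a => by
    simp only [A, ContinuousLinearMap.pi_apply]
    split_ifs <;> rfl
  let π := A.prodMap (ContinuousLinearMap.id ℂ (Cm (n - Fintype.card α)))
  have hπ : ‖π‖ ≤ 1 := π.opNorm_le_bound zero_le_one fun v => by
    rw [one_mul]
    refine max_le_max ((pi_norm_le_iff_of_nonneg (norm_nonneg _)).2 fun a => ?_) le_rfl
    rw [show (π v).1 a = _ from hA v.1 a]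
    split_ifs
    exacts [by simp, norm_le_pi_norm _ a]
  have hx := Θ.map_source h2
  obtain ⟨Q, k1, k2⟩ := P281.H511.Gen.exists_division π hπ
    (h1.an_hol hx (a := b) (by rwa [Θ.left_inv h2]))
  have k3 : Tendsto (fun y => Θ x + π (Θ y - Θ x)) (𝓝 x) (𝓝 (Θ x)) :=
    ((by fun_prop : Continuous fun v => Θ x + π (v - Θ x)).tendsto' _ _ (by simp)).comp
      (Θ.continuousAt h2)
  refine ⟨fun y => -Q (Θ y) (Pi.single l 1, 0), (h1.an x h2).cmp (G := fun v => -Q v (Pi.single l 1, 0))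
    (((ContinuousLinearMap.apply ℂ ℂ (Pi.single l 1, 0)).analyticAt _).fun_comp k1).fun_neg, ?_⟩
  filter_upwards [(Θ.continuousAt h2).eventually k2, Θ.open_source.mem_nhds h2,
    k3.eventually (Θ.open_target.mem_nhds hx), ((Θ.tendsto_symm h2).comp k3).eventually h0]
    with y a1 a2 a3 a4 a5
  have e1 : ∀ a, s a ∨ a = l → h a (Θ.symm (Θ x + π (Θ y - Θ x))) = h a x := fun a ha => by
    rw [← congrFun (h4 _ (Θ.map_target a3)) a, Θ.right_inv a3, ← congrFun (h4 x h2) a]
    exact add_eq_left.2 ((hA _ a).trans (if_pos ha))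
  have e2 : Θ y - (Θ x + π (Θ y - Θ x)) = (h l y - h l x) • (Pi.single l 1, 0) := by
    refine Prod.ext (funext fun a => ?_) (by simp [π])
    change (Θ y).1 a - ((Θ x).1 a + A ((Θ y).1 - (Θ x).1) a) =
      (h l y - h l x) * (Pi.single l 1 : α → ℂ) a
    rw [hA, h4 x h2, h4 y a2]
    by_cases k : a = l
    · simp [k]
    · by_cases k' : s a <;> simp [k, k', a5]
  rw [Θ.left_inv a2, show b (Θ.symm (Θ x + π (Θ y - Θ x))) = 0 from
    a4 (fun a ha => e1 a (.inl ha)) (e1 l (.inr rfl)), sub_zero, e2, map_smul] at a1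
  rw [a1, smul_eq_mul]
  ring

end

section
variable {n p : ℕ} {V : Type} [TopologicalSpace V] [CompactSpace V] [ChartedSpace (Cm n) V]
  {L : Bd V} {C : Cx p L} {F : V → Cm p} {K₀ : Set V} {s : Finset (Fin p)}

variable (C) in
/-- the family `P` is realised by one element -/
def Rl (P : V → C.X) : Prop :=
  ∃ ξ, ∀ y, C.π ξ y = C.π (P y) y ∧ ∀ τ, C.π (C.Dt τ ξ) y = C.π (C.Dt τ (P y)) y

theorem rl_sum {ι : Type} (t : Finset ι) {P : ι → V → C.X} (h : ∀ a, Rl C (P a)) :
    Rl C fun y => ∑ a ∈ t, P a y := by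
  choose ξ h1 h2 using h
  exact ⟨∑ a ∈ t, ξ a, fun y => ⟨by simp [h1], fun τ => by simp [h2]⟩⟩

theorem rl_smul (h : C.Ok n F K₀ s) {φ : V → ℂ} (hφ : Sm n φ) (k : ∀ x ∈ K₀, Hol n φ x) (c : C.X) :
    Rl C fun y => φ y • c :=
  ⟨C.mul φ c, fun y => ⟨by simp [h.mulπ φ hφ], fun τ => by simp [h.Dt_mul hφ k, h.mulπ φ hφ]⟩⟩

theorem rl_ml (h : C.Ok n F K₀ s) (hd : Dat n F K₀) {j : ℕ}
    (m : ContinuousMultilinearMap ℂ (fun _ : Fin j => Cm p) C.X) (τ : Cm p) :
    Rl C fun y => m fun _ => F y - τ := by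
  have e : ∀ w : Cm p, (m fun _ => w) =
      ∑ al : Fin j → Fin p, (∏ i, w (al i)) • m fun i => Pi.single (al i) 1 := fun w => by
    simp only [← m.map_smul_univ]
    rw [← m.map_sum fun _ l => w l • (Pi.single l 1 : Cm p), ← pi_eq_sum_univ']
  simp only [e]
  exact rl_sum _ fun al => rl_smul h (sm_prod _ fun i _ => (hd.sm (al i)).sub (sm_const (τ (al i))))
    (fun x hx e he => Finset.analyticAt_fun_prod _ fun i _ =>
      (hd.hol x hx _ e he).fun_sub analyticAt_const) _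

end

theorem unif {V X G : Type} [NormedAddCommGroup X] [NormedAddCommGroup G] [NormedSpace ℂ X]
    [NormedSpace ℂ G] {P : ℕ → V → X} {a : V → X} {S : Set V} (T : V → X →L[ℂ] G) {M : ℝ}
    (h : TendstoUniformlyOn P a atTop S) (hT : ∀ y ∈ S, ∀ ξ, ‖T y ξ‖ ≤ M * ‖ξ‖) :
    TendstoUniformlyOn (fun k y => T y (P k y)) (fun y => T y (a y)) atTop S := by
  rw [Metric.tendstoUniformlyOn_iff] at h ⊢
  intro ε hε
  filter_upwards [h (ε / (|M| + 1)) (by positivity)] with k hk y hy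
  have := hk y hy
  rw [dist_eq_norm] at this ⊢
  rw [← map_sub]
  rw [lt_div_iff₀ (by positivity)] at this
  nlinarith [hT y hy (a y - P k y), norm_nonneg (a y - P k y), le_abs_self M]

end Dv

open Dv

theorem dens : DENS := fun _ _ _ _ _ _ _ _ _ hi =>
  (freq hi fun a => a.isRight).mono fun _ h =>
    ⟨fun b => (h (.inr b)).2 rfl, fun a k => by simpa using (h (.inl a)).1 k⟩

theorem div : DIV := fun n V _ _ _ _ _ _ _ p F x s l hl hi b hb => ⟨dv hi (· ∈ s) l hb, fun h => by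
  filter_upwards [hi.near, hb.near, h.eventually_nhds] with y a1 a2 a3 a4
  by_contra k
  by_cases e : F y l = F x l
  · obtain ⟨z, b1, b2, b3⟩ := ((freq a1 (· ∈ s)).and_eventually
      (a3.and (a2.continuousAt.eventually_ne k))).exists
    refine mul_ne_zero (sub_ne_zero.2 fun c => hl ((b1 l).1 ?_)) b3
      (b2 fun l' hl' => ((b1 l').2 hl').trans (a4 l' hl'))
    rw [e, c]
  · exact mul_ne_zero (sub_ne_zero.2 (Ne.symm e)) k (a3.self_of_nhds a4)⟩

theorem hol : HOL := fun n V _ _ _ _ _ L _ p F K₀ C hd s h v i x _ hi hv h0 => by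
  obtain ⟨pw, r, hp⟩ := hv
  obtain ⟨r', r0, r1⟩ := ENNReal.lt_iff_exists_nnreal_btwn.1 hp.r_pos
  obtain ⟨M, hM⟩ := h.evb i x hi
  have hF : Continuous F := continuous_pi fun l => (hd.sm l).cont
  choose ξ h1 h2 using fun k => rl_sum (Finset.range k) fun j => rl_ml h hd (pw j) (F x)
  have hc : Continuous fun y => ‖C.Dt (F y)‖ := (continuous_const.add (C.E.continuous.comp hF)).norm
  let S := {y | F y ∈ ball (F x) r' ∧ ‖C.ev i y‖ ≤ M ∧ ‖C.Dt (F y)‖ < ‖C.Dt (F x)‖ + 1 ∧
    C.Dt (F y) (v (F y)) = 0}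
  have hS : S ∈ 𝓝 x := (hF.continuousAt.eventually (ball_mem_nhds _ (by exact_mod_cast r0))).and
    (hM.and ((hc.continuousAt.eventually_lt_const (lt_add_one _)).and (hF.continuousAt.eventually h0)))
  have hu : TendstoUniformlyOn (fun k y => pw.partialSum k (F y - F x)) (fun y => v (F y)) atTop S :=
    ((hp.tendstoUniformlyOn' r1).comp F).mono fun y hy => hy.1
  have hπ : ∀ η y, ‖C.π η y‖ ≤ ‖C.π‖ * ‖η‖ := fun η y =>
    ((C.π η).norm_coe_le_norm y).trans (C.π.le_opNorm η)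
  refine h.wey ξ _ i x hi S hS ?_ ?_
  · refine (unif (fun y => C.ev i y ∘L ContinuousMap.evalCLM ℂ y ∘L C.π) (M := M * ‖C.π‖) hu
      fun y hy η => ?_).congr (.of_forall fun k y _ => congrArg (C.ev i y) (h1 k y).symm)
    refine ((C.ev i y).le_opNorm _).trans ?_
    rw [mul_assoc]
    exact mul_le_mul hy.2.1 (hπ η y) (norm_nonneg _) ((norm_nonneg _).trans hy.2.1)
  · refine ((unif (fun y => ContinuousMap.evalCLM ℂ y ∘L C.π ∘L C.Dt (F y))
      (M := ‖C.π‖ * (‖C.Dt (F x)‖ + 1)) hu fun y hy η => ?_).congr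
        (.of_forall fun k y _ => (h2 k y _).symm)).congr_right fun y hy => by simp [hy.2.2.2]
    refine (hπ _ y).trans ?_
    rw [mul_assoc]
    exact mul_le_mul_of_nonneg_left (((C.Dt (F y)).le_opNorm η).trans
      (mul_le_mul_of_nonneg_right hy.2.2.1.le (norm_nonneg _))) (norm_nonneg _)

end Vale.Agent.P281Z.Gr
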