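import Vale.Agent.P281Z.Gr.Defs

/-!
# P281Z, block GR: generators of the cohomology, analytic primitives, relations
-/

open scoped Topology Matrix
open Set Filter Metric Module
open Vale.Agent.P272.K

noncomputable section

namespace Vale.Agent.P281Z.Gr

namespace Fn

theorem an_apply {E X Y : Type} [NormedAddCommGroup E] [NormedSpace ℂ E] [NormedAddCommGroup X]
    [NormedSpace ℂ X] [NormedAddCommGroup Y] [NormedSpace ℂ Y] {f : E → X →L[ℂ] Y} {g : E → X}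
    {x : E} (hf : AnalyticAt ℂ f x) (hg : AnalyticAt ℂ g x) : AnalyticAt ℂ (fun y => f y (g y)) x :=
  ((ContinuousLinearMap.id ℂ (X →L[ℂ] Y)).analyticAt_bilinear (f x, g x)).comp₂ hf hg

variable {p : ℕ} {X : Type} [NormedAddCommGroup X] [NormedSpace ℂ X] {D N : X →L[ℂ] X}
  {E : Cm p →L[ℂ] X →L[ℂ] X} {ε : ℝ} {a a' b : ℕ} {i : Cm p → (Fin a → ℂ) →L[ℂ] X}
  {q : Cm p → X →L[ℂ] (Fin a → ℂ)} {A : Cm p → Matrix (Fin a) (Fin a') ℂ}
  {B : Cm p → Matrix (Fin b) (Fin a) ℂ} {τ : Cm p}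

theorem bc_add {ξ η : X} (h : ξ ∈ Bc D N) (k : η ∈ Bc D N) : ξ + η ∈ Bc D N :=
  let ⟨x, a, b⟩ := h
  let ⟨y, c, d⟩ := k
  ⟨x + y, by rw [map_add, a, c, neg_add], by rw [map_add, b, d]⟩

theorem bc_of (h : Red D N E ε i q A B) (hτ : τ ∈ ball (0 : Cm p) ε) {ξ : X}
    (h1 : ξ ∈ Zc (D + E τ) N) {k : ℕ} {c : Fin k → ℂ} {v : Fin k → Fin a → ℂ}
    (h2 : ∃ w, q τ ξ - ∑ j, c j • v j = A τ *ᵥ w) : ξ - ∑ j, c j • i τ (v j) ∈ Bc (D + E τ) N := by
  simpa using bc_add (h.ret τ hτ ξ h1).2 ((h.bd τ hτ _).2 h2)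

theorem rk_iff (h : Red D N E ε i q A B) (hτ : τ ∈ ball (0 : Cm p) ε) (j : ℕ) :
    Rk (Zc (D + E τ) N) (Bc (D + E τ) N) j ↔ Rk {z | B τ *ᵥ z = 0} {z | ∃ w, z = A τ *ᵥ w} j := by
  refine ⟨fun ⟨z, a, b⟩ => ⟨fun j => q τ (z j), fun j => (h.ret τ hτ _ (a j)).1, fun c e => b c ?_⟩,
    fun ⟨z, a, b⟩ => ⟨fun j => i τ (z j), fun j => h.cyc τ hτ _ (a j), fun c e =>
      b c ((h.bd τ hτ _).1 (by simpa using e))⟩⟩
  simpa using bc_of h hτ (ξ := ∑ j, c j • z j) ⟨by simp [(a _).1], by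
    simp only [map_sum, map_smul, (a _).2, smul_zero, Finset.sum_const_zero]⟩ (k := 0)
      (c := Fin.elim0) (v := Fin.elim0) (by simpa using e)

end Fn

open Fn

theorem fin_of (hH : HPL) (hL : LIN) : FIN := by
  intro p X _ _ _ D N P E h1 h2 h3 ε₀ h0
  obtain ⟨ε₁, a, a', b, i, q, A, B, h⟩ := hH p X D N P E h1 h2 h3
  have s0 : ball (0 : Cm p) (min ε₀ ε₁) ⊆ ball 0 ε₁ := ball_subset_ball (min_le_right _ _)
  obtain ⟨ε, k, m, ρ, v, μ, h4, g⟩ := hL p a a' b (min ε₀ ε₁) A B (lt_min h0 h.pos)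
    (fun j k => (h.anA j k).mono s0) (fun j k => (h.anB j k).mono s0) fun τ e => h.ba τ (s0 e)
  have s : ball (0 : Cm p) ε ⊆ ball 0 ε₁ := (ball_subset_ball h4).trans s0
  refine ⟨ε, k, m, ρ, fun j τ => i τ (v j τ), μ, h4.trans (min_le_left _ _), g.pos,
    fun j τ e => an_apply (h.ani τ (s e)) (g.anv j τ e), g.anμ, g.ne,
    fun τ e j => h.cyc τ (s e) _ (g.cyc τ e j), fun τ e z z1 z2 => ?_, fun τ e f ξ d =>
      (g.span τ e f _ (h.ret τ (s e) ξ d).1).imp fun c => bc_of h (s e) d, fun τ e f => ?_,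
    fun τ e f => (rk_iff h (s e) _).2 (g.jump τ e f)⟩
  · have z3 := z2.and (isOpen_ball.eventually_mem (s e))
    obtain ⟨c, c1, c2⟩ := g.gen τ e _ (an_apply (h.anq τ (s e)) z1)
      (z3.mono fun σ d => (h.ret σ d.2 _ d.1).1)
    exact ⟨c, c1, (z3.and c2).mono fun σ d => bc_of h d.1.2 d.1.1 d.2⟩
  · rw [rk_iff h (s e), rk_iff h (s e)]
    exact g.rk τ e f

theorem par : PAR := by
  intro p X _ _ _ D N h E C τ₀ h1 h2 h3 h4 h5 h6 g h7 h8 h9
  let t : Cm p → X →L[ℂ] X := fun τ => -(E (τ - τ₀) * h + h * E (τ - τ₀))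
  have k1 : AnalyticAt ℂ (fun τ => E (τ - τ₀)) τ₀ :=
    (E.analyticAt _).comp (analyticAt_id.sub analyticAt_const)
  have k2 : AnalyticAt ℂ t τ₀ :=
    ((k1.fun_mul analyticAt_const).fun_add (analyticAt_const.fun_mul k1)).fun_neg
  have k3 : t τ₀ = 0 := by simp [t]
  have k4 : ∀ τ ξ, E (τ - τ₀) ξ = (D + E τ) ξ - (D + E τ₀) ξ := fun τ ξ => by simp
  have k5 : ∀ τ ξ, t τ ξ = -(E (τ - τ₀) (h ξ) + h (E (τ - τ₀) ξ)) := fun _ _ => rfl
  have k6 : AnalyticAt ℂ (fun τ => Ring.inverse (1 - t τ)) τ₀ :=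
    (analyticAt_inverse (𝕜 := ℂ) (1 : (X →L[ℂ] X)ˣ)).comp_of_eq (analyticAt_const.fun_sub k2)
      (by simp [k3])
  refine ⟨fun τ => Ring.inverse (1 - t τ) (h g), an_apply k6 analyticAt_const, ?_⟩
  filter_upwards [k2.continuousAt.norm.eventually_lt (continuousAt_const (y := 1)) (by simp [k3])]
    with τ a
  have b1 : ∀ k, (t τ ^ k) (h g) ∈ C ∧ N ((t τ ^ k) (h g)) = 0 := fun k => by
    induction k with
    | zero => exact ⟨h4 g h7, (h5 g).trans (by rw [h8, sub_self])⟩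
    | succ k ih =>
      rw [pow_succ', show (t τ * t τ ^ k) (h g) = t τ ((t τ ^ k) (h g)) from rfl, k5, k4, k4]
      refine ⟨C.neg_mem (C.add_mem (C.sub_mem (h3 _ _ (h4 _ ih.1)) (h3 _ _ (h4 _ ih.1)))
        (h4 _ (C.sub_mem (h3 _ _ ih.1) (h3 _ _ ih.1)))), ?_⟩
      simp only [map_neg, map_add, map_sub, h1.deg, h5, ih.2, map_zero]
      abel
  have b2 := (hasSum_geom_series_inverse _ a).mapL (ContinuousLinearMap.apply ℂ X (h g))
  have b3 : Ring.inverse (1 - t τ) (h g) ∈ C :=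
    h2.mem_of_tendsto b2 (.of_forall fun s => C.sum_mem fun k _ => (b1 k).1)
  have b4 : IsUnit (1 - t τ) := (Units.oneSub _ a).isUnit
  have b5 : ∀ ξ ∈ C, (1 - t τ) ξ = (D + E τ) (h ξ) + h ((D + E τ) ξ) := fun ξ c => by
    rw [show (1 - t τ) ξ = ξ - t τ ξ from rfl, k5, k4, k4, map_sub, sub_neg_eq_add]
    nth_rw 1 [← h6 ξ c]
    abel
  have b6 : ∀ ξ, (1 - t τ) (Ring.inverse (1 - t τ) ξ) = ξ := fun ξ =>
    congrArg (· ξ) (Ring.mul_inverse_cancel _ b4)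
  have b7 : ∀ ξ, Ring.inverse (1 - t τ) ((1 - t τ) ξ) = ξ := fun ξ =>
    congrArg (· ξ) (Ring.inverse_mul_cancel _ b4)
  have b9 : N (Ring.inverse (1 - t τ) (h g)) = 0 := by
    have e : HasSum (fun k : ℕ => N ((t τ ^ k) (h g))) (N (Ring.inverse (1 - t τ) (h g))) :=
      b2.mapL N
    simp only [(b1 _).2] at e
    exact e.unique hasSum_zero
  refine ⟨b3, b9, ?_⟩
  have b8 := congrArg (D + E τ) (b6 (h g))
  rw [b5 _ b3, map_add, h1.sq, zero_add] at b8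
  have c1 : (1 - t τ) g = (D + E τ) (h g) := by rw [b5 g h7, h9, map_zero, add_zero]
  refine (b7 _).symm.trans ?_
  rw [b5 _ (h3 _ _ b3), h1.sq, map_zero, add_zero, b8, ← c1, b7]

theorem rkf : RKF := by
  intro X _ _ Z B k ρ s h1 h2 h3 h4
  let f := B.mkQ.comp (Fintype.linearCombination ℂ s)
  have k1 := f.finrank_range_add_finrank_ker
  rw [LinearMap.ker_comp, Submodule.ker_mkQ, finrank_fin_fun] at k1
  have k2 : ∀ {j : ℕ} (z : Fin j → X) (w : Fin j → LinearMap.range f) (c : Fin j → ℂ),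
      (∀ i, B.mkQ (z i) = w i) → (∑ i, c i • w i = 0 ↔ ∑ i, c i • z i ∈ B) := fun z w c e => by
    rw [← Submodule.Quotient.mk_eq_zero, ← Submodule.mkQ_apply, Subtype.ext_iff]
    simp only [map_sum, map_smul, e, Submodule.coe_sum, Submodule.coe_smul, Submodule.coe_zero]
  have k3 : ρ ≤ finrank ℂ (LinearMap.range f) := by
    obtain ⟨z, a, b⟩ := h3
    choose c hc using fun i => h2 _ (a i)
    simpa using (Fintype.linearIndependent_iff.2 fun d e => congrFun (b d ((k2 z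
      (fun i => ⟨f (c i), _, rfl⟩) d fun i => (Submodule.Quotient.eq _).2 (hc i)).1 e)))
      |>.fintype_card_le_finrank
  have k4 : ¬ ρ + 1 ≤ finrank ℂ (LinearMap.range f) := fun e => by
    obtain ⟨w, hw⟩ := exists_linearIndependent_of_le_finrank e
    choose c hc using fun i => (w i).2
    exact h4 ⟨fun i => ∑ j, c i j • s j, fun i => Z.sum_mem fun j _ => Z.smul_mem _ (h1 j),
      fun d e => funext (Fintype.linearIndependent_iff.1 hw d ((k2 _ w d hc).2 e))⟩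
  omega

end Vale.Agent.P281Z.Gr
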