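import Vale.Agent.P281Z.Gr.FlatA

/-!
# P281Z, block GR: the smoothing homotopy on flat space
-/

set_option linter.unusedSectionVars false

open scoped ContDiff Topology BoundedContinuousFunction Matrix ComplexConjugate
open Set Filter Metric MeasureTheory
open Vale.Agent.P272.K Vale.Agent.P299.IX Vale.Agent.P299.IX.Fock

noncomputable section

namespace Vale.Agent.P281Z.Gr

namespace Fl

variable {n : ℕ} {F : Type} [NormedAddCommGroup F] [NormedSpace ℂ F] [CompleteSpace F]

/-- the antilinear part -/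
def dB (l : Fin n) (A : Cm n → F) : F :=
  (2 : ℂ)⁻¹ • (A (Pi.single l 1) + Complex.I • A (Pi.single l Complex.I))

theorem dzb_eq (l : Fin n) (f : Cm n → ℂ) (z : Cm n) : dzb l f z = dB l (fderiv ℝ f z) := by
  simp only [dzb, dB, smul_eq_mul]
  ring

theorem DVb_eq (l : Fin n) {a : Cm n → Fk n} {z : Cm n} (h : DifferentiableAt ℝ a z) :
    DVb l a z = dB l (fderiv ℝ a z) := by
  funext i
  rw [DVb, dzb_eq, fderiv_apply h]
  rfl

theorem anti (A : Cm n →L[ℝ] F) (w : Cm n) :
    A w + Complex.I • A (Complex.I • w) = ∑ j, (2 * conj (w j)) • dB j A := by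
  have h : ∀ w : Cm n, A w = ∑ j, (((w j).re : ℂ) • A (Pi.single j 1) +
      ((w j).im : ℂ) • A (Pi.single j Complex.I)) := fun w => by
    simp only [Complex.coe_smul, ← map_smul, ← map_add, ← map_sum]
    congr 1
    funext i
    simp [Pi.single_apply, Finset.sum_add_distrib]
  rw [h w, h (Complex.I • w), Finset.smul_sum, ← Finset.sum_add_distrib]
  refine Finset.sum_congr rfl fun j _ => ?_
  rw [dB]
  match_scalars <;> apply Complex.ext <;> simp <;> ring

theorem exists_rho (n : ℕ) {δ : ℝ} (hδ : 0 < δ) : ∃ ρ : Cm n → ℂ, ContDiff ℝ ∞ ρ ∧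
    (∀ w ∉ closedBall (0 : Cm n) δ, ρ w = 0) ∧ ∫ w, ρ w = 1 ∧
    ∀ u : ℂ, ‖u‖ = 1 → ∀ w, ρ (u • w) = ρ w := by
  let r : Cm n → ℝ := fun w => expNegInvGlue (δ ^ 2 - ∑ j, ‖w j‖ ^ 2)
  have h1 : ContDiff ℝ ∞ r := expNegInvGlue.contDiff.comp (contDiff_const.sub
    (ContDiff.sum fun j _ => (contDiff_norm_sq ℝ).comp (contDiff_apply ℝ ℂ j)))
  have h2 : ∀ w ∉ closedBall (0 : Cm n) δ, r w = 0 := fun w hw => by
    rw [mem_closedBall_zero_iff, pi_norm_le_iff_of_nonneg hδ.le, not_forall] at hw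
    obtain ⟨j, hj⟩ := hw
    exact expNegInvGlue.zero_of_nonpos (sub_nonpos.2 ((pow_le_pow_left₀ hδ.le (not_le.1 hj).le 2).trans
      (Finset.single_le_sum (f := fun j => ‖w j‖ ^ 2) (fun _ _ => by positivity)
        (Finset.mem_univ j))))
  have h3 : 0 < ∫ w, r w := h1.continuous.integral_pos_of_hasCompactSupport_nonneg_nonzero
    (HasCompactSupport.intro (isCompact_closedBall _ _) h2) (fun _ => expNegInvGlue.nonneg _)
    (x := 0) (expNegInvGlue.pos_of_pos (by simpa using pow_pos hδ 2)).ne'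
  refine ⟨fun w => ((∫ w, r w)⁻¹ * r w : ℝ), Complex.ofRealCLM.contDiff.comp
    (contDiff_const.mul h1), fun w hw => by simp [h2 w hw], ?_, fun u hu w => by simp [r, hu]⟩
  rw [integral_complex_ofReal, integral_const_mul, inv_mul_cancel₀ h3.ne', Complex.ofReal_one]

/-- the homotopy formula for functions -/
theorem key {ρ : Cm n → ℂ} (h1 : Continuous ρ) (h2 : HasCompactSupport ρ) (h3 : ∫ w, ρ w = 1)
    (h4 : ∀ u : ℂ, ‖u‖ = 1 → ∀ w, ρ (u • w) = ρ w) (g : Cm n →ᵇ F) (hg : ContDiff ℝ 1 g)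
    (z : Cm n) : g z - cv ρ g z = ∑ j, ∫ s in Ioc (0 : ℝ) 1, ∫ w,
      (ρ w * (2 * conj (w j))) • dB j (fderiv ℝ g (z - s • w)) := by
  have hi := h1.integrable_of_hasCompactSupport (μ := volume) h2
  have hd := hg.continuous_fderiv one_ne_zero
  have h0 : ∀ (f : Cm n → F), Continuous f → Integrable fun w => ρ w • f w := fun f hf =>
    (h1.smul hf).integrable_of_hasCompactSupport h2.smul_right
  have h5 : ∀ s : ℝ, s ≠ 0 → ∫ w, ρ w • fderiv ℝ g (z - s • w) (Complex.I • w) = 0 := by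
    intro s hs
    have hu : ∀ θ : ℝ, ‖Complex.exp (θ * Complex.I)‖ = 1 := Complex.norm_exp_ofReal_mul_I
    have a1 := path h1 h2 hg (t := fun θ => s * Complex.exp (θ * Complex.I))
      (t' := fun θ => s * (Complex.exp (θ * Complex.I) * Complex.I))
      (fun θ => by simpa using ((Complex.ofRealCLM.hasDerivAt (x := θ)).mul_const
        Complex.I).cexp.const_mul (s : ℂ)) (by fun_prop) z
    have a2 : ∀ θ : ℝ, ∫ w, ρ w • g (z - (s * Complex.exp (θ * Complex.I)) • w) =
        ∫ w, ρ w • g (z - s • w) := fun θ => by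
      rw [← int_rot (hu θ) fun w => ρ w • g (z - s • w)]
      simp only [h4 _ (hu θ), mul_smul, Complex.coe_smul]
    have a3 : ∀ θ : ℝ, ∫ w, ρ w • fderiv ℝ g (z - (s * Complex.exp (θ * Complex.I)) • w)
        ((s * (Complex.exp (θ * Complex.I) * Complex.I)) • w) =
        s • ∫ w, ρ w • fderiv ℝ g (z - s • w) (Complex.I • w) := fun θ => by
      rw [← int_rot (hu θ) fun w => ρ w • fderiv ℝ g (z - s • w) (Complex.I • w), ← integral_smul]
      congr 1
      funext w
      rw [h4 _ (hu θ), smul_comm s, ← (fderiv ℝ g _).map_smul s, mul_comm (Complex.exp _)]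
      simp only [mul_smul, Complex.coe_smul]
    simp only [smul_sub, a3] at a1
    rw [integral_sub (h0 _ (by fun_prop)) (h0 _ (by fun_prop)), a2, a2, sub_self] at a1
    simpa [hs] using a1.symm
  have h6 := path h1 h2 hg (t := fun s => s) (t' := fun _ => 1)
    (fun s => Complex.ofRealCLM.hasDerivAt) continuous_const z
  simp only [smul_sub, Complex.ofReal_zero, zero_smul, sub_zero, Complex.ofReal_one, one_smul,
    Complex.coe_smul] at h6
  rw [integral_sub (h0 _ continuous_const) (h0 _ (by fun_prop)), integral_smul_const, h3,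
    one_smul] at h6
  have h7 : ∀ j, Continuous fun p : ℝ × Cm n =>
      (2 * conj (p.2 j)) • dB j (fderiv ℝ g (z - p.1 • p.2)) := fun j => by
    unfold dB
    fun_prop
  simp only [mul_smul (ρ _)]
  have h8 : ∀ j, Integrable (fun s : ℝ => ∫ w, ρ w • (2 * conj (w j)) •
      dB j (fderiv ℝ g (z - s • w))) (volume.restrict (Ioc 0 1)) := fun j =>
    (int_prod ((h1.comp continuous_snd).smul (h7 j)) h2 fun p a =>
      smul_eq_zero_of_left (image_eq_zero_of_notMem_tsupport a) _).integral_prod_left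
  have h9 : ∀ j (s : ℝ), Integrable fun w => ρ w • (2 * conj (w j)) •
      dB j (fderiv ℝ g (z - s • w)) := fun j s => h0 _ ((h7 j).comp (Continuous.prodMk_right s))
  rw [cv, h6, ← integral_finsetSum _ fun j _ => h8 j]
  refine setIntegral_congr_fun measurableSet_Ioc fun s a => ?_
  rw [← integral_finsetSum _ fun j _ => h9 j s]
  simp only [← Finset.smul_sum, ← anti, smul_add, smul_comm _ Complex.I]
  refine Eq.trans ?_ (integral_add (h0 _ (by fun_prop))
    ((h0 _ (by fun_prop)).smul Complex.I)).symm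
  simp only [Pi.smul_apply]
  rw [integral_smul, h5 s a.1.ne', smul_zero, add_zero]

/-- a matrix as an operator -/
def mV (M : FM n) : Fk n →L[ℂ] Fk n := LinearMap.toContinuousLinearMap M.mulVecLin

/-- a matrix as an operator on functions -/
def mL (M : FM n) : (Cm n →ᵇ Fk n) →L[ℂ] (Cm n →ᵇ Fk n) := (mV M).compLeftContinuousBounded _

theorem mL_apply (M : FM n) (g : Cm n →ᵇ Fk n) (z : Cm n) : mL M g z = M *ᵥ g z := rfl

theorem mL_cvL {k : Cm n → ℂ} (hk : Integrable k) (M : FM n) (g : Cm n →ᵇ Fk n) :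
    mL M (cvL hk g) = cvL hk (mL M g) :=
  BoundedContinuousFunction.ext fun z => cv_map hk (mV M) g z

theorem vc {a : Cm n → Fk n} (h : ContDiff ℝ ∞ a) (z : Cm n) : VC 1 a z := fun i =>
  (contDiff_pi.1 h i).contDiffAt.of_le (by norm_cast)

theorem exists_D {g : Cm n →ᵇ Fk n} (hg : ContDiff ℝ ∞ g) (hc : HasCompactSupport g) :
    ∃ D : Fin n → Cm n →ᵇ Fk n, (∀ l y, D l y = dB l (fderiv ℝ g y)) ∧
      ∀ {k : Cm n → ℂ}, Integrable k → ∀ l z, DVb l (cv k g) z = cv k (D l) z := by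
  have hd := hg.continuous_fderiv (by simp)
  have h1 : ∀ v, Continuous fun y => fderiv ℝ g y v := fun v => hd.clm_apply continuous_const
  have h2 : ∀ v, HasCompactSupport fun y => fderiv ℝ g y v := fun v => hc.fderiv_apply ℝ v
  have hE : ∀ v, ∃ E : Cm n →ᵇ Fk n, ⇑E = fun y => fderiv ℝ g y v := fun v =>
    ⟨ofCompactSupport _ (h1 v) (h2 v), rfl⟩
  choose E hE using hE
  refine ⟨fun l => dB l E, fun _ _ => by simp [dB, hE], fun hk l z => ?_⟩
  obtain ⟨a1, a2⟩ := cv_right hk hg hc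
  rw [DVb_eq l (a1.differentiable (by simp) z), dB, a2, a2, ← hE, ← hE]
  simp only [dB, ← cvL_coe hk, map_smul, map_add]
  rfl

end Fl

open Fl

/-- **FLAT** -/
theorem flat : FLAT := by
  intro n δ hδ
  obtain ⟨ρ, h1, h2, h3, h4⟩ := exists_rho n hδ
  have hc := HasCompactSupport.intro (isCompact_closedBall _ _) h2
  have hi := h1.continuous.integrable_of_hasCompactSupport (μ := volume) hc
  have hd := h1.continuous_fderiv (by simp)
  have h5 : ∀ v, Integrable fun y => fderiv ℝ ρ y v := fun v =>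
    Continuous.integrable_of_hasCompactSupport (by fun_prop) (hc.fderiv_apply ℝ v)
  have h6 : ∀ l, Integrable fun y => dB l (fderiv ℝ ρ y) := fun l =>
    ((h5 _).add ((h5 _).smul Complex.I)).smul (2 : ℂ)⁻¹
  have h7 : ∀ j, Continuous fun w : Cm n => ρ w * (2 * conj (w j)) := fun j =>
    h1.continuous.mul (by fun_prop)
  choose K k1 k2 k3 using fun j => exists_ker (F := Fk n) (δ := δ) (h7 j)
    ((h7 j).integrable_of_hasCompactSupport hc.mul_right) fun w a => by simp [h2 w a]
  have hS : ∀ g : Cm n →ᵇ Fk n, ContDiff ℝ ∞ (cvL hi g) ∧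
      ∀ z, db (cvL hi g) z = (∑ l, mL (eps l) ∘L cvL (h6 l)) g z := fun g => by
    obtain ⟨a1, a2⟩ := cv_left h1 hc g.continuous
    refine ⟨a1, fun z => ?_⟩
    simp only [db, _root_.sum_apply, BoundedContinuousFunction.sum_apply]
    refine Finset.sum_congr rfl fun l _ => congrArg (eps l *ᵥ ·) ?_
    show DVb l (cv ρ g) z = cv _ g z
    rw [DVb_eq l (a1.differentiable (by simp) z), dB, a2, a2]
    simp only [cv, dB, smul_assoc, add_smul, integral_smul]
    rw [← integral_smul Complex.I]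
    exact congrArg _ (integral_add (int_bc (h5 _) g (by fun_prop))
      ((int_bc (h5 _) g (by fun_prop)).smul Complex.I)).symm
  have hB : ∀ (g : Cm n →ᵇ Fk n) z, (∑ j, mL (iot j) ∘L cvL (k1 j)) g z =
      ∑ j, iot j *ᵥ cv (K j) g z := fun g z => by
    simp only [_root_.sum_apply, BoundedContinuousFunction.sum_apply]
    rfl
  refine ⟨∑ j, mL (iot j) ∘L cvL (k1 j), cvL hi, ∑ l, mL (eps l) ∘L cvL (h6 l),
    fun g z a => ⟨?_, cv_loc h2 a⟩, fun ε hε => ?_, fun g g' a z => ?_, hS, fun g g' a b c => ?_⟩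
  · rw [hB]
    simp [cv_loc (k2 _) a]
  · have hC : 0 < ∑ j : Fin n, ‖mV (iot j)‖ + 1 := by positivity
    obtain ⟨η, ⟨a1, a2⟩, a3⟩ := (((eventually_all.2 fun j => cv_eqc (F := Fk n) (k1 j)
      (div_pos hε hC)).and (cv_eqc (F := Fk n) hi hε)).and self_mem_nhdsWithin).exists
    refine ⟨η, a3, fun g z z' a => ⟨?_, a2 g z z' a⟩⟩
    rw [hB, hB, ← Finset.sum_sub_distrib]
    refine (norm_sum_le_of_le (n := fun j => ‖mV (iot j)‖ *
      (ε / (∑ j : Fin n, ‖mV (iot j)‖ + 1) * ‖g‖)) _ fun j _ => ?_).trans ?_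
    · rw [← Matrix.mulVec_sub]
      exact (mV (iot j)).le_of_opNorm_le_of_le le_rfl (a1 j g z z' a)
    · rw [← Finset.sum_mul, ← mul_assoc, ← mul_div_assoc]
      gcongr
      rw [div_le_iff₀ hC]
      nlinarith
  · obtain rfl : g' = mL (Nm n) g := BoundedContinuousFunction.ext a
    refine ⟨?_, cv_map hi (mV _) g z⟩
    rw [hB, hB, Matrix.mulVec_sum, ← Finset.sum_sub_distrib]
    refine Finset.sum_congr rfl fun j _ => ?_
    have e := dgl_iot (fun p => (p : ℂ) - 1) j
    simp only [Nat.cast_add, Nat.cast_one, add_sub_cancel_right] at e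
    rw [Matrix.mulVec_mulVec, Nm, e, ← Matrix.mulVec_mulVec, ← Matrix.mulVec_sub]
    congr 1
    refine Eq.trans ?_ (congrArg (· - cv (K j) g z) (cv_map (k1 j) (mV _) g z))
    funext I
    show _ = (dgl _ *ᵥ _) I - _
    rw [dgl_mulVec, dgl_mulVec, sub_mul, one_mul]
  · obtain ⟨D, d1, d2⟩ := exists_D a b
    obtain rfl : g' = ∑ l, mL (eps l) (D l) := BoundedContinuousFunction.ext fun z => by
      simp only [c, db, BoundedContinuousFunction.sum_apply, mL_apply, d1,
        DVb_eq _ (a.differentiable (by simp) z)]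
    have e1 : ∀ j, ContDiff ℝ ∞ (cv (K j) g) := fun j => (cv_right (k1 j) a b).1
    have e2 : ∀ j, ContDiff ℝ ∞ fun z => iot j *ᵥ cv (K j) g z := fun j =>
      ((mV (iot j)).restrictScalars ℝ).contDiff.comp (e1 j)
    rw [funext (hB g)]
    refine ⟨ContDiff.sum fun j _ => e2 j, fun z => ⟨?_, ?_⟩⟩
    · have e3 : ∀ l, DVb l (fun z => ∑ j, iot j *ᵥ cv (K j) g z) z =
          ∑ j, iot j *ᵥ cv (K j) (D l) z := fun l => by
        rw [DVb_sum _ fun j _ => vc (e2 j) z]
        exact Finset.sum_congr rfl fun j _ => by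
          rw [DVb_constMul _ (vc (e1 j) z)]
          exact congrArg _ (d2 (k1 j) l z)
      have e4 : ∀ j, cv (K j) (∑ l, mL (eps l) (D l) :) z = ∑ l, eps l *ᵥ cv (K j) (D l) z := by
        intro j
        rw [← cvL_coe (k1 j), map_sum]
        simp only [← mL_cvL, BoundedContinuousFunction.sum_apply]
        rfl
      rw [hB, cvL_coe, key h1.continuous hc h3 h4 g (a.of_le (by norm_cast)), db]
      simp only [e3, e4, Matrix.mulVec_sum, Matrix.mulVec_mulVec, ← d1, ← k3]
      rw [Finset.sum_comm, ← Finset.sum_add_distrib]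
      refine Finset.sum_congr rfl fun j _ => ?_
      rw [← Finset.sum_add_distrib]
      simp only [← Matrix.add_mulVec, add_comm (eps _ * _), car]
      rw [Finset.sum_eq_single j (fun l _ a => by rw [if_neg a.symm, Matrix.zero_mulVec]) (by simp),
        if_pos rfl, Matrix.one_mulVec]
    · rw [← (hS g).2, map_sum]
      simp only [db, cvL_coe, d2 hi, ← mL_cvL, BoundedContinuousFunction.sum_apply]
      rfl

end Vale.Agent.P281Z.Gr
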