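import Vale.Agent.P281Z.Gr.Defs

/-!
# Gluing with cut-offs
-/

open Set Filter Topology

namespace Vale.Agent.P281Z.Gr

namespace Gl

variable {T M : Type} [TopologicalSpace T] [AddCommGroup M] {G : ℤ → AddSubgroup M}
  {D : M →+ M} {Z : M → Set T}

theorem zer (h : Shf G D Z) (x : T) : x ∈ Z 0 := h.zero ▸ mem_univ x

theorem neg (h : Shf G D Z) {ξ η : M} {x : T} (a : x ∈ Z ξ) (e : η = -ξ) : x ∈ Z η := by
  rw [e, ← zero_sub]
  exact h.sub _ _ ⟨zer h x, a⟩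

/-- two sections which agree near the intersection of two compact sets -/
theorem key [T2Space T] (h : Shf G D Z) {K₁ K₂ : Set T} (h1 : IsCompact K₁) (h2 : IsCompact K₂)
    {q : ℤ} {a b : M} (ha : a ∈ G q) (hb : b ∈ G q) (e : K₁ ∩ K₂ ⊆ Z (a - b)) :
    ∃ c ∈ G q, K₁ ⊆ Z (a - c) ∧ K₂ ⊆ Z (c - b) := by
  obtain ⟨c, c1, c2⟩ := h.cut _ _ (h1.diff (h.opn (a - b))) h2.isClosed.isOpen_compl
    fun x d f => d.2 (e ⟨d.1, f⟩)
  obtain ⟨d1, d2, d3⟩ := c2 (a - b)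
  refine ⟨b + c (a - b), add_mem hb (c1 _ _ (sub_mem ha hb)), fun x d => ?_, ?_⟩
  · rw [← sub_sub]
    by_cases f : x ∈ Z (a - b)
    · exact h.sub _ _ ⟨f, d1 f⟩
    · exact d2 ⟨d, f⟩
  · rwa [add_sub_cancel_left, ← compl_compl K₂]

/-- locally exact elements of degree `q` are exact near the compact subsets of `K` -/
def Cl (G : ℤ → AddSubgroup M) (D : M →+ M) (Z : M → Set T) (K : Set T) (q : ℤ) : Prop :=
  ∀ L ⊆ K, IsCompact L → ∀ ξ ∈ G q, (∀ x ∈ L, ∃ η ∈ G (q - 1), x ∈ Z (ξ - D η)) →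
    ∃ η ∈ G (q - 1), L ⊆ Z (ξ - D η)

theorem ind [T2Space T] [CompactSpace T] (h : Shf G D Z) {K L : Set T} {q : ℤ}
    (hc : Cl G D Z K q) (hL : IsCompact L) (hK : L ⊆ K) (Q : M → T → Prop)
    (h1 : ∀ ξ x, Q ξ x → ∀ᶠ y in 𝓝 x, Q ξ y)
    (h2 : ∀ ξ ξ' η x, Q ξ x → x ∈ Z (ξ - ξ' - D η) → Q ξ' x)
    (h3 : ∀ x ∈ L, ∀ ξ ∈ G q, ∀ ξ' ∈ G q, Q ξ x → Q ξ' x → ∃ η ∈ G (q - 1), x ∈ Z (ξ - ξ' - D η))
    (h4 : ∀ x ∈ L, ∃ ξ ∈ G q, Q ξ x) : ∃ ξ ∈ G q, ∀ x ∈ L, Q ξ x := by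
  have k : ∀ t, IsCompact (closure t ∩ L) := fun t => hL.inter_left isClosed_closure
  obtain ⟨ξ, a, b⟩ := hL.induction_on (p := fun t => ∃ ξ ∈ G q, ∀ x ∈ closure t ∩ L, Q ξ x)
    ⟨0, zero_mem _, by simp⟩
    (fun s t e ⟨ξ, a, b⟩ => ⟨ξ, a, fun x c => b x ⟨closure_mono e c.1, c.2⟩⟩)
    (fun s t ⟨ξ, a, b⟩ ⟨η, c, d⟩ => by
      obtain ⟨ζ, e, f⟩ := hc _ (fun x g => hK g.1.2) ((k s).inter (k t)) _ (sub_mem a c)
        fun x g => h3 x g.1.2 ξ a η c (b x g.1) (d x g.2)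
      rw [sub_sub] at f
      obtain ⟨θ, i, j, l⟩ := key h (k s) (k t) a
        (add_mem c (by simpa using h.deg _ _ e)) f
      refine ⟨θ, i, fun x g => ?_⟩
      rw [closure_union, union_inter_distrib_right] at g
      rcases g with g | g
      · exact h2 ξ θ 0 x (b x g) (by simpa using j g)
      · exact h2 η θ (-ζ) x (d x g) (neg h (l g) (by rw [map_neg]; abel)))
    fun x a => by
      obtain ⟨ξ, b, c⟩ := h4 x a
      obtain ⟨t, d, e, f⟩ := exists_mem_nhds_isClosed_subset (h1 ξ x c)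
      exact ⟨t, mem_nhdsWithin_of_mem_nhds d, ξ, b, fun y g => f (e.closure_subset g.1)⟩
  exact ⟨ξ, a, fun x c => b x ⟨subset_closure c, c⟩⟩

theorem step [T2Space T] [CompactSpace T] (h : Shf G D Z) {K : Set T} {q : ℤ}
    (hc : Cl G D Z K q)
    (hq : ∀ x ∈ K, ∀ ξ ∈ G q, x ∈ Z (D ξ) → ∃ η ∈ G (q - 1), x ∈ Z (ξ - D η)) :
    Cl G D Z K (q + 1) := by
  intro L hK hL ξ _ a
  rw [add_sub_cancel_right] at a ⊢
  refine ind h hc hL hK (fun η x => x ∈ Z (ξ - D η)) (fun η x b => (h.opn _).mem_nhds b)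
    (fun η η' ζ x b c => ?_) (fun x b η c η' d e f => hq x (hK b) _ (sub_mem c d) ?_) a
  · have d := h.sub _ _ ⟨b, neg h (h.dZ _ c) rfl⟩
    rwa [map_sub, h.dd, sub_zero, map_sub, neg_sub, sub_sub, add_sub_cancel] at d
  · have g := h.sub _ _ ⟨f, e⟩
    rwa [sub_sub_sub_cancel_left, ← map_sub] at g

end Gl

theorem glue : GLUE := by
  intro T M _ _ _ _ G D Z K h hK hq
  obtain ⟨q₀, l⟩ := h.low
  have k0 : ∀ q < q₀, Gl.Cl G D Z K q := fun q a L _ _ ξ b _ =>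
    ⟨0, zero_mem _, fun x _ => by rw [l q a ξ b, map_zero, sub_zero]; exact Gl.zer h x⟩
  have k : Gl.Cl G D Z K 0 := by
    by_cases a : 0 < q₀
    · exact k0 0 a
    · exact Int.leInduction (m := q₀ - 1) (motive := fun n _ => n ≤ 0 → Gl.Cl G D Z K n)
        (fun _ => k0 _ (by omega)) (fun n _ b c => Gl.step h (b (by omega)) (hq n (by omega)))
        0 (by omega) le_rfl
  exact ⟨k K Subset.rfl hK, Gl.ind h k hK Subset.rfl⟩

end Vale.Agent.P281Z.Gr
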