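import Vale.Agent.P281Z.Gr.Api

/-!
# P281Z, block GR: base change, analytic families of cycles
-/

open scoped Manifold ContDiff Topology
open Set Filter
open Vale.Agent.P272.K Vale.Agent.P285.H281.FD
open Vale.Agent.P277Z (Hol)

noncomputable section

namespace Vale.Agent.P281Z.Gr

open Cx

namespace Is

variable {n p : ℕ} {V : Type} [TopologicalSpace V] [CompactSpace V] [ChartedSpace (Cm n) V]
  {L : Bd V} {C : Cx p L} {F : V → Cm p} {K₀ : Set V} {τ : Cm p}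

omit [CompactSpace V] in
theorem cont (hd : Dat n F K₀) : Continuous F := continuous_pi fun l => (hd.sm l).cont

theorem mem_G {q : ℤ} {ξ : C.X} :
    ξ ∈ (LinearMap.ker (C.N - (q : ℂ) • 1 : C.X →L[ℂ] C.X).toLinearMap).toAddSubgroup ↔
      C.N ξ = (q : ℂ) • ξ := sub_eq_zero (a := C.N ξ) (b := (q : ℂ) • ξ)

theorem mem_G0 {ξ : C.X} :
    ξ ∈ (LinearMap.ker (C.N - ((0 : ℤ) : ℂ) • 1 : C.X →L[ℂ] C.X).toLinearMap).toAddSubgroup ↔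
      C.N ξ = 0 := by rw [mem_G, Int.cast_zero, zero_smul]

theorem mem_G1 {ξ : C.X} :
    ξ ∈ (LinearMap.ker (C.N - ((-1 : ℤ) : ℂ) • 1 : C.X →L[ℂ] C.X).toLinearMap).toAddSubgroup ↔
      C.N ξ = -ξ := by rw [mem_G, Int.cast_neg, Int.cast_one, neg_one_smul]

/-- the elements which vanish on a neighbourhood `W` of the fibre form an acyclic complex -/
theorem prim {s : Finset (Fin p)} (h : C.Ok n F K₀ s) (hd : Dat n F K₀)
    (hk : ∀ S : Set V, IsCompact S → (∀ x ∈ S, F x ≠ τ) → ∃ h : C.X →L[ℂ] C.X,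
      (∀ ξ, C.N (h ξ) = h (C.N ξ) - h ξ) ∧
        ∀ ξ, C.Z ξ ⊆ C.Z (h ξ) ∧ S ⊆ C.Z (ξ - C.Dt τ (h ξ) - h (C.Dt τ ξ)))
    {W : Set V} (hW : IsOpen W) (hK : K₀ ∩ F ⁻¹' {τ} ⊆ W) : ∃ h : C.X →L[ℂ] C.X,
      (∀ ξ, C.N (h ξ) = h (C.N ξ) - h ξ) ∧ (∀ ξ, C.Z ξ ⊆ C.Z (h ξ)) ∧
        ∀ ξ, W ⊆ C.Z ξ → C.Dt τ (h ξ) + h (C.Dt τ ξ) = ξ := by
  obtain ⟨e, a, b⟩ := hk _ (hd.cpt.diff hW) fun x c d => c.2 (hK ⟨c.1, d⟩)
  refine ⟨e, a, fun ξ => (b ξ).1, fun ξ c => (sub_eq_zero.1 (h.eq_zero fun x d => ?_)).symm⟩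
  rw [← sub_sub]
  by_cases f : x ∈ W
  · exact Z_sub (Z_sub (c f) (h.loc_Dt τ _ ((b ξ).1 (c f)))) ((b _).1 (h.loc_Dt τ _ (c f)))
  · exact (b ξ).2 ⟨d, f⟩

end Is

open Is

theorem iso_of : BUMP → GLUE → SHF → KILL → ISO := by
  intro _ hG hS hk n V _ _ _ _ _ L hL p F K₀ C hd h τ hτ
  have o := h.ok
  have k0 := hk n V L hL p F K₀ C hd o h.hom τ
  have k1 : ∀ x ∈ K₀ ∩ F ⁻¹' {τ}, C.LocAt n F .univ x := fun x a =>
    h.loc x (hτ x a.1 a.2).1 (hτ x a.1 a.2).2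
  have k2 : ∀ x ∈ K₀ ∩ F ⁻¹' {τ}, F x = τ := fun _ a => a.2
  have k3 : ∀ x ∈ K₀ ∩ F ⁻¹' {τ}, ∀ ξ, C.N ξ = 0 → x ∈ C.Z (C.Dt τ ξ) →
      (∀ᶠ y in 𝓝 x, y ∈ K₀ ∩ F ⁻¹' {τ} → ∀ i, y ∈ L.U i → C.val ξ i y = 0) →
      ∃ η, C.N η = -η ∧ x ∈ C.Z (ξ - C.Dt τ η) := fun x a ξ b c d => by
    obtain ⟨i, hi⟩ := hL.cover x
    rw [← k2 x a] at c ⊢
    refine (k1 x a).inj ξ i hi b c ?_
    filter_upwards [d, (hL.isOpen i).eventually_mem hi,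
      isOpen_interior.eventually_mem (hτ x a.1 a.2).1] with y e f g j
    exact e ⟨interior_subset g, (funext fun l => j l (Finset.mem_univ l)).trans a.2⟩ i f
  have k4 : ∀ {ξ} (x : V), C.Dt τ ξ = 0 → x ∈ C.Z (C.Dt τ ξ) := fun x a => by
    rw [a, Z_zero]
    trivial
  obtain ⟨g1, g2⟩ := hG V C.X _ _ C.Z (K₀ ∩ F ⁻¹' {τ}) ((hS n V L hL p F K₀ C hd _ o).1 τ)
    (hd.cpt.inter_right (isClosed_singleton.preimage (cont hd))) fun q a x b ξ c d => by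
      obtain ⟨η, e, f⟩ := (k1 x b).ex q ξ a.ne (mem_G.1 c) ((k2 x b).symm ▸ d)
      exact ⟨η, mem_G.2 (by rw [e, Int.cast_sub, Int.cast_one]), k2 x b ▸ f⟩
  refine ⟨fun ξ a x b => ⟨fun i c => ?_, fun i j => o.chg ξ i j x⟩, fun ξ a b => ?_, fun t a => ?_⟩
  · obtain ⟨u, d, e⟩ := (k1 x b).hol ξ i c a.1 ((k2 x b).symm ▸ k4 x a.2)
    exact ⟨u, d, e.mono fun y f g => f fun l _ => congrFun ((k2 y g).trans (k2 x b).symm) l⟩
  · obtain ⟨η, c, d⟩ := g1 ξ (mem_G0.2 a.1) fun x c =>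
      (k3 x c ξ a.1 (k4 x a.2) (.of_forall b)).imp fun η d => ⟨mem_G1.2 d.1, d.2⟩
    obtain ⟨e, e1, -, e2⟩ := prim o hd k0 (isOpen_Z (ξ - C.Dt τ η)) d
    have f := e2 _ Subset.rfl
    rw [map_sub (C.Dt τ), a.2, o.dtdt, sub_zero, map_zero, add_zero] at f
    refine ⟨η + e (ξ - C.Dt τ η), ?_, by rw [map_add, f, add_sub_cancel]⟩
    rw [map_add, e1, map_sub C.N, a.1, o.N_Dt, mem_G1.1 c, map_neg, neg_add_cancel, sub_zero,
      map_zero, zero_sub, neg_add]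
  · obtain ⟨ξ, b, c⟩ := g2 (fun ξ x => x ∈ C.Z (C.Dt τ ξ) ∧
      ∀ᶠ y in 𝓝 x, y ∈ K₀ ∩ F ⁻¹' {τ} → ∀ i, y ∈ L.U i → C.val ξ i y = t i y)
      (fun ξ x b => ((isOpen_Z _).eventually_mem b.1).and b.2.eventually_nhds)
      (fun ξ ξ' η x b (c : x ∈ C.Z (ξ - ξ' - C.Dt τ η)) => ⟨by
        have d := Z_sub b.1 (o.loc_Dt τ _ c)
        rwa [map_sub, o.dtdt, sub_zero, map_sub, sub_sub_cancel] at d, by
        filter_upwards [b.2, Z_val_near c] with y d e f i g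
        have j := e i
        rw [val_sub, val_sub, o.val_Dt fun l _ => congrFun (k2 y f).symm l, sub_zero, d f i g] at j
        exact (sub_eq_zero.1 j).symm⟩)
      (fun x b ξ c ξ' d e f => (k3 x b (ξ - ξ') (mem_G0.1 (sub_mem c d))
        (by rw [map_sub]; exact Z_sub e.1 f.1) (by
          filter_upwards [e.2, f.2] with y g j k i l
          rw [val_sub, g k i l, j k i l, sub_self])).imp fun η d => ⟨mem_G1.2 d.1, d.2⟩)
      fun x b => by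
        obtain ⟨i, hi⟩ := hL.cover x
        obtain ⟨u, c, d⟩ := (a x b).1 i hi
        obtain ⟨ζ, e, -, f, g⟩ := o.lift_at hL (hτ x b.1 b.2).1 hi c
        refine ⟨ζ, mem_G0.2 e, f τ, ?_⟩
        filter_upwards [d, g, (hL.isOpen i).eventually_mem hi] with y d g e f j k
        rw [g j k, (a y f).2 j i k e, d f]
    obtain ⟨e, e1, e2, e3⟩ := prim o hd k0 (isOpen_Z (C.Dt τ ξ)) fun x d => (c x d).1
    have f := e3 _ Subset.rfl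
    rw [o.dtdt, map_zero, add_zero] at f
    refine ⟨ξ - e (C.Dt τ ξ), ⟨?_, by rw [map_sub, f, sub_self]⟩, fun x d i g => ?_⟩
    · rw [map_sub, e1, o.N_Dt, mem_G0.1 b, map_zero, zero_add, sub_self, sub_self]
    · rw [Pi.sub_apply, Pi.sub_apply, val_sub, Z_val (e2 _ (c x d).1), sub_zero,
        (c x d).2.self_of_nhds d i g, sub_self]

theorem fam_of : BUMP → PAR → SHF → KILL → FAM := by
  intro hB hP hS hk n V _ _ _ _ _ L hL p F K₀ C hd h τ hτ O hO hK t ht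
  have o := h.ok
  obtain ⟨φ, a1, a2, a3⟩ := hB n V L hL _ _
    (hd.cpt.inter_right (isClosed_singleton.preimage (cont hd))) (hO.inter isOpen_interior)
    fun x a => ⟨hK a, hτ x a.1 a.2⟩
  obtain ⟨ξ, b1, b2, b3, b4⟩ := o.lift O hO t ht φ a1 a3
  have hW : IsOpen {x | ∀ᶠ y in 𝓝 x, φ y = 1} := isOpen_setOfPred_eventually_nhds
  obtain ⟨M, c1, c2⟩ := (hS n V L hL p F K₀ C hd _ o).2.2 _ hW
  obtain ⟨e, e1, e2, e3⟩ := prim o hd (hk n V L hL p F K₀ C hd o h.hom τ) hW a2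
  have k1 : ∀ σ, C.Dt σ ξ = C.D ξ := fun σ => by rw [Dt_apply, b2, add_zero]
  obtain ⟨w, d1, d2⟩ := hP p C.X C.D C.N e C.E M τ o.fam c1
    (fun σ η a => (c2 _).2 (((c2 _).1 a).trans (o.loc_Dt σ η)))
    (fun η a => (c2 _).2 (((c2 _).1 a).trans (e2 η))) e1 (fun η a => e3 η ((c2 _).1 a)) (C.D ξ)
    ((c2 _).2 fun x a => a.eventually_nhds.mono fun y b =>
      ⟨b4 y (hol_of_const b), by rw [o.dd, map_zero, ContinuousMap.zero_apply]⟩)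
    (by rw [o.N_D, b1, map_zero, zero_add]) fun σ => k1 σ ▸ o.dtdt σ ξ
  refine ⟨fun σ => ξ - w σ, analyticAt_const.fun_sub d1, ?_⟩
  filter_upwards [d2, ((hd.cpt.diff hW).image (cont hd)).isClosed.isOpen_compl.eventually_mem
    fun ⟨x, a, b⟩ => a.2 (a2 x ⟨a.1, b⟩)] with σ a b
  refine ⟨⟨by rw [map_sub, b1, a.2.1, sub_self], ?_⟩, fun x c i d => ?_⟩
  · rw [map_sub, k1]
    exact sub_eq_zero.2 a.2.2.symm
  · have f : ∀ᶠ y in 𝓝 x, φ y = 1 := by_contra fun f => b ⟨x, ⟨c.1, f⟩, c.2⟩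
    rw [Pi.sub_apply, Pi.sub_apply, val_sub, Z_val ((c2 _).1 a.1 f), sub_zero, b3 i x d,
      f.self_of_nhds, one_mul, sub_self]

end Vale.Agent.P281Z.Gr
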