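import Vale.Agent.P281Z.Gr.Api

/-!
# P281Z, block GR: supports, acyclicity off the fibre, the parametrix
-/

open scoped Manifold ContDiff Topology
open Set Filter
open Vale.Agent.P272.K Vale.Agent.P285.H281.FD
open Vale.Agent.P277Z (Hol)

set_option linter.unusedSectionVars false

noncomputable section

namespace Vale.Agent.P281Z.Gr

open Cx

theorem shf : SHF := by
  intro n V _ _ _ _ _ L _ p F K₀ C _ s h
  have k : ∀ (q : ℤ) ξ, ξ ∈ (LinearMap.ker (C.N - (q : ℂ) • 1 : C.X →L[ℂ] C.X).toLinearMap).toAddSubgroup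
      ↔ C.N ξ = (q : ℂ) • ξ := fun q ξ => sub_eq_zero
  refine ⟨fun τ => ⟨isOpen_Z, Z_zero, fun _ _ _ a => Z_sub a.1 a.2, h.loc_Dt τ, h.dtdt τ,
    fun q ξ a => (k _ _).2 ?_, h.low.imp fun q₀ a q b ξ c => a q b ξ ((k _ _).1 c),
    fun K W a b c => ?_⟩, fun _ => h.eq_zero, fun W hW => ?_⟩
  · refine (h.N_Dt τ ξ).trans ?_
    rw [(k _ _).1 a, map_smul, Int.cast_add, Int.cast_one, add_smul, one_smul]
    rfl
  · obtain ⟨φ, h1, h2, h3⟩ := exists_bump n a b c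
    refine ⟨(C.mul φ).toLinearMap.toAddMonoidHom, fun q ξ d => (k _ _).2 ?_, fun ξ =>
      ⟨h.loc_mul h1 ξ, fun x d => h.Z_sub_mul h1 (h2 x d) ξ,
        fun x d => h.Z_mul_supp h1 (fun e => d (h3 e)) ξ⟩⟩
    refine (h.mulN φ h1 ξ).trans ?_
    rw [(k _ _).1 d, map_smul]
    rfl
  · refine ⟨⟨⟨⟨{ξ | W ⊆ C.Z ξ}, fun a b _ c => Z_add (a c) (b c)⟩, fun _ _ =>
      (Z_zero (C := C)).symm ▸ trivial⟩, fun c _ a _ b => Z_smul c (a b)⟩, ?_, fun _ => Iff.rfl⟩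
    have e : {ξ | W ⊆ C.Z ξ} = ⋂ y ∈ W, {ξ | C.π ξ y = 0} ∩ {ξ | C.π (C.D ξ) y = 0} := by
      ext ξ
      simp only [mem_iInter]
      exact ⟨fun a y b => (a b).self_of_nhds, fun a y b => (hW.eventually_mem b).mono a⟩
    change IsClosed {ξ | W ⊆ C.Z ξ}
    rw [e]
    exact isClosed_biInter fun y _ => (isClosed_eq (by fun_prop) continuous_const).inter
      (isClosed_eq (by fun_prop) continuous_const)

namespace Kl

variable {n p : ℕ} {V : Type} [TopologicalSpace V] [CompactSpace V] [ChartedSpace (Cm n) V]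
  {L : Bd V} {C : Cx p L} {F : V → Cm p} {K₀ : Set V} {s : Finset (Fin p)} {τ : Cm p}
  {a b : C.X →L[ℂ] C.X}

/-- operators of degree `-1` -/
def Dg (a : C.X →L[ℂ] C.X) : Prop := ∀ ξ, C.N (a ξ) = a (C.N ξ) - a ξ

/-- the remainder -/
def M (τ : Cm p) (a : C.X →L[ℂ] C.X) : C.X →L[ℂ] C.X := 1 - (C.Dt τ * a + a * C.Dt τ)

theorem M_apply (ξ : C.X) : M τ a ξ = ξ - (C.Dt τ (a ξ) + a (C.Dt τ ξ)) := rfl

theorem Dt_M (h : C.Ok n F K₀ s) (ξ : C.X) : C.Dt τ (M τ a ξ) = M τ a (C.Dt τ ξ) := by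
  simp [M_apply, h.dtdt]

theorem N_M (h : C.Ok n F K₀ s) (ha : Dg a) (ξ : C.X) : C.N (M τ a ξ) = M τ a (C.N ξ) := by
  simp only [M_apply, map_sub, map_add, h.N_Dt, ha _]
  abel

theorem loc_M (h : C.Ok n F K₀ s) (ha : Loc a) : Loc (M τ a) :=
  loc_one.sub (((h.loc_Dt τ).mul ha).add (ha.mul (h.loc_Dt τ)))

theorem M_comp (h : C.Ok n F K₀ s) (ξ : C.X) : M τ (b + a * M τ b) ξ = M τ a (M τ b ξ) := by
  have e : ∀ η, (b + a * M τ b) η = b η + a (M τ b η) := fun _ => rfl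
  rw [M_apply, e, e, M_apply (a := a), Dt_M h, map_add, M_apply (a := b) ξ]
  abel

theorem Dg.comp (h : C.Ok n F K₀ s) (ha : Dg a) (hb : Dg b) : Dg (b + a * M τ b) := fun ξ => by
  have e : ∀ η, (b + a * M τ b) η = b η + a (M τ b η) := fun _ => rfl
  rw [e, e, map_add, hb, ha, N_M h hb]
  abel

/-- the complex is acyclic near `S` -/
def Ac (C : Cx p L) (τ : Cm p) (S : Set V) : Prop :=
  ∃ a : C.X →L[ℂ] C.X, Dg a ∧ Loc a ∧ ∀ ξ, S ⊆ C.Z (M τ a ξ)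

theorem Ac.union (h : C.Ok n F K₀ s) {S S' : Set V} (h1 : Ac C τ S) (h2 : Ac C τ S') :
    Ac C τ (S ∪ S') := by
  obtain ⟨a, a1, a2, a3⟩ := h1
  obtain ⟨b, b1, b2, b3⟩ := h2
  refine ⟨_, a1.comp (τ := τ) h b1, b2.add (a2.mul (loc_M h b2)), fun ξ => ?_⟩
  rw [M_comp h]
  exact union_subset (a3 _) ((b3 ξ).trans (loc_M h a2 _))

theorem one [T2Space V] [IsManifold 𝓘(ℂ, Cm n) ω V] (hd : Dat n F K₀) (h : C.Ok n F K₀ s)
    (hh : C.Hom n F s) {l : Fin p} (hl : l ∈ s) {S : Set V} (hS : IsCompact S)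
    (h0 : S ⊆ {x | τ l - F x l ≠ 0}) : Ac C τ S := by
  obtain ⟨e, e1, e2, e3, e4, e5⟩ := hh l hl
  have hg : Sm n fun x => τ l - F x l := (sm_const _).sub (hd.sm l)
  obtain ⟨θ, t1, t2, t3⟩ := exists_bump n hS (isOpen_ne_fun hg.cont continuous_const) h0
  have hl : Sm n fun x => θ x * (τ l - F x l)⁻¹ := t1.mul_of fun x hx => (hg.at x).inv (t3 hx)
  set lam := C.mul fun x => θ x * (τ l - F x l)⁻¹
  have k1 : ∀ ξ, C.Dt τ (e ξ) + e (C.Dt τ ξ) = C.mul (fun x => τ l - F x l) ξ := fun ξ => by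
    rw [e5, h.mul_sub (sm_const _) (hd.sm l), h.mulc]
  have k2 : ∀ ξ, lam (C.mul (fun x => τ l - F x l) ξ) = C.mul θ ξ := fun ξ => by
    rw [← h.mulm _ _ hl hg]
    refine congrArg (C.mul · ξ) (funext fun x => ?_)
    by_cases k : τ l - F x l = 0
    · rw [image_eq_zero_of_notMem_tsupport fun a => t3 a k, zero_mul, zero_mul]
    · exact inv_mul_cancel_right₀ k _
  set c := C.Dt τ * lam - lam * C.Dt τ
  have k3 : ∀ ξ, c ξ = C.Dt τ (lam ξ) - lam (C.Dt τ ξ) := fun _ => rfl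
  have k4 : ∀ ξ, M τ (lam * e) ξ = ξ - C.mul θ ξ - c (e ξ) := fun ξ => by
    rw [← k2, ← k1, k3, map_add]
    exact (show _ = ξ - (C.Dt τ (lam (e ξ)) + lam (e (C.Dt τ ξ))) from rfl).trans (by abel)
  have k5 : ∀ ξ, e (c ξ) = -c (e ξ) := fun ξ => by
    have a := h.mul_comm hl hg ξ
    rw [← k1, ← k1, map_add, e4 _ hl] at a
    rw [k3, k3, map_sub, e4 _ hl, neg_sub, sub_eq_sub_iff_add_eq_add, add_comm, ← a]
  have k6 : Loc e := h.loc_of_hom hd e1 (e5 τ)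
  have k7 : Loc c := ((h.loc_Dt τ).mul (h.loc_mul hl)).sub ((h.loc_mul hl).mul (h.loc_Dt τ))
  have k8 : Dg (lam * e) := fun ξ =>
    (h.mulN _ hl (e ξ)).trans (by rw [e3, map_sub]; rfl)
  have k9 := (h.loc_mul hl).mul k6
  refine ⟨_, k8.comp (τ := τ) h k8, k9.add (k9.mul (loc_M h k9)), fun ξ x hx => ?_⟩
  rw [M_comp h, k4]
  refine Z_sub (h.Z_sub_mul t1 (t2 x hx) _) ?_
  rw [k4, map_sub e, k5, e2, map_zero, neg_zero, sub_zero]
  exact k7 _ (k6 _ (h.Z_sub_mul t1 (t2 x hx) _))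

theorem ac [T2Space V] [IsManifold 𝓘(ℂ, Cm n) ω V] (hd : Dat n F K₀) (h : C.Ok n F K₀ .univ)
    (hh : C.Hom n F .univ) {S : Set V} (hS : IsCompact S) (h0 : ∀ x ∈ S, F x ≠ τ) : Ac C τ S := by
  refine hS.induction_on ⟨0, fun _ => by simp, loc_zero, fun _ => empty_subset _⟩
    (fun _ _ a ⟨b, c, d, e⟩ => ⟨b, c, d, fun ξ => a.trans (e ξ)⟩) (fun _ _ => Ac.union h)
    fun x hx => ?_
  obtain ⟨l, hl⟩ := Function.ne_iff.1 (h0 x hx)
  obtain ⟨t, a1, a2, a3⟩ := local_compact_nhds ((isOpen_ne_fun ((sm_const (τ l)).sub (hd.sm l)).cont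
    (continuous_const (y := 0))).mem_nhds (sub_ne_zero.2 hl.symm : τ l - F x l ≠ 0))
  exact ⟨t, mem_nhdsWithin_of_mem_nhds a1, one hd h hh (Finset.mem_univ l) a3 a2⟩

theorem compact (h : C.Ok n F K₀ s) (h1 : C.SC a) (h2 : C.SC (C.D * a)) : IsCompactOperator a := by
  obtain ⟨M, hM⟩ := h.nrm
  let j := C.π.prod (C.π ∘L C.D)
  have hj : AntilipschitzWith (2 * M).toNNReal j := j.antilipschitz_of_bound fun ξ => by
    have a1 : ‖C.π ξ‖ ≤ ‖j ξ‖ := norm_fst_le (j ξ)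
    have a2 : ‖C.π (C.D ξ)‖ ≤ ‖j ξ‖ := norm_snd_le (j ξ)
    have a3 := le_max_left (2 * M) 0
    have a4 := le_max_right (2 * M) 0
    rw [Real.coe_toNNReal']
    nlinarith [hM ξ, norm_nonneg (C.π ξ), norm_nonneg (C.π (C.D ξ))]
  obtain ⟨K, a1, a2⟩ := h1
  obtain ⟨K', b1, b2⟩ := h2
  exact ⟨j ⁻¹' K ×ˢ K', (hj.isClosedEmbedding j.uniformContinuous).isCompact_preimage (a1.prod b1),
    inter_mem a2 b2⟩

end Kl

open Kl

theorem kill : KILL := by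
  intro n V _ _ _ _ _ L _ p F K₀ C hd h hh τ S hS h0
  obtain ⟨a, a1, a2, a3⟩ := ac hd h hh hS h0
  exact ⟨a, a1, fun ξ => ⟨a2 ξ, by simpa only [M_apply, sub_add_eq_sub_sub] using a3 ξ⟩⟩

theorem parx : PARX := by
  intro n V _ _ _ _ _ L _ p F K₀ C hd hG h0
  have h := hG.ok
  have hF : Continuous F := continuous_pi fun l => (hd.sm l).cont
  obtain ⟨σ, P, a1, a2, a3, -, a4⟩ := hG.par (K₀ ∩ F ⁻¹' {0})
    (hd.cpt.inter_right (isClosed_singleton.preimage hF)) fun x hx => h0 x hx.1 hx.2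
  obtain ⟨b, b1, -, b3⟩ := ac (τ := 0) hd h hG.hom
    (hd.cpt.diff (isOpen_setOfPred_eventually_nhds (p := fun y => σ y = 1)))
    fun x hx e => hx.2 (a2 x ⟨hx.1, e⟩)
  have k1 : ∀ ξ, M 0 b ξ - C.mul σ (M 0 b ξ) = 0 := fun ξ => h.eq_zero fun x hx =>
    (em (∀ᶠ y in 𝓝 x, σ y = 1)).elim (fun e => h.Z_sub_mul a1 e _) fun e =>
      Z_sub (b3 ξ ⟨hx, e⟩) (h.loc_mul a1 _ (b3 ξ ⟨hx, e⟩))
  have k2 : M 0 (b + P * M 0 b) = (C.mul σ - (C.D * P + P * C.D)) * M 0 b :=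
    ContinuousLinearMap.ext fun ξ => by
      rw [M_comp h, M_apply, Dt_zero, sub_eq_zero.1 (k1 ξ), ← sub_eq_zero.1 (k1 ξ)]
      exact congrArg (· - _) (sub_eq_zero.1 (k1 ξ))
  have k3 : C.SC (M 0 (b + P * M 0 b)) := k2 ▸ a4.comp_clm (M 0 b)
  have k4 : C.D * M 0 (b + P * M 0 b) = M 0 (b + P * M 0 b) * C.D :=
    ContinuousLinearMap.ext fun ξ => Dt_zero (C := C) ▸ Dt_M (τ := 0) h ξ
  refine ⟨b + P * M 0 b, ?_, Dg.comp h a3 b1⟩
  simpa only [M, Dt_zero] using compact h k3 (k4 ▸ k3.comp_clm C.D)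

end Vale.Agent.P281Z.Gr
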