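import Vale.Agent.P281Z.Gr.Defs
import Vale.Agent.P281Z.An.Rk

/-!
# P281Z, block GR: finite complexes of analytic matrices
-/

open scoped Topology Matrix
open Set Filter Metric Module
open Vale.Agent.P272.K
open Vale.Agent.P281Z.Ana (rank_iff)
open Vale.Agent.P277.H762 (analyticAt_det)

noncomputable section

namespace Vale.Agent.P281Z.Gr

namespace Ln

theorem rk_iff {X : Type} [AddCommGroup X] [Module ℂ X] [FiniteDimensional ℂ X]
    {R K : Submodule ℂ X} (h : R ≤ K) (j : ℕ) :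
    Rk (K : Set X) R j ↔ j + finrank ℂ R ≤ finrank ℂ K := by
  let g := R.mkQ.comp K.subtype
  have h1 := g.finrank_range_add_finrank_ker
  rw [LinearMap.ker_comp, Submodule.ker_mkQ, (Submodule.comapSubtypeEquivOfLe h).finrank_eq] at h1
  rw [← h1, Nat.add_le_add_iff_right]
  have h2 : ∀ (z : Fin j → K) (c : Fin j → ℂ), ∑ i, c i • g.rangeRestrict (z i) = 0 ↔
      ∑ i, c i • (z i : X) ∈ R := fun z c => by
    rw [← Submodule.Quotient.mk_eq_zero, ← Submodule.mkQ_apply, Subtype.ext_iff]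
    simp [g]
  constructor
  · rintro ⟨z, a, b⟩
    simpa using (Fintype.linearIndependent_iff.2 fun c k =>
      congrFun (b c ((h2 (fun i => ⟨z i, a i⟩) c).1 k))).fintype_card_le_finrank
  · intro k
    obtain ⟨w, hw⟩ := exists_linearIndependent_of_le_finrank k
    choose z hz using fun i => g.surjective_rangeRestrict (w i)
    exact ⟨fun i => z i, fun i => (z i).2, fun c k => funext
      (Fintype.linearIndependent_iff.1 hw c (by simpa only [hz] using (h2 z c).2 k))⟩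

variable {p a a' b : ℕ}

theorem ker_add (B : Matrix (Fin b) (Fin a) ℂ) :
    B.rank + finrank ℂ (LinearMap.ker B.mulVecLin) = a := by
  simpa [Matrix.rank] using B.mulVecLin.finrank_range_add_finrank_ker

theorem le_ker {A : Matrix (Fin a) (Fin a') ℂ} {B : Matrix (Fin b) (Fin a) ℂ} (h : B * A = 0) :
    LinearMap.range A.mulVecLin ≤ LinearMap.ker B.mulVecLin := by
  rintro _ ⟨w, rfl⟩
  simp [h]

theorem rk_mat {A : Matrix (Fin a) (Fin a') ℂ} {B : Matrix (Fin b) (Fin a) ℂ} (h : B * A = 0)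
    (j : ℕ) : Rk {z | B *ᵥ z = 0} {z | ∃ w, z = A *ᵥ w} j ↔ j + A.rank + B.rank ≤ a := by
  have h1 : {z | ∃ w, z = A *ᵥ w} = (LinearMap.range A.mulVecLin : Set (Fin a → ℂ)) :=
    Set.ext fun _ => exists_congr fun _ => eq_comm
  have h2 := ker_add B
  rw [h1]
  refine (rk_iff (le_ker h) j).trans ?_
  rw [← Matrix.rank]
  omega

theorem exists_max {T : Type} {S : Set T} (hS : S.Nonempty) (A : T → Matrix (Fin a) (Fin b) ℂ) :
    ∃ t ∈ S, ∀ s ∈ S, (A s).rank ≤ (A t).rank := by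
  have h : BddAbove ((fun t => (A t).rank) '' S) :=
    ⟨b, by rintro _ ⟨t, -, rfl⟩; exact (A t).rank_le_width⟩
  obtain ⟨t, h1, h2⟩ := Nat.sSup_mem (hS.image _) h
  exact ⟨t, h1, fun s hs => (le_csSup h ⟨s, hs, rfl⟩).trans h2.ge⟩

/-- elements of the kernel extend analytically where the rank is maximal -/
theorem extend {B : Cm p → Matrix (Fin b) (Fin a) ℂ} {τ : Cm p}
    (h : ∀ j k, AnalyticAt ℂ (fun τ => B τ j k) τ) (h1 : ∀ᶠ s in 𝓝 τ, (B s).rank ≤ (B τ).rank)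
    {ξ : Fin a → ℂ} (h2 : B τ *ᵥ ξ = 0) : ∃ z : Cm p → Fin a → ℂ, AnalyticAt ℂ z τ ∧ z τ = ξ ∧
      ∀ᶠ s in 𝓝 τ, B s *ᵥ z s = 0 := by
  obtain ⟨σ, κ, h3⟩ := rank_iff.1 (le_refl (B τ).rank)
  let γ := (1 : Matrix (Fin a) (Fin a) ℂ).submatrix id κ
  let M := fun s => (B s).submatrix σ κ
  let w := fun s => (M s).det⁻¹ • (M s).cramer ((B s).submatrix σ id *ᵥ ξ)
  have h4 : AnalyticAt ℂ (fun s => (M s).det) τ := analyticAt_det fun i j => h _ _
  have h5 : ∀ i, AnalyticAt ℂ (fun s => w s i) τ := fun i =>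
    (h4.fun_inv h3).fun_mul (analyticAt_det fun j k => by
      simp only [Matrix.updateCol_apply]
      split_ifs
      · exact Finset.analyticAt_fun_sum Finset.univ fun l _ => (h (σ j) l).fun_mul
          (analyticAt_const (v := ξ l))
      · exact h _ _)
  refine ⟨fun s => ξ - γ *ᵥ w s, analyticAt_const.fun_sub (AnalyticAt.pi fun i =>
    Finset.analyticAt_fun_sum Finset.univ fun l _ =>
      (analyticAt_const (v := γ i l)).fun_mul (h5 l)), ?_, ?_⟩
  · have : (B τ).submatrix σ id *ᵥ ξ = 0 := funext fun i => congrFun h2 (σ i)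
    simp [w, this]
  filter_upwards [h1, h4.continuousAt.eventually_ne h3] with s a1 a2
  have a3 : LinearMap.ker (B s).mulVecLin = LinearMap.ker ((B s).submatrix σ id).mulVecLin := by
    refine Submodule.eq_of_le_of_finrank_le (fun v hv => funext fun i => congrFun hv (σ i)) ?_
    have b1 := ker_add (B s)
    have b2 := ker_add ((B s).submatrix σ id)
    have b3 : (B τ).rank ≤ ((B s).submatrix σ id).rank := rank_iff.2 ⟨id, κ, a2⟩
    omega
  have a4 : (B s).submatrix σ id * γ = M s := by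
    rw [← Matrix.submatrix_mul _ _ _ _ _ Function.bijective_id, Matrix.mul_one]
  refine a3.ge (?_ : (B s).submatrix σ id *ᵥ _ = 0)
  rw [Matrix.mulVec_sub, Matrix.mulVec_mulVec, a4, Matrix.mulVec_smul, Matrix.mulVec_cramer,
    inv_smul_smul₀ a2, sub_self]

end Ln

open Ln in
theorem lin : LIN := by
  intro p a a' b ε₀ A B h0 hA hB hBA
  obtain ⟨k, v, h1, h2, h3⟩ := P277Z.Oka.okaV_all (Cm p) (Fin b) (Fin a) 0 (fun k i y => B y i k)
    fun k i => hB i k 0 (mem_ball_self h0)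
  obtain ⟨ε, hε, h4⟩ := Metric.eventually_nhds_iff_ball.1 ((eventually_all.2 fun l =>
    eventually_all.2 fun j => (h1 l j).eventually_analyticAt).and ((eventually_all.2 fun l =>
      eventually_all.2 (h2 l)).and h3))
  have hp : 0 < min ε ε₀ := lt_min hε h0
  have s1 : ball (0 : Cm p) (min ε ε₀) ⊆ ball 0 ε := ball_subset_ball (min_le_left _ _)
  have s2 : ball (0 : Cm p) (min ε ε₀) ⊆ ball 0 ε₀ := ball_subset_ball (min_le_right _ _)
  obtain ⟨t, t1, t2⟩ := exists_max ⟨0, mem_ball_self hp⟩ A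
  obtain ⟨u, u1, u2⟩ := exists_max ⟨0, mem_ball_self hp⟩ B
  let I := ((Fin (A t).rank → Fin a) × (Fin (A t).rank → Fin a')) ×
    (Fin (B u).rank → Fin b) × (Fin (B u).rank → Fin a)
  let μ : I → Cm p → ℂ := fun l τ =>
    ((A τ).submatrix l.1.1 l.1.2).det * ((B τ).submatrix l.2.1 l.2.2).det
  let E := (Fintype.equivFin I).symm
  have k1 : ∀ τ, (∃ l, μ (E l) τ ≠ 0) ↔ (A t).rank ≤ (A τ).rank ∧ (B u).rank ≤ (B τ).rank :=
    fun τ => by
      rw [E.surjective.exists (p := fun l => μ l τ ≠ 0) |>.symm, rank_iff, rank_iff]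
      exact ⟨fun ⟨l, e⟩ => ⟨⟨_, _, left_ne_zero_of_mul e⟩, _, _, right_ne_zero_of_mul e⟩,
        fun ⟨⟨i, j, e⟩, i', j', e'⟩ => ⟨((i, j), i', j'), mul_ne_zero e e'⟩⟩
  have k2 : ∀ (i : Fin (A t).rank → Fin a) (j : Fin (A t).rank → Fin a'),
      AnalyticOnNhd ℂ (fun τ => ((A τ).submatrix i j).det) (ball 0 (min ε ε₀)) :=
    fun i j τ e => analyticAt_det fun _ _ => hA _ _ τ (s2 e)
  have k3 : ∀ (i : Fin (B u).rank → Fin b) (j : Fin (B u).rank → Fin a),
      AnalyticOnNhd ℂ (fun τ => ((B τ).submatrix i j).det) (ball 0 (min ε ε₀)) :=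
    fun i j τ e => analyticAt_det fun _ _ => hB _ _ τ (s2 e)
  have k4 : ∃ l, ∃ τ ∈ ball (0 : Cm p) (min ε ε₀), μ (E l) τ ≠ 0 := by
    obtain ⟨i, j, e⟩ := rank_iff.1 (le_refl (A t).rank)
    obtain ⟨i', j', e'⟩ := rank_iff.1 (le_refl (B u).rank)
    refine ⟨E.symm ((i, j), i', j'), by_contra fun c => e'
      ((k3 i' j').eqOn_zero_of_preconnected_of_eventuallyEq_zero (convex_ball _ _).isPreconnected t1
        ?_ u1)⟩
    filter_upwards [(k2 i j t t1).continuousAt.eventually_ne e, isOpen_ball.mem_nhds t1] with τ d f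
    exact by_contra fun g => c ⟨τ, f, by rw [E.apply_symm_apply]; exact mul_ne_zero d g⟩
  have k5 : ∀ τ ∈ ball (0 : Cm p) (min ε ε₀), ∀ z : Cm p → Fin a → ℂ, AnalyticAt ℂ z τ →
      (∀ᶠ σ in 𝓝 τ, B σ *ᵥ z σ = 0) → ∃ c : Fin k → Cm p → ℂ, (∀ j, AnalyticAt ℂ (c j) τ) ∧
        ∀ᶠ σ in 𝓝 τ, z σ - ∑ j, c j σ • (fun i => v j i σ) = A σ *ᵥ 0 := fun τ e z z1 z2 => by
    obtain ⟨c, c1, c2⟩ := (h4 τ (s1 e)).2.2 (fun i σ => z σ i) (analyticAt_pi_iff.1 z1) fun i =>
      z2.mono fun σ f => (Finset.sum_congr rfl fun _ _ => mul_comm _ _).trans (congrFun f i)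
    refine ⟨c, c1, (eventually_all.2 c2).mono fun σ f => funext fun i => ?_⟩
    simp [f i]
  have k6 : (A t).rank + (B u).rank ≤ a := by
    obtain ⟨l, τ, e, f⟩ := k4
    have c1 := (k1 τ).1 ⟨l, f⟩
    have c2 := (rk_mat (hBA τ (s2 e)) 0).1 ⟨Fin.elim0, fun i => i.elim0, fun _ _ =>
      funext fun i => i.elim0⟩
    omega
  refine ⟨min ε ε₀, k, _, a - (A t).rank - (B u).rank, fun j τ i => v j i τ, fun l => μ (E l),
    min_le_right _ _, hp, fun j τ e => AnalyticAt.pi ((h4 τ (s1 e)).1 j),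
    fun l τ e => (k2 _ _ τ e).fun_mul (k3 _ _ τ e), k4, fun τ e j => funext fun i =>
      (Finset.sum_congr rfl fun _ _ => mul_comm _ _).trans ((h4 τ (s1 e)).2.1 j i),
    fun τ e z z1 z2 => (k5 τ e z z1 z2).imp fun c d => ⟨d.1, d.2.mono fun _ f => ⟨0, f⟩⟩,
    fun τ e f ξ g => ?_, fun τ e f => ?_, fun τ e f => ?_⟩
  · obtain ⟨z, z1, rfl, z3⟩ := extend (fun i j => hB i j τ (s2 e)) (mem_of_superset
      (isOpen_ball.mem_nhds e) fun s d => (u2 s d).trans ((k1 τ).1 f).2) g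
    obtain ⟨c, -, c2⟩ := k5 τ e z z1 z3
    exact ⟨fun j => c j τ, 0, c2.self_of_nhds⟩
  · have c1 := (k1 τ).1 f
    have c2 := t2 τ e
    have c3 := u2 τ e
    rw [rk_mat (hBA τ (s2 e)), rk_mat (hBA τ (s2 e))]
    omega
  · have c1 := mt (k1 τ).2 fun ⟨l, d⟩ => d (f l)
    have c2 := t2 τ e
    have c3 := u2 τ e
    rw [rk_mat (hBA τ (s2 e))]
    omega

end Vale.Agent.P281Z.Gr
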