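import Vale.Agent.P281Z.Gr.Cone

/-!
# P281Z, block GR: the local cohomology of the cone
-/

open scoped Manifold ContDiff Topology
open Set Filter
open Vale.Agent.P272.K Vale.Agent.P285.H281.FD
open Vale.Agent.P277Z (Hol)
open Vale.Agent.P277Z.Slc (Ind)

set_option linter.unusedSectionVars false

noncomputable section

namespace Vale.Agent.P281Z.Gr

namespace Cx

namespace Ok

variable {n p : ℕ} {V : Type} [TopologicalSpace V] [CompactSpace V] [ChartedSpace (Cm n) V]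
  {L : Bd V} {C : Cx p L} {F : V → Cm p} {K₀ : Set V} {s : Finset (Fin p)} {l : Fin p} {x : V}
  (h : C.Ok n F K₀ s) (hd : Dat n F K₀)
include h hd

/-- the components of a local cycle of the cone -/
theorem cone_cyc {τ : Cm p} {ξ : C.X × C.X} (k : x ∈ (C.cone F l).Z ((C.cone F l).Dt τ ξ)) :
    x ∈ C.Z (C.Dt τ ξ.1 + C.fm F l τ ξ.2) ∧ x ∈ C.Z (C.Dt τ ξ.2) := by
  rw [cone_Dt, h.cone_Z hd] at k
  exact ⟨k.1, by simpa using Z_neg k.2⟩

theorem cone_red {τ : Cm p} {a b β : C.X} (k : x ∈ C.Z (C.Dt τ a + C.fm F l τ b))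
    (hβ : x ∈ C.Z (b - C.Dt τ β)) : x ∈ C.Z (C.Dt τ (a + C.fm F l τ β)) := by
  have := Z_sub k (h.loc_fm (l := l) hd τ _ hβ)
  rw [map_sub, add_sub_assoc, sub_sub_cancel] at this
  rwa [map_add, h.Dt_fm hd]

theorem cone_bd {τ : Cm p} {ξ : C.X × C.X} {α β : C.X}
    (a : x ∈ C.Z (ξ.1 + C.fm F l τ β - C.Dt τ α)) (b : x ∈ C.Z (ξ.2 - C.Dt τ β)) :
    x ∈ (C.cone F l).Z ((show (C.cone F l).X from ξ) - (C.cone F l).Dt τ (α, -β)) := by
  rw [cone_Dt]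
  refine (h.cone_Z hd (ξ.1 - (C.Dt τ α + C.fm F l τ (-β)), ξ.2 - -C.Dt τ (-β))).2 ⟨?_, ?_⟩
  · have e : ξ.1 - (C.Dt τ α + C.fm F l τ (-β)) = ξ.1 + C.fm F l τ β - C.Dt τ α := by
      rw [map_neg]
      abel
    exact e ▸ a
  · rwa [map_neg (C.Dt τ), neg_neg]

end Ok

end Cx

theorem loc_of (_ : BUMP) (hD : DIV) : LOC := by
  intro n V _ _ _ _ _ L hL p F K₀ C hd s l hl h x hx hI hc
  have dv := hD n V L hL p F x s l hl hI
  have deg0 : ∀ ξ : C.X × C.X, (C.cone F l).N ξ = 0 →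
      x ∈ (C.cone F l).Z ((C.cone F l).Dt (F x) ξ) → ∃ β, x ∈ C.Z (ξ.2 - C.Dt (F x) β) ∧ C.N β = 0 ∧
        C.N (ξ.1 + C.fm F l (F x) β) = 0 ∧ x ∈ C.Z (C.Dt (F x) (ξ.1 + C.fm F l (F x) β)) := by
    intro ξ a b
    obtain ⟨b1, b2⟩ := h.cone_cyc hd b
    have a1 : C.N ξ.1 = 0 := congrArg Prod.fst a
    have a2 : C.N ξ.2 - ξ.2 = 0 := congrArg Prod.snd a
    obtain ⟨β, c1, c2⟩ := hc.ex 1 ξ.2 one_ne_zero (by simpa [sub_eq_zero] using a2) b2
    have c3 : C.N β = 0 := by simpa using c1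
    exact ⟨β, c2, c3, by rw [map_add, a1, h.N_fm hd, c3, map_zero, add_zero], h.cone_red hd b1 c2⟩
  refine ⟨fun q (ξ : C.X × C.X) hq a b => ?_, fun (ξ : C.X × C.X) i hi a b => ?_,
    fun (ξ : C.X × C.X) i hi a b c => ?_⟩
  · obtain ⟨b1, b2⟩ := h.cone_cyc hd b
    have a1 : C.N ξ.1 = (q : ℂ) • ξ.1 := congrArg Prod.fst a
    have a2 : C.N ξ.2 - ξ.2 = (q : ℂ) • ξ.2 := congrArg Prod.snd a
    have a3 : C.N ξ.2 = ((q + 1 : ℤ) : ℂ) • ξ.2 := by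
      rw [eq_add_of_sub_eq a2, Int.cast_add, Int.cast_one, add_smul, one_smul]
    obtain ⟨β, c1, c2⟩ : ∃ β, C.N β = (q : ℂ) • β ∧ x ∈ C.Z (ξ.2 - C.Dt (F x) β) := by
      by_cases k : q + 1 = 0
      · obtain ⟨i, hi⟩ := hL.cover x
        rw [k, Int.cast_zero, zero_smul] at a3
        obtain ⟨b₀, d1, d2⟩ := hc.hol ξ.2 i hi a3 b2
        have d3 := (dv b₀ d1).2 (by
          filter_upwards [d2, Cx.Z_val_near b1] with y e1 e2 e3
          have := e2 i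
          rwa [Cx.val_add, h.val_Dt fun l' m => (e3 l' m).symm, zero_add, h.fm_val hd, e1 e3] at this)
        obtain ⟨β, e1, e2⟩ := hc.inj ξ.2 i hi a3 b2 (by
          filter_upwards [d2, d3] with y e1 e2 e3
          rw [e1 e3, e2 e3])
        exact ⟨β, by rw [e1, eq_neg_of_add_eq_zero_left k]; simp, e2⟩
      · obtain ⟨β, e1, e2⟩ := hc.ex (q + 1) ξ.2 k a3 b2
        exact ⟨β, by simpa using e1, e2⟩
    obtain ⟨α, d1, d2⟩ := hc.ex q (ξ.1 + C.fm F l (F x) β) hq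
      (by rw [map_add, a1, h.N_fm hd, c1, map_smul, smul_add]) (h.cone_red hd b1 c2)
    refine ⟨(α, -β), Prod.ext d1 ?_, h.cone_bd hd d2 c2⟩
    change C.N (-β) - -β = ((q : ℂ) - 1) • -β
    rw [map_neg, c1, sub_smul, one_smul, smul_neg]
  · obtain ⟨β, -, -, c3, c4⟩ := deg0 ξ a b
    obtain ⟨b₀, d1, d2⟩ := hc.hol _ i hi c3 c4
    refine ⟨b₀, d1, d2.mono fun y e1 e2 => ?_⟩
    rw [← e1 fun l' m => e2 l' (Finset.mem_insert_of_mem m), Cx.cone_val, Cx.val_add, h.fm_val hd,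
      e2 l (Finset.mem_insert_self _ _), sub_self, zero_mul, add_zero]
  · obtain ⟨β, c1, c2, c3, c4⟩ := deg0 ξ a b
    obtain ⟨b₀, d1, d2⟩ := hc.hol _ i hi c3 c4
    obtain ⟨b', d3, d4⟩ := (dv b₀ d1).1 (by
      filter_upwards [d2, c] with y e1 e2 e3 e4
      have := e2 fun l' m => (Finset.mem_insert.1 m).elim (fun k => k ▸ e4) (e3 l')
      rw [Cx.cone_val] at this
      rw [← e1 e3, Cx.val_add, h.fm_val hd, this, e4, sub_self, zero_mul, add_zero])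
    obtain ⟨ζ, z1, -, z3, z4⟩ := h.lift_at hL hx hi d3
    obtain ⟨α, e1, e2⟩ := hc.inj (ξ.1 + C.fm F l (F x) β - C.fm F l (F x) ζ) i hi
      (by rw [map_sub, c3, h.N_fm hd, z1, map_zero, sub_zero])
      (by
        rw [map_sub, h.Dt_fm hd _ _ ζ]
        exact Cx.Z_sub c4 (h.loc_fm hd _ _ (z3 _)))
      (by
        filter_upwards [d2, d4, z4, (hL.isOpen i).eventually_mem hi] with y e1 e2 e3 e4 e5
        have g1 : L.g i i y = 1 :=
          mul_left_cancel₀ (hL.ne_zero i i y e4 e4) (by rw [hL.cocycle i i i y e4 e4 e4, mul_one])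
        rw [Cx.val_sub, e1 e5, e2 e5, h.fm_val hd, e3 i e4, g1, one_mul, sub_self])
    refine ⟨(α, -(β - ζ)), Prod.ext e1 ?_, h.cone_bd hd (by rwa [map_sub, ← add_sub_assoc]) ?_⟩
    · change C.N (-(β - ζ)) - -(β - ζ) = - -(β - ζ)
      rw [map_neg, map_sub, c2, z1, sub_zero, neg_zero, zero_sub]
    · rw [map_sub, ← sub_add]
      exact Cx.Z_add c1 (z3 _)

end Vale.Agent.P281Z.Gr
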