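import Vale.Agent.P281Z.Gr.Calc
import Vale.Agent.P281Z.Gr.Api

/-!
# P281Z, block GR: forms on a manifold (frames, the operators, extension by zero)
-/

open scoped Manifold ContDiff Topology Matrix
open Set Filter
open Vale.Agent.P272.K Vale.Agent.P285.H281.FD Vale.Agent.P299.IX Vale.Agent.P299.IX.Fock
open Vale.Agent.P272.K.C2 (MC)
open Vale.Agent.P277Z (Hol)
open Vale.Agent.P277Z.Slc (at_chartAt tendsto_symm)

set_option linter.unusedSectionVars false

noncomputable section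

namespace Vale.Agent.P281Z.Gr

variable {n : ℕ} {V : Type} [TopologicalSpace V] [ChartedSpace (Cm n) V] {L : Bd V}
  {a b c : Fr n L} {x : V} {K₀ : Set V}

theorem Va.ev (hL : IsLB n L) (h : Va a x) : ∀ᶠ y in 𝓝 x, Va a y := by
  filter_upwards [a.1.open_source.mem_nhds h.1.2, (hL.isOpen _).mem_nhds h.2] with y h1 h2
  exact ⟨⟨h.1.1, h1⟩, h2⟩

theorem exists_va (hL : IsLB n L) (x : V) : ∃ a : Fr n L, Va a x :=
  let ⟨i, hi⟩ := hL.cover x
  ⟨(chartAt _ x, i), at_chartAt x, hi⟩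

/-- from `V` to a chart -/
theorem ev_chart {e : Chart n V} (h : At e x) {p : V → Prop} (k : ∀ᶠ y in 𝓝 x, p y) :
    ∀ᶠ z in 𝓝 (e x), p (e.symm z) ∧ e (e.symm z) = z :=
  ((tendsto_symm h).eventually k).and (h.nhds_target.mono fun _ hz => e.right_inv hz)

/-- from a chart to `V` -/
theorem ev_of_chart {e : Chart n V} (h : At e x) {p : Cm n → Prop} (k : ∀ᶠ z in 𝓝 (e x), p z) :
    ∀ᶠ y in 𝓝 x, p (e y) ∧ e.symm (e y) = y :=
  ((e.continuousAt h.2).eventually k).and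
    (mem_of_superset (e.open_source.mem_nhds h.2) fun _ hy => e.left_inv hy)

theorem cont_of_chart {E : Type} [TopologicalSpace E] {e : Chart n V} (h : At e x) {f : V → E}
    (k : ContinuousAt (fun z => f (e.symm z)) (e x)) : ContinuousAt f x :=
  (k.comp (e.continuousAt h.2)).congr <|
    mem_of_superset (e.open_source.mem_nhds h.2) fun _ hy => congrArg f (e.left_inv hy)

theorem g_self (hL : IsLB n L) {i : L.ι} (h : x ∈ L.U i) : L.g i i x = 1 :=
  mul_left_cancel₀ (hL.ne_zero i i x h h) (by rw [hL.cocycle i i i x h h h, mul_one])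

theorem g_hol (hL : IsLB n L) {i i' : L.ι} (h : x ∈ L.U i) (h' : x ∈ L.U i') :
    Hol n (L.g i i') x := fun e he => (hL.holo i i' e x he h h').analyticAt

theorem Tr_empty (a b : Fr n L) (x : V) (v : Fk n) :
    (Tr L a b x *ᵥ v) ∅ = L.g a.2 b.2 x * v ∅ := by
  rw [Tr, Matrix.smul_mulVec, Pi.smul_apply, lam_empty, smul_eq_mul]

theorem Tr_ev (a b : Fr n L) (x : V) : Tr L a b x *ᵥ ev ∅ = L.g a.2 b.2 x • ev ∅ := by
  rw [Tr, Matrix.smul_mulVec, lam_ev_empty]

theorem Nm_Tr (a b : Fr n L) (x : V) (v : Fk n) :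
    Nm n *ᵥ (Tr L a b x *ᵥ v) = Tr L a b x *ᵥ (Nm n *ᵥ v) := by
  rw [Tr, Matrix.smul_mulVec, Matrix.smul_mulVec, Matrix.mulVec_smul, Nm_lam]

namespace Af

variable (u : Af n L K₀)

theorem sm (h : Va a x) : ContDiffAt ℝ ∞ (fun z => u.1 a (a.1.symm z)) (a.1 x) := u.2.1 a x h

theorem chg (h : Va a x) (h' : Va b x) : u.1 a x = Tr L a b x *ᵥ u.1 b x := u.2.2.1 a b x h h'

theorem junk (h : ¬ Va a x) : u.1 a x = 0 := u.2.2.2 a x (Or.inl h)

theorem supp (a : Fr n L) (h : x ∉ K₀) : u.1 a x = 0 := u.2.2.2 a x (Or.inr h)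

theorem cont (h : Va a x) : ContinuousAt (u.1 a) x := cont_of_chart h.1 (sm u h).continuousAt

theorem ext {u v : Af n L K₀} (h : ∀ a x, Va a x → u.1 a x = v.1 a x) : u = v :=
  Subtype.ext (funext fun a => funext fun x => (em (Va a x)).elim (h a x) fun k => by
    rw [junk u k, junk v k])

/-- two forms which agree at `x` in one frame agree in all frames -/
theorem eq_of (v : Af n L K₀) (h : Va a x) (k : u.1 a x = v.1 a x) (b : Fr n L) :
    u.1 b x = v.1 b x :=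
  (em (Va b x)).elim (fun hb => by rw [chg u hb h, chg v hb h, k]) fun hb => by
    rw [junk u hb, junk v hb]

end Af

namespace Mod

variable {T : Atl n L} {P : Pre L (Fin T.m → Fk n) (Af n L K₀)} (M : Mod T K₀ P)
include M

/-- the coefficients in the frame `a` from `j u` -/
theorem rec' (u : Af n L K₀) (h : Va a x) :
    u.1 a x = ∑ γ, T.ψ γ x • Tr L a (T.f γ) x *ᵥ P.j u x γ := by
  rw [← one_smul ℂ (u.1 a x), ← T.sum x, Finset.sum_smul]
  refine Finset.sum_congr rfl fun γ _ => ?_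
  by_cases k : T.ψ γ x = 0
  · rw [k, zero_mul, zero_smul, zero_smul]
  · rw [M.j, Matrix.mulVec_smul, ← Af.chg u h (T.vaψ γ x (subset_tsupport _ k)), mul_smul]

theorem ev_eq (u : Af n L K₀) (h : Va a x) : P.ev a.2 x (P.j u x) = u.1 a x ∅ := by
  rw [M.ev, M.rec' u h, Finset.sum_apply]
  exact Finset.sum_congr rfl fun γ _ => by rw [Pi.smul_apply, Tr_empty, smul_eq_mul, mul_assoc]

theorem eq_of_j {u v : Af n L K₀} (h : P.j u x = P.j v x) (a : Fr n L) : u.1 a x = v.1 a x :=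
  (em (Va a x)).elim (fun k => by rw [M.rec' u k, M.rec' v k, h]) fun k => by
    rw [Af.junk u k, Af.junk v k]

theorem j_eq {u v : Af n L K₀} (h : Va a x) (k : u.1 a x = v.1 a x) : P.j u x = P.j v x :=
  funext fun γ => by rw [M.j, M.j, Af.eq_of u v h k]

theorem j_zero {u : Af n L K₀} (h : Va a x) (k : u.1 a x = 0) : P.j u x = 0 :=
  (M.j_eq (v := 0) h k).trans (by rw [map_zero]; rfl)

end Mod

variable [IsManifold 𝓘(ℂ, Cm n) ω V] (hL : IsLB n L)
include hL

theorem Tr_mul (ha : Va a x) (hb : Va b x) (hc : Va c x) :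
    Tr L a b x * Tr L b c x = Tr L a c x := by
  rw [Tr, Tr, Tr, Matrix.smul_mul, Matrix.mul_smul, smul_smul, hL.cocycle _ _ _ x ha.2 hb.2 hc.2,
    ← lam_mul, ← Matrix.conjTranspose_mul, ← jacM_comp ha.1 hb.1 hc.1]

theorem Tr_self (ha : Va a x) : Tr L a a x = 1 := by
  rw [Tr, g_self hL ha.2, jacM_self ha.1, Matrix.conjTranspose_one, lam_one, one_smul]

theorem Tr_chart (ha : Va a x) : ∀ᶠ z in 𝓝 (a.1 x), Tr L a b (a.1.symm z) =
    L.g a.2 b.2 (a.1.symm z) • lam (jmat (fun z => b.1 (a.1.symm z)) z)ᴴ :=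
  ha.1.nhds_target.mono fun z hz => by rw [Tr, jacM_eq, a.1.right_inv hz]

theorem Tr_smooth (ha : Va a x) (hb : Va b x) :
    MC ∞ (fun z => Tr L a b (a.1.symm z)) (a.1 x) := fun K I =>
  (((g_hol hL ha.2 hb.2 _ ha.1).restrictScalars (𝕜 := ℝ)).contDiffAt.mul
    (MC_jmatH (transition ha.1 hb.1) K I)).congr_of_eventuallyEq
      ((Tr_chart hL ha).mono fun z hz => congrFun (congrFun hz K) I)

theorem Tr_cont (ha : Va a x) (hb : Va b x) : ContinuousAt (Tr L a b) x :=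
  cont_of_chart ha.1 (continuousAt_pi.2 fun K => continuousAt_pi.2 fun I =>
    (Tr_smooth hL ha hb K I).continuousAt)

theorem smooth_Tr (ha : Va a x) (hb : Va b x) {g : Cm n → Fk n} (hg : ContDiffAt ℝ ∞ g (b.1 x)) :
    ContDiffAt ℝ ∞ (fun z => Tr L a b (a.1.symm z) *ᵥ g (b.1 (a.1.symm z))) (a.1 x) :=
  smooth_mulVec (Tr_smooth hL ha hb) (ContDiffAt.comp (a.1 x) (g := g)
    (by rwa [ha.1.left_inv]) (((transition ha.1 hb.1).restrict_scalars ℝ).of_le le_top))

theorem db_Tr (ha : Va a x) (hb : Va b x) {g : Cm n → Fk n} (hg : ContDiffAt ℝ ∞ g (b.1 x)) :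
    db (fun z => Tr L a b (a.1.symm z) *ᵥ g (b.1 (a.1.symm z))) (a.1 x) =
      Tr L a b x *ᵥ db g (b.1 x) := by
  have h1 := db_chg (u := g) (transition ha.1 hb.1) (jacM_isUnit ha.1 hb.1)
    (g_hol hL ha.2 hb.2 _ ha.1) (by rwa [ha.1.left_inv])
  rw [ha.1.left_inv] at h1
  exact (db_congr ((Tr_chart hL ha).mono fun z hz => by beta_reduce; rw [hz])).trans h1

theorem Af.db_chg (u : Af n L K₀) (ha : Va a x) (hb : Va b x) :
    db (fun z => u.1 a (a.1.symm z)) (a.1 x) =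
      Tr L a b x *ᵥ db (fun z => u.1 b (b.1.symm z)) (b.1 x) := by
  rw [← db_Tr hL ha hb (Af.sm u hb)]
  exact db_congr ((ev_chart ha.1 ((ha.ev hL).and (hb.ev hL))).mono fun z hz => by
    beta_reduce; rw [hz.1.2.1.left_inv, ← Af.chg u hz.1.1 hz.1.2])

open Classical in
theorem mem_d (hK : IsClosed K₀) (u : Af n L K₀) : (fun a x => if Va a x then
    db (fun z => u.1 a (a.1.symm z)) (a.1 x) else 0) ∈ Af n L K₀ := by
  refine ⟨fun a x h => (db_smooth (Af.sm u h)).congr_of_eventuallyEq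
    ((ev_chart h.1 (h.ev hL)).mono fun z hz => by beta_reduce; rw [if_pos hz.1, hz.2]),
    fun a b x h h' => by beta_reduce; rw [if_pos h, if_pos h', Af.db_chg hL u h h'],
    fun a x h => ?_⟩
  beta_reduce
  split_ifs with k
  · exact (db_congr ((ev_chart k.1 (hK.isOpen_compl.mem_nhds (h.resolve_left (not_not.2 k)))).mono
      fun z hz => Af.supp u a hz.1)).trans (db_const 0)
  · rfl

open scoped ComplexOrder in
theorem exists_atl [T2Space V] [CompactSpace V] : Nonempty (Atl n L) := by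
  choose f hf using exists_va hL
  have h1 : ∀ x, ∃ φ : V → ℂ, Sm n φ ∧ (∀ᶠ y in 𝓝 x, φ y = 1) ∧ ∀ y ∈ tsupport φ, Va (f x) y :=
    fun x => by
      obtain ⟨W, h1, h2, h3⟩ := mem_nhds_iff.1 ((hf x).ev hL)
      obtain ⟨φ, k1, k2, k3⟩ := exists_bump n isCompact_singleton h2 (singleton_subset_iff.2 h3)
      exact ⟨φ, k1, k2 x rfl, fun y hy => h1 (k3 hy)⟩
  choose φ h2 h3 h4 using h1
  obtain ⟨t, ht⟩ := CompactSpace.elim_nhds_subcover _ h3
  set s := fun γ => (t.equivFin.symm γ : V)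
  have h5 : ∀ x, ∑ γ, star (φ (s γ) x) * φ (s γ) x ≠ 0 := fun x h => by
    obtain ⟨y, hy, k⟩ := mem_iUnion₂.1 (ht.ge (mem_univ x))
    have := (Finset.sum_eq_zero_iff_of_nonneg fun γ _ => star_mul_self_nonneg (φ (s γ) x)).1 h
      (t.equivFin ⟨y, hy⟩) (Finset.mem_univ _)
    simp only [s, Equiv.symm_apply_apply] at this
    rw [show φ y x = 1 from k] at this
    simp at this
  have h6 : ∀ γ, Sm n fun x => star (φ (s γ) x) := fun γ x e he => C2.contDiffAt_conj (h2 _ x e he)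
  refine ⟨⟨t.card, fun γ => f (s γ), fun γ => φ (s γ),
    fun γ x => star (φ (s γ) x) * (∑ γ, star (φ (s γ) x) * φ (s γ) x)⁻¹, fun γ => h2 _,
    fun γ x => ((h6 γ).at x).mul (((sm_sum _ fun γ _ => (h6 γ).mul (h2 _)).at x).inv (h5 x)),
    fun γ => h4 _, fun γ x hx => h4 _ x (closure_mono ?_ hx), fun x => ?_⟩⟩
  · exact fun y hy k => hy (by simp [k])
  · simp only [mul_right_comm _ (_⁻¹ : ℂ)]
    rw [← Finset.sum_mul, mul_inv_cancel₀ (h5 x)]

omit hL

open Classical in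
theorem ops : OPS := by
  intro n V _ _ _ _ _ L hL K₀ hK
  obtain ⟨T⟩ := exists_atl hL
  have hj : ∀ (u : Af n L K₀) γ, Continuous fun x => T.χ γ x • u.1 (T.f γ) x := fun u γ =>
    continuous_iff_continuousAt.2 fun x => (Classical.em (x ∈ tsupport (T.χ γ))).elim
      (fun h => (T.smχ γ).cont.continuousAt.smul (Af.cont u (T.vaχ γ x h))) fun h =>
      continuousAt_const.congr ((notMem_tsupport_iff_eventuallyEq.1 h).mono fun y hy => by
        beta_reduce; rw [hy, Pi.zero_apply, zero_smul])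
  refine ⟨T, ⟨⟨⟨fun u => ⟨fun x γ => T.χ γ x • u.1 (T.f γ) x, continuous_pi (hj u)⟩, ?_⟩, ?_⟩,
    ⟨⟨fun u => ⟨_, mem_d hL hK.isClosed u⟩, ?_⟩, ?_⟩,
    ⟨⟨fun u => ⟨fun a x => Nm n *ᵥ u.1 a x, ?_⟩, ?_⟩, ?_⟩,
    fun φ => if h : Sm n φ then ⟨⟨fun u => ⟨fun a x => φ x • u.1 a x, ?_⟩, ?_⟩, ?_⟩ else 0,
    .pi fun γ => LinearMap.toContinuousLinearMap (Matrix.mulVecLin (Nm n)) ∘L .proj γ,
    fun i x => ∑ γ, (T.ψ γ x * L.g i (T.f γ).2 x) •
      ((.proj ∅ : Fk n →L[ℂ] ℂ) ∘L (.proj γ : (Fin T.m → Fk n) →L[ℂ] Fk n))⟩,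
    fun _ _ _ => rfl, fun u a x h => if_pos h, fun _ _ _ => rfl,
    fun φ h u a x => by simp only [dif_pos h]; rfl, fun _ _ => rfl, fun i x v => by simp⟩
  · exact fun u v => ContinuousMap.ext fun x => funext fun γ => smul_add _ _ _
  · exact fun c u => ContinuousMap.ext fun x => funext fun γ => smul_comm (T.χ γ x) c (u.1 (T.f γ) x)
  · exact fun u v => Af.ext fun a x h => (if_pos h).trans ((db_add (Af.sm u h) (Af.sm v h)).trans
      (congrArg₂ _ (if_pos h).symm (if_pos h).symm))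
  · exact fun c u => Af.ext fun a x h => (if_pos h).trans ((db_const_smul c (Af.sm u h)).trans
      (congrArg _ (if_pos h).symm))
  · exact ⟨fun a x h => smooth_mulVec (MC_const _ _) (Af.sm u h),
      fun a b x h h' => by rw [← Nm_Tr, ← Af.chg u h h'],
      fun a x h => by beta_reduce; rw [u.2.2.2 a x h, Matrix.mulVec_zero]⟩
  · exact fun u v => Af.ext fun a x _ => Matrix.mulVec_add _ (u.1 a x) (v.1 a x)
  · exact fun c u => Af.ext fun a x _ => Matrix.mulVec_smul (Nm n) c (u.1 a x)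
  · exact ⟨fun a x k => (h x _ k.1).smul (Af.sm u k),
      fun a b x k k' => by rw [Matrix.mulVec_smul, ← Af.chg u k k'],
      fun a x k => by beta_reduce; rw [u.2.2.2 a x k, smul_zero]⟩
  · exact fun u v => Af.ext fun a x _ => smul_add _ _ _
  · exact fun c u => Af.ext fun a x _ => smul_comm (φ x) c (u.1 a x)

open Classical in
theorem glb : GLB := by
  intro n V _ _ _ _ _ L hL K₀ K a g hK h0 h1 h2 h3
  refine ⟨⟨fun b y => if y ∈ K ∧ Va b y then Tr L b a y *ᵥ g (a.1 y) else 0, fun b y h => ?_,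
    fun b c y h h' => ?_, fun b y h => if_neg fun k => h.elim (· k.2) (· (h0 k.1))⟩,
    fun y h => ?_, fun b y h => if_neg fun k => h k.1⟩
  · by_cases k : y ∈ K
    · refine (smooth_Tr hL h (h1 y k) (h2 y k)).congr_of_eventuallyEq
        ((ev_chart h.1 ((h.ev hL).and ((h1 y k).ev hL))).mono fun z hz => ?_)
      beta_reduce
      split_ifs with k'
      · rfl
      · rw [h3 _ hz.1.2 fun k'' => k' ⟨k'', hz.1.1⟩, Matrix.mulVec_zero]
    · exact contDiffAt_const.congr_of_eventuallyEq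
        ((ev_chart h.1 (hK.isClosed.isOpen_compl.mem_nhds k)).mono fun z hz =>
          if_neg fun k' => hz.1 k'.1)
  · beta_reduce
    by_cases k : y ∈ K
    · rw [if_pos ⟨k, h⟩, if_pos ⟨k, h'⟩, Matrix.mulVec_mulVec, Tr_mul hL h h' (h1 y k)]
    · rw [if_neg fun k' => k k'.1, if_neg fun k' => k k'.1, Matrix.mulVec_zero]
  · show (if _ then _ else _) = _
    split_ifs with k
    · rw [Tr_self hL h, Matrix.one_mulVec]
    · exact (h3 y h fun k' => k ⟨k', h⟩).symm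

end Vale.Agent.P281Z.Gr
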