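import Vale.Agent.P281Z.Gr.Calc
import Vale.Agent.P281Z.Gr.Api
import Vale.Agent.P277Z.Ln.Dol0
import Vale.Agent.P281.MF.Hol

/-!
# P281Z, block GR: the Dolbeault complex of a line bundle, formal properties
-/

open scoped Manifold ContDiff Topology Matrix ENNReal
open Set Filter Metric MeasureTheory
open Vale.Agent.P272.K Vale.Agent.P285.H281.FD Vale.Agent.P299.IX Vale.Agent.P299.IX.Fock
open Vale.Agent.P277Z (Hol)
open Vale.Agent.P277Z.Slc (at_chartAt tendsto_symm)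
open Vale.Agent.P277Z.Ln

set_option linter.unusedSectionVars false

noncomputable section

namespace Vale.Agent.P281Z.Gr

namespace Mok

theorem z_of_unif {n : ℕ} {c : Cm n} {r : ℝ} {ι : Type} {F : Filter ι} {f : ι → Cm n → ℂ}
    (h : ∀ ε > 0, ∀ᶠ k in F, ∀ z ∈ ball c r, ‖f k z‖ ≤ ε) : Dol.Z F (ball c r) f := by
  have : (volume : Measure (Cm n)).IsAddHaarMeasure := Measure.pi.isAddHaarMeasure _
  refine ENNReal.tendsto_nhds_zero.2 fun ε hε => ?_
  obtain ⟨δ, h1, h2⟩ := ENNReal.exists_nnreal_pos_mul_lt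
    (measure_ball_lt_top (μ := (volume : Measure (Cm n))) (x := c) (r := r)).ne hε.ne'
  filter_upwards [h δ h1] with k hk
  refine (setLIntegral_mono' measurableSet_ball (g := fun _ => δ) fun z hz => ?_).trans
    ((setLIntegral_const _ _).trans_le h2.le)
  exact ENNReal.coe_le_coe.2 (hk z hz)

/-- the Weyl lemma for uniform limits -/
theorem weyl {n : ℕ} {c : Cm n} {S : Set (Cm n)} (hS : S ∈ 𝓝 c) {f : ℕ → Cm n → ℂ} {a : Cm n → ℂ}
    (hf : ∀ k, ∀ z ∈ S, ContDiffAt ℝ ∞ (f k) z) (h1 : TendstoUniformlyOn f a atTop S)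
    (h2 : ∀ l, ∀ ε > 0, ∀ᶠ k in atTop, ∀ z ∈ S, ‖dzb l (f k) z‖ ≤ ε) : AnalyticAt ℂ a c := by
  obtain ⟨R, hR, hb⟩ := Metric.mem_nhds_iff.1 hS
  obtain ⟨r, rfl⟩ : ∃ r, R = 3 * r := ⟨R / 3, by ring⟩
  have hr : 0 < r := by linarith
  have hb' : ball c r ⊆ S := (ball_subset_ball (by linarith)).trans hb
  have h3 : ∀ s, ball c s ⊆ S → Dol.Z atTop (ball c s) fun k z => a z - f k z := fun s hs =>
    z_of_unif fun ε hε => (Metric.tendstoUniformlyOn_iff.1 h1 ε hε).mono fun k hk z hz =>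
      ((dist_eq_norm _ _).symm.trans_lt (hk z (hs hz))).le
  have h4 : ContinuousOn a S := h1.continuousOn
    (Frequently.of_forall fun k z hz => (hf k z hz).continuousAt.continuousWithinAt)
  have h5 : ∀ k s, ball c s ⊆ S → ContinuousOn (fun z => a z - f k z) (ball c s) := fun k s hs =>
    (h4.sub fun z hz => (hf k z hz).continuousAt.continuousWithinAt).mono hs
  obtain ⟨G, g1, g2⟩ := Dol.weyl_loc c hr (f := f) (fun k z hz => hf k z (hb hz))
    (Dol.Z.tri measurableSet_ball (h3 _ hb).fst (h3 _ hb).snd (fun p => h5 p.1 _ hb)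
      fun p z _ => by
        rw [show f p.1 z - f p.2 z = -(a z - f p.1 z) + (a z - f p.2 z) by ring]
        exact (enorm_add_le _ _).trans_eq (by rw [enorm_neg]))
    fun l => z_of_unif fun ε hε => (h2 l ε hε).mono fun k hk z hz => hk z (hb hz)
  have h6 : Dol.Z atTop (ball c r) fun (_ : ℕ) z => a z - G z :=
    Dol.Z.tri measurableSet_ball (h3 _ hb') g2 (fun k => h5 k _ hb') fun k z _ => by
      rw [show a z - G z = (a z - f k z) + (f k z - G z) by ring]
      exact enorm_add_le _ _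
  have h7 := Dol.eq_zero_of_L1 isOpen_ball ((h4.mono hb').sub g1.continuousOn)
    (tendsto_nhds_unique tendsto_const_nhds h6)
  refine (P281.MF.analyticAt_of_differentiableOn isOpen_ball g1 (mem_ball_self hr)).congr ?_
  filter_upwards [ball_mem_nhds c hr] with z hz using (sub_eq_zero.1 (h7 z hz)).symm

theorem norm_eps {n : ℕ} (l : Fin n) (v : Fk n) : ‖eps l *ᵥ v‖ ≤ ‖v‖ :=
  (pi_norm_le_iff_of_nonneg (norm_nonneg _)).2 fun I => by
    rw [eps_mulVec]
    split_ifs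
    · rw [norm_mul, sg, norm_pow, norm_neg, norm_one, one_pow, one_mul]
      exact norm_le_pi_norm _ _
    · rw [norm_zero]
      exact norm_nonneg _

variable {n : ℕ} {V : Type} [TopologicalSpace V] [CompactSpace V] [ChartedSpace (Cm n) V]
  {L : Bd V} {T : Atl n L} {K₀ : Set V} {P : Pre L (Fin T.m → Fk n) (Af n L K₀)} {a b : Fr n L}
  {x : V} {i : L.ι} {γ : Fin T.m}

theorem va_near (hL : IsLB n L) (h : Va a x) : ∀ᶠ y in 𝓝 x, Va a y := by
  filter_upwards [a.1.open_source.mem_nhds h.1.2, (hL.isOpen a.2).mem_nhds h.2] with y p q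
    using ⟨⟨h.1.1, p⟩, q⟩

theorem va_symm (hL : IsLB n L) (h : Va a x) :
    ∀ᶠ z in 𝓝 (a.1 x), Va a (a.1.symm z) ∧ a.1 (a.1.symm z) = z :=
  ((tendsto_symm h.1).eventually (va_near hL h)).and
    (a.1.eventually_right_inverse (a.1.map_source h.1.2))

theorem ext {u v : Af n L K₀} (h : ∀ a x, Va a x → u.1 a x = v.1 a x) : u = v :=
  Subtype.ext (funext₂ fun a x => (em (Va a x)).elim (h a x) fun k =>
    (u.2.2.2 a x (Or.inl k)).trans (v.2.2.2 a x (Or.inl k)).symm)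

theorem vaχ (h : T.χ γ x ≠ 0) : Va (T.f γ) x := T.vaχ γ x (subset_tsupport _ h)

theorem vaψ (h : T.ψ γ x ≠ 0) : Va (T.f γ) x := T.vaψ γ x (subset_tsupport _ h)

theorem ex_chi (T : Atl n L) (x : V) : ∃ γ, T.χ γ x ≠ 0 := by
  by_contra! h
  simpa [h] using T.sum x

theorem g_hol (hL : IsLB n L) {j : L.ι} (hi : x ∈ L.U i) (hj : x ∈ L.U j) : Hol n (L.g i j) x :=
  fun e he => (hL.holo i j e x he hi hj).analyticAt

theorem ev_eq (hL : IsLB n L) (h : Mod T K₀ P) (u : Af n L K₀) (hb : Va b x) (hi : x ∈ L.U i) :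
    P.ev i x (P.j u x) = L.g i b.2 x * u.1 b x ∅ := by
  rw [h.ev, ← one_mul (_ * u.1 b x ∅), ← T.sum x, Finset.sum_mul]
  refine Finset.sum_congr rfl fun γ _ => (eq_or_ne (T.ψ γ x) 0).elim (fun k => by simp [k])
    fun k => ?_
  rw [h.j, u.2.2.1 _ b x (vaψ k) hb, Tr, Matrix.smul_mulVec, Pi.smul_apply, Pi.smul_apply,
    lam_empty, ← hL.cocycle i _ b.2 x hi (vaψ k).2 hb.2, smul_eq_mul, smul_eq_mul]
  ring

theorem d_near (hL : IsLB n L) (h : Mod T K₀ P) (u : Af n L K₀) (ha : Va a x) :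
    (fun z => (P.d u).1 a (a.1.symm z)) =ᶠ[𝓝 (a.1 x)] db fun z => u.1 a (a.1.symm z) :=
  (va_symm hL ha).mono fun z hz => (h.d u a _ hz.1).trans (by rw [hz.2])

theorem comm (h : Mod T K₀ P) {φ : V → ℂ} (hφ : Sm n φ) (u : Af n L K₀) (x : V) (γ : Fin T.m) :
    (P.j (P.d (P.mul φ u)) x - φ x • P.j (P.d u) x) γ = ∑ l, (tsupport (T.χ γ)).indicator
      (fun y => dzb l (fun z => φ ((T.f γ).1.symm z)) ((T.f γ).1 y)) x • eps l *ᵥ P.j u x γ := by
  rw [Pi.sub_apply, Pi.smul_apply, h.j, h.j, h.j]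
  refine (eq_or_ne (T.χ γ x) 0).elim (fun k => by simp [k]) fun k => ?_
  have ha := vaχ k
  simp only [h.d _ _ x ha, h.mul φ hφ, indicator_of_mem (subset_tsupport _ k)]
  rw [db_smul (hφ x _ ha.1) (u.2.1 _ x ha), (T.f γ).1.left_inv ha.1.2, smul_add,
    smul_comm (φ x), add_sub_cancel_left, Finset.smul_sum]
  exact Finset.sum_congr rfl fun l _ => by rw [Matrix.mulVec_smul, smul_comm]

end Mok

open Mok

/-- **MOK** -/
theorem mok : MOK := by
  intro n V _ _ _ _ _ L hL T K₀ P _ h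
  refine ⟨(injective_iff_map_eq_zero _).2 fun u hu => ext fun a x ha => ?_,
    fun u => ext fun a x ha => ?_, fun u => ext fun a x ha => ?_, fun u x => funext fun γ => ?_,
    fun q hq v hv => funext₂ fun γ I => ?_, fun u x hx => funext fun γ => ?_,
    fun φ hφ u x => funext fun γ => ?_, fun φ hφ => ?_,
    fun φ hφ u x hx => sub_eq_zero.1 (funext fun γ => ?_), fun u i i' x hi hi' => ?_,
    fun u i x => ?_, fun i x hi => ?_, fun i x hi => ?_⟩
  · obtain ⟨γ, k⟩ := ex_chi T x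
    have h1 := h.j u x γ
    rw [hu] at h1
    rw [u.2.2.1 a _ x ha (vaχ k), (smul_eq_zero.1 h1.symm).resolve_left k, Matrix.mulVec_zero]
    rfl
  · exact (h.d _ a x ha).trans ((db_congr (d_near hL h u ha)).trans (db_db (u.2.1 a x ha)))
  · rw [h.N, h.d _ a x ha, Nm_db (u.2.1 a x ha), ← h.d _ a x ha]
    refine congrArg (· + _) ?_
    simp only [h.d _ a x ha, h.N]
  · rw [h.N', h.j, h.j, h.N, Matrix.mulVec_smul]
  · have h1 := congrFun (congrFun hv γ) I
    rw [h.N', Nm_apply] at h1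
    refine (mul_eq_mul_right_iff.1 h1).resolve_left fun e => ?_
    have : (I.card : ℤ) = q := by exact_mod_cast e
    omega
  · rw [h.j, u.2.2.2 _ x (Or.inr hx), smul_zero, Pi.zero_apply]
  · rw [h.j, h.mul φ hφ, Pi.smul_apply, h.j, smul_comm]
  · have h1 : ∀ γ l, ∃ C, ∀ y ∈ tsupport (T.χ γ),
        ‖dzb l (fun z => φ ((T.f γ).1.symm z)) ((T.f γ).1 y)‖ ≤ C := fun γ l =>
      (isClosed_tsupport _).isCompact.exists_bound_of_continuousOn fun y hy =>
        ((C2.contDiffAt_dzb (m := 0) l (hφ y _ (T.vaχ γ y hy).1) (by simp)).continuousAt.comp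
          ((T.f γ).1.continuousAt (T.vaχ γ y hy).1.2)).continuousWithinAt
    choose C hC using h1
    refine ⟨∑ γ, ∑ l, |C γ l|, fun u x => (pi_norm_le_iff_of_nonneg (by positivity)).2
      fun γ => ?_⟩
    rw [comm h hφ]
    refine (norm_sum_le _ _).trans (le_trans ?_ (mul_le_mul_of_nonneg_right (Finset.single_le_sum
      (f := fun γ => ∑ l, |C γ l|) (fun _ _ => by positivity) (Finset.mem_univ γ)) (norm_nonneg _)))
    rw [Finset.sum_mul]
    refine Finset.sum_le_sum fun l _ => (norm_smul_le _ _).trans (mul_le_mul ?_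
      ((norm_eps _ _).trans (norm_le_pi_norm _ γ)) (norm_nonneg _) (abs_nonneg _))
    by_cases k : x ∈ tsupport (T.χ γ)
    · rw [indicator_of_mem k]
      exact (hC γ l x k).trans (le_abs_self _)
    · rw [indicator_of_notMem k, norm_zero]
      exact abs_nonneg _
  · rw [comm h hφ]
    refine Finset.sum_eq_zero fun l _ => ?_
    by_cases k : x ∈ tsupport (T.χ γ)
    · rw [indicator_of_mem k, dzb_of_holo (hx _ (T.vaχ γ x k).1).differentiableAt, zero_smul]
    · rw [indicator_of_notMem k, zero_smul]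
  · obtain ⟨γ, k⟩ := ex_chi T x
    rw [ev_eq hL h u (vaχ k) hi, ev_eq hL h u (vaχ k) hi', ← mul_assoc,
      hL.cocycle i i' _ x hi hi' (vaχ k).2]
  · rw [h.ev]
    refine Finset.sum_eq_zero fun γ _ => (eq_or_ne (T.ψ γ x) 0).elim (fun k => by simp [k])
      fun k => ?_
    rw [h.j, h.d _ _ x (vaψ k), Pi.smul_apply, db_empty, smul_zero, mul_zero]
  · have h1 : ContinuousAt (fun y => ∑ γ, ‖T.ψ γ y * L.g i (T.f γ).2 y‖) x := by
      refine tendsto_finsetSum _ fun γ _ => ContinuousAt.norm ?_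
      by_cases k : x ∈ tsupport (T.ψ γ)
      · exact ((T.smψ γ).at x).cont.mul (smAt_of_hol (g_hol hL hi (T.vaψ γ x k).2)).cont
      · exact continuousAt_const.congr ((notMem_tsupport_iff_eventuallyEq.1 k).mono fun y hy => by
          simp only [hy, Pi.zero_apply, zero_mul]
          rfl)
    refine ⟨_, (h1.eventually (Iio_mem_nhds (lt_add_one _))).mono fun y hy => le_trans
      (ContinuousLinearMap.opNorm_le_bound _ (by positivity) fun v => ?_) (le_of_lt hy)⟩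
    rw [h.ev, Finset.sum_mul]
    exact (norm_sum_le _ _).trans (Finset.sum_le_sum fun γ _ => (norm_mul_le _ _).trans
      (mul_le_mul_of_nonneg_left ((norm_le_pi_norm _ _).trans (norm_le_pi_norm v γ))
        (norm_nonneg _)))
  · refine ⟨1 + ∑ γ, ‖T.χ γ x / L.g i (T.f γ).2 x‖, fun u =>
      (pi_norm_le_iff_of_nonneg (by positivity)).2 fun γ => (norm_le_Nm _).trans ?_⟩
    have h1 : ‖T.χ γ x / L.g i (T.f γ).2 x‖ ≤ ∑ γ, ‖T.χ γ x / L.g i (T.f γ).2 x‖ :=
      Finset.single_le_sum (f := fun γ => ‖T.χ γ x / L.g i (T.f γ).2 x‖)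
        (fun _ _ => norm_nonneg _) (Finset.mem_univ γ)
    have h2 : P.j u x γ ∅ = T.χ γ x / L.g i (T.f γ).2 x * P.ev i x (P.j u x) := by
      rw [h.j]
      refine (eq_or_ne (T.χ γ x) 0).elim (fun k => by simp [k]) fun k => ?_
      rw [ev_eq hL h u (vaχ k) hi, ← mul_assoc, div_mul_cancel₀ _
        (hL.ne_zero _ _ x hi (vaχ k).2), Pi.smul_apply, smul_eq_mul]
    have h3 := norm_le_pi_norm (P.N' (P.j u x)) γ
    rw [h.N'] at h3
    rw [h2, norm_mul]
    nlinarith [norm_nonneg (P.N' (P.j u x)), norm_nonneg (P.ev i x (P.j u x)),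
      norm_nonneg (T.χ γ x / L.g i (T.f γ).2 x)]

/-- **MWL** -/
theorem mwl : MWL := by
  intro n V _ _ _ _ _ L hL T K₀ P _ h
  classical
  refine ⟨fun u a i x hi S hS h1 h2 => ?_, fun O hO t ht φ hφ hs => ?_⟩
  · obtain ⟨γ, k⟩ := ex_chi T x
    have hb := vaχ k
    set b := T.f γ
    have h3 : ContinuousAt (fun y => ‖L.g i b.2 y / T.χ γ y‖) x :=
      ((smAt_of_hol (g_hol hL hi hb.2)).cont.div ((T.smχ γ).at x).cont k).norm
    set C := ‖L.g i b.2 x / T.χ γ x‖ + 1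
    have h4 : ∀ᶠ z in 𝓝 (b.1 x), (Va b (b.1.symm z) ∧ b.1 (b.1.symm z) = z) ∧ b.1.symm z ∈ S ∧
        b.1.symm z ∈ L.U i ∧ T.χ γ (b.1.symm z) ≠ 0 ∧
        ‖L.g i b.2 (b.1.symm z) / T.χ γ (b.1.symm z)‖ < C :=
      (va_symm hL hb).and ((tendsto_symm hb.1).eventually (Eventually.and hS
        (Eventually.and ((hL.isOpen i).mem_nhds hi) ((((T.smχ γ).at x).cont.eventually_ne k).and
          (h3.eventually (Iio_mem_nhds (lt_add_one _)))))))
    have h5 : ∀ {z}, Va b (b.1.symm z) ∧ b.1 (b.1.symm z) = z → b.1.symm z ∈ L.U i →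
        AnalyticAt ℂ (fun z => L.g i b.2 (b.1.symm z)) z ∧
        ∀ k, ContDiffAt ℝ ∞ (fun z => (u k).1 b (b.1.symm z)) z := fun p q =>
      ⟨p.2 ▸ g_hol hL q p.1.2 _ p.1.1, fun k => p.2 ▸ (u k).2.1 b _ p.1⟩
    refine Hol.of_chart hb.1 (weyl h4
      (f := fun k z => (L.g i b.2 (b.1.symm z) • (u k).1 b (b.1.symm z)) ∅)
      (fun k z hz => contDiffAt_pi.1 (((h5 hz.1 hz.2.2.1).1.restrictScalars
        (𝕜 := ℝ)).contDiffAt.smul ((h5 hz.1 hz.2.2.1).2 k)) ∅)
      (((h1.comp b.1.symm).mono fun z hz => hz.2.1).congr (.of_forall fun k z hz =>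
        ev_eq hL h (u k) hz.1.1 hz.2.2.1)) fun l ε hε => ?_)
    have hC : 0 < C := by positivity
    filter_upwards [Metric.tendstoUniformlyOn_iff.1 h2 (ε / C) (by positivity)] with k p z hz
    have h6 := h.j (P.d (u k)) (b.1.symm z) γ
    rw [h.d _ _ _ hz.1.1, hz.1.2] at h6
    have h7 := ((norm_le_pi_norm (P.j (P.d (u k)) (b.1.symm z) γ) {l}).trans
      (norm_le_pi_norm (P.j (P.d (u k)) (b.1.symm z)) γ)).trans_lt
      (((dist_zero_right _).symm.trans (dist_comm _ _)).trans_lt (p _ hz.2.1))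
    rw [← db_single (fun z => L.g i b.2 (b.1.symm z) • (u k).1 b (b.1.symm z)),
      db_smul_hol (h5 hz.1 hz.2.2.1).1 ((h5 hz.1 hz.2.2.1).2 k), ← div_mul_cancel₀
        (L.g i b.2 (b.1.symm z)) hz.2.2.2.1, mul_smul, ← h6, Pi.smul_apply, norm_smul]
    exact (mul_le_mul hz.2.2.2.2.le h7.le (norm_nonneg _) hC.le).trans_eq
      (mul_div_cancel₀ _ hC.ne')
  have h0 : ∀ x, φ x ≠ 0 → x ∈ O ∩ interior K₀ := fun x k => hs (subset_tsupport _ k)
  have h1 : ∀ x i j, x ∈ L.U i → x ∈ L.U j → φ x * t i x = L.g i j x * (φ x * t j x) :=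
    fun x i j p q => (eq_or_ne (φ x) 0).elim (fun k => by simp [k]) fun k => by
      rw [ht.chg x (h0 x k).1 i j p q, mul_left_comm]
  have h2 : ∀ (a : Fr n L) x, Va a x → (fun z => if Va a (a.1.symm z) then
      (φ (a.1.symm z) * t a.2 (a.1.symm z)) • ev ∅ else (0 : Fk n)) =ᶠ[𝓝 (a.1 x)]
      fun z => (φ (a.1.symm z) * t a.2 (a.1.symm z)) • ev ∅ := fun a x ha =>
    (va_symm hL ha).mono fun z hz => if_pos hz.1
  have h3 : ∀ x i, x ∉ tsupport φ → ∀ᶠ y in 𝓝 x, φ y * t i y = 0 := fun x i k =>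
    (notMem_tsupport_iff_eventuallyEq.1 k).mono fun y hy => by rw [hy, Pi.zero_apply, zero_mul]
  let u : Af n L K₀ := ⟨fun a x => if Va a x then (φ x * t a.2 x) • ev ∅ else 0,
    fun a x ha => by
      refine ContDiffAt.congr_of_eventuallyEq (ContDiffAt.smul (f := fun z => φ (a.1.symm z) *
        t a.2 (a.1.symm z)) (g := fun _ => ev ∅) ?_ contDiffAt_const) (h2 a x ha)
      by_cases k : x ∈ tsupport φ
      · exact (hφ.at x).mul (smAt_of_hol (ht.hol x (hs k).1 _ ha.2)) _ ha.1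
      · exact smAt_of_hol (hol_of_const (h3 x _ k)) _ ha.1,
    fun a b x ha hb => by
      simp only [if_pos ha, if_pos hb, Tr, Matrix.smul_mulVec, Matrix.mulVec_smul, lam_ev_empty,
        smul_smul, h1 x a.2 b.2 ha.2 hb.2, mul_comm (L.g a.2 b.2 x)],
    fun a x k => by
      refine ite_eq_right_iff.2 fun ha => ?_
      rw [not_not.1 fun e => k.resolve_left (not_not.2 ha) (interior_subset (h0 x e).2), zero_mul,
        zero_smul]⟩
  have hu : ∀ a x, Va a x → u.1 a x = (φ x * t a.2 x) • ev ∅ := fun a x ha => if_pos ha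
  refine ⟨u, ext fun a x ha => ?_, fun i x hi => ?_, fun x hx => funext fun γ => ?_⟩
  · rw [h.N, hu a x ha, Matrix.mulVec_smul, Nm, dgl_ev]
    simp
  · obtain ⟨γ, k⟩ := ex_chi T x
    rw [ev_eq hL h u (vaχ k) hi, hu _ x (vaχ k), h1 x i _ hi (vaχ k).2]
    simp [ev]
  · rw [h.j]
    refine (eq_or_ne (T.χ γ x) 0).elim (fun k => by simp [k]) fun k => ?_
    have ha := vaχ k
    have h4 : Hol n (fun y => φ y * t (T.f γ).2 y) x := (em (x ∈ tsupport φ)).elim
      (fun k e he => (hx e he).mul (ht.hol x (hs k).1 _ ha.2 e he)) fun k => hol_of_const (h3 x _ k)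
    rw [h.d _ _ x ha, db_congr (h2 _ x ha), db_smul_hol (h4 _ ha.1) contDiffAt_const, db_const,
      smul_zero, smul_zero, Pi.zero_apply]

end Vale.Agent.P281Z.Gr
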