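import Vale.Agent.P281Z.Gr.PreA

/-!
# P281Z, block GR, row PRE: the completion in the graph norm
-/

open scoped Manifold ContDiff Topology
open Set Filter Metric
open Vale.Agent.P272.K Vale.Agent.P285.H281.FD
open Vale.Agent.P277Z (Hol)

set_option linter.unusedSectionVars false

noncomputable section

namespace Vale.Agent.P281Z.Gr

variable {n p : ℕ} {V : Type} [TopologicalSpace V] [CompactSpace V] [ChartedSpace (Cm n) V]
  {L : Bd V} {A : Type} [AddCommGroup A] [Module ℂ A] {K₀ : Set V}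

namespace Cx

variable {C : Cx p L} {T U : C.X →L[ℂ] C.X}

theorem SC.of_eq {S : C.X → C(V, C.Λ)} (h : IsCompactOperator S) (k : ∀ ξ, C.π (T ξ) = S ξ) :
    C.SC T := by
  have e : ⇑(C.π ∘L T) = S := funext k
  rw [SC, e]
  exact h

theorem SC.add' (h : C.SC T) (k : C.SC U) : C.SC (T + U) :=
  SC.of_eq (IsCompactOperator.add h k) fun _ => map_add _ _ _

theorem SC.mul' (h : C.SC T) (U : C.X →L[ℂ] C.X) : C.SC (T * U) :=
  SC.of_eq (IsCompactOperator.comp_clm h U) fun _ => rfl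

variable (n C) in
/-- a parametrix near `K` -/
def ParOn (K : Set V) : Prop :=
  ∃ (σ : V → ℂ) (P : C.X →L[ℂ] C.X), Sm n σ ∧
    (∀ x ∈ K, ∀ᶠ y in 𝓝 x, σ y = 1) ∧ (∀ ξ, C.N (P ξ) = P (C.N ξ) - P ξ) ∧ C.SC P ∧
    C.SC (C.mul σ - (C.D * P + P * C.D))

theorem ParOn.union {F : V → Cm p} {s : Finset (Fin p)} (h : C.Ok n F K₀ s) {K K' : Set V}
    (h1 : C.ParOn n K) (h2 : C.ParOn n K') : C.ParOn n (K ∪ K') := by
  obtain ⟨σ, P, a1, a2, a3, a4, a5⟩ := h1
  obtain ⟨σ', P', b1, b2, b3, b4, b5⟩ := h2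
  have hm : Sm n fun y => 1 - σ y := (sm_const 1).sub a1
  refine ⟨fun y => σ y + σ' y * (1 - σ y), P + P' * C.mul fun y => 1 - σ y, a1.add (b1.mul hm),
    ?_, fun ξ => ?_, a4.add' (b4.mul' _), ?_⟩
  · rintro x (hx | hx)
    · filter_upwards [a2 x hx] with y hy
      rw [hy, sub_self, mul_zero, add_zero]
    · filter_upwards [b2 x hx] with y hy
      rw [hy, one_mul, add_sub_cancel]
  · show C.N (P ξ + P' (C.mul _ ξ)) = P (C.N ξ) + P' (C.mul _ (C.N ξ)) - (P ξ + P' (C.mul _ ξ))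
    rw [map_add, a3, b3, h.mulN _ hm]
    abel
  · have e : C.mul (fun y => σ y + σ' y * (1 - σ y)) =
        C.mul σ + C.mul σ' * C.mul fun y => 1 - σ y :=
      ContinuousLinearMap.ext fun ξ => by
        rw [h.mula _ _ a1 (b1.mul hm), h.mulm _ _ b1 hm]
        rfl
    have e2 := (a5.add' (b5.mul' (C.mul fun y => 1 - σ y))).add'
      (b4.mul' (C.D * (C.mul fun y => 1 - σ y) - (C.mul fun y => 1 - σ y) * C.D))
    rw [e]
    generalize (C.mul fun y => 1 - σ y) = m at e2 ⊢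
    have e3 : C.mul σ + C.mul σ' * m - (C.D * (P + P' * m) + (P + P' * m) * C.D) =
        C.mul σ - (C.D * P + P * C.D) + (C.mul σ' - (C.D * P' + P' * C.D)) * m +
          P' * (C.D * m - m * C.D) := by noncomm_ring
    rw [e3]
    exact e2

end Cx

namespace Cp

variable {C : Cx p L} {P : Pre L C.Λ A} {ι : A →ₗ[ℂ] C.X} (c : Cp n C P ι)
include c

theorem par (h : P.Ok n K₀) {F : V → Cm p} (ho : C.Ok n F K₀ ∅) (hl : P.LH n K₀) :
    C.Par n K₀ := by
  intro K hK hs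
  refine hK.induction_on (p := C.ParOn n) ?_ (fun s t hst ⟨σ, T, a1, a2, a3⟩ =>
    ⟨σ, T, a1, fun x hx => a2 x (hst hx), a3⟩) (fun s t => Cx.ParOn.union ho) fun x hx => ?_
  · refine ⟨fun _ => 0, 0, sm_const 0, fun _ hx => hx.elim, fun ξ => by simp,
      Cx.SC.of_eq isCompactOperator_zero fun ξ => by simp,
      Cx.SC.of_eq isCompactOperator_zero fun ξ => ?_⟩
    simp [ho.mulc]
  · obtain ⟨φ, H, S, S₂, R, l⟩ := hl x (hs hx) univ univ_mem
    obtain ⟨T, t1, t2, t3⟩ := c.exists_hom h l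
    refine ⟨{y | ∀ᶠ z in 𝓝 y, φ z = 1}, mem_nhdsWithin_of_mem_nhds l.one.eventually_nhds, φ, T,
      l.sm, fun _ hy => hy, t3, Cx.SC.of_eq (l.cH.comp_clm C.π) t1,
      Cx.SC.of_eq ((l.cS.add l.cR).comp_clm C.π) fun ξ => ?_⟩
    show C.π (C.mul φ ξ - (C.D (T ξ) + T (C.D ξ))) = S (C.π ξ) + R (C.π ξ)
    rw [map_sub, map_add, t1, t2]
    abel

theorem locAt (hL : IsLB n L) (h : P.Ok n K₀) {F : V → Cm p} (ho : C.Ok n F K₀ ∅) (hd : P.Dg K₀)
    (hl : P.LH n K₀) {x : V} (hx : x ∈ interior K₀) : C.LocAt n F ∅ x := by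
  refine ⟨fun q ξ hq hN hZ => ?_, fun ξ i hi hN hZ => ?_, fun ξ i hi hN hZ hv => ?_⟩
  · rw [c.Dt] at hZ ⊢
    have hW : ∀ᶠ y in 𝓝 x, C.π (C.D ξ) y = 0 := Eventually.mono hZ fun y hy => hy.1
    rcases lt_or_gt_of_ne hq with hq | hq
    · refine ⟨0, by simp, ?_⟩
      rw [map_zero, sub_zero]
      exact hW.mono fun y hy => ⟨by rw [c.low h hq hN]; rfl, hy⟩
    · obtain ⟨φ, H, S, S₂, R, l⟩ := hl x hx _ hW
      obtain ⟨T, t1, t2, t3⟩ := c.exists_hom h l
      obtain ⟨a, a1, a2⟩ := l.smo (C.π ξ)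
      obtain ⟨z1, z2⟩ := l.loc (C.π (C.D ξ)) fun y hy => hy
      obtain ⟨q, rfl⟩ := Int.eq_ofNat_of_zero_le hq.le
      rw [Int.cast_natCast] at hN ⊢
      have hNa : P.N a = (q : ℂ) • a := h.ext fun y => by
        rw [h.jN, a1, (l.deg _ _ (c.πN h ξ) y).2, hN, map_smul, map_smul, map_smul, a1]
      obtain ⟨w, w1, w2⟩ := hd x hx q (by omega) a hNa (l.near.mono fun y hy => by
        rw [a2, c.eqn (f := fun ξ => S₂ (C.π ξ) y) (g := fun ξ => S (C.π (C.D ξ)) y) (by fun_prop)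
          (by fun_prop) (fun u => by simp only [c.D, c.π, hy.2]) ξ, z2]
        rfl)
      refine ⟨T ξ + ι w, ?_, ?_⟩
      · rw [map_add, t3, hN, c.N, w1, map_smul, map_smul, smul_add, sub_smul (q : ℂ) 1 (T ξ),
          one_smul]
      · filter_upwards [hW, w2, l.near, l.one] with y y1 y2 y3 y4
        constructor
        · have e := t2 ξ
          rw [z1, add_zero] at e
          rw [map_add, map_sub, map_add, e, c.D, c.π]
          simp only [ContinuousMap.sub_apply, ContinuousMap.add_apply, c.mulπ h l.sm, y2, y3.1, y4,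
            a1, one_smul]
          abel
        · rw [map_sub, ho.dd, sub_zero, y1]
  · rw [c.Dt] at hZ
    refine ⟨C.val ξ i, ho.wey (fun _ => ξ) _ i x hi {y | C.π (C.D ξ) y = 0}
      (Eventually.mono hZ fun y hy => hy.1) ?_ ?_, .of_forall fun _ _ => rfl⟩
    · exact fun u hu => .of_forall fun _ _ _ => refl_mem_uniformity hu
    · refine fun u hu => .of_forall fun _ y hy => ?_
      simp only [c.Dt]
      rw [show C.π (C.D ξ) y = 0 from hy]
      exact refl_mem_uniformity hu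
  · rw [c.Dt] at hZ ⊢
    refine ⟨0, by simp, ?_⟩
    rw [map_zero, sub_zero]
    filter_upwards [hZ, hv, (hL.isOpen i).mem_nhds hi] with y y1 y2 y3
    refine ⟨?_, y1.1⟩
    obtain ⟨M, hM⟩ := h.vac i y y3
    have e := c.le (f := fun ξ => ‖C.π ξ y‖)
      (g := fun ξ => M * (‖P.N' (C.π ξ y)‖ + ‖P.ev i y (C.π ξ y)‖)) (by fun_prop) (by fun_prop)
      (fun u => by simp only [c.π, hM]) ξ
    have e2 := y2 fun l hl => absurd hl (Finset.notMem_empty l)
    rw [c.val] at e2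
    simp only [← c.πN h, hN, e2, map_zero, ContinuousMap.zero_apply, norm_zero, add_zero,
      mul_zero] at e
    exact norm_le_zero_iff.1 e

theorem good (hL : IsLB n L) (h : P.Ok n K₀) (hW : P.Wey n) (hl : P.Lift n K₀) (hd : P.Dg K₀)
    (hh : P.LH n K₀) (F : V → Cm p) : C.Good n F K₀ ∅ :=
  ⟨c.ok h hW hl F, c.par h (c.ok h hW hl F) hh, fun l hl => absurd hl (Finset.notMem_empty l),
    fun _ hx _ => c.locAt hL h (c.ok h hW hl F) hd hh hx⟩

end Cp

namespace Pre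

variable {Λ : Type} [NormedAddCommGroup Λ] [NormedSpace ℂ Λ] (P : Pre L Λ A)

/-- the closure of the graph -/
def Xs : Submodule ℂ (C(V, Λ) × C(V, Λ)) :=
  (LinearMap.range (P.j.prod (P.j ∘ₗ P.d))).topologicalClosure

/-- the map to the closure of the graph -/
def io : A →ₗ[ℂ] P.Xs :=
  (P.j.prod (P.j ∘ₗ P.d)).codRestrict _ fun u => Submodule.le_topologicalClosure _ ⟨u, rfl⟩

theorem io_norm (u : A) : ‖P.io u‖ = max ‖P.j u‖ ‖P.j (P.d u)‖ := rfl

theorem io_dense : DenseRange P.io := by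
  rw [DenseRange, Subtype.dense_iff, ← range_comp]
  exact fun _ h => h

variable [CompleteSpace Λ]

instance : CompleteSpace P.Xs := (Submodule.isClosed_topologicalClosure _).completeSpace_coe

/-- extension to the closure -/
def xt (T : A →ₗ[ℂ] A) : P.Xs →L[ℂ] P.Xs := (P.io ∘ₗ T).extendOfNorm P.io

theorem xt_io {T : A →ₗ[ℂ] A} {M : ℝ}
    (h : ∀ u m, ‖P.j u‖ ≤ m → ‖P.j (P.d u)‖ ≤ m → ‖P.j (T u)‖ ≤ M * m ∧ ‖P.j (P.d (T u))‖ ≤ M * m)
    (u : A) : P.xt T (P.io u) = P.io (T u) :=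
  LinearMap.extendOfNorm_eq P.io_dense ⟨M, fun u =>
    max_le_iff.2 (h u ‖P.io u‖ (le_max_left _ _) (le_max_right _ _))⟩ u

variable (p) in
/-- the completion -/
def cx : Cx p L where
  X := P.Xs
  Λ := Λ
  π := ContinuousLinearMap.fst ℂ _ _ ∘L P.Xs.subtypeL
  D := P.xt P.d
  N := P.xt P.N
  E := 0
  mul φ := P.xt (P.mul φ)
  ev := P.ev

theorem cp (h : P.Ok n K₀) : Cp n (P.cx p) P P.io := by
  have hD : ∀ u, P.xt P.d (P.io u) = P.io (P.d u) := P.xt_io (M := 1) fun u m h1 h2 =>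
    ⟨by rwa [one_mul], by
      rw [h.dd, map_zero, norm_zero, one_mul]
      exact (norm_nonneg _).trans h1⟩
  have hN : ∀ u, ‖P.j (P.N u)‖ ≤ ‖P.N'‖ * ‖P.j u‖ := fun u =>
    (ContinuousMap.norm_le _ (by positivity)).2 fun y => by
      rw [h.jN]
      exact (P.N'.le_opNorm _).trans
        (mul_le_mul_of_nonneg_left (ContinuousMap.norm_coe_le_norm _ y) (norm_nonneg _))
  refine ⟨P.io_dense, fun _ => rfl, hD, P.xt_io (M := ‖P.N'‖ + 1) fun u m h1 h2 => ?_,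
    fun φ hφ => ?_, rfl, rfl, fun ξ => ?_⟩
  · have e1 := (hN u).trans (mul_le_mul_of_nonneg_left h1 (norm_nonneg _))
    have e2 := (hN (P.d u)).trans (mul_le_mul_of_nonneg_left h2 (norm_nonneg _))
    have e3 := norm_sub_le (P.j (P.N (P.d u))) (P.j (P.d u))
    have e4 := (norm_nonneg _).trans h1
    rw [h.dN', map_sub]
    constructor <;> linarith
  · obtain ⟨M, hM⟩ := h.cm φ hφ
    refine P.xt_io (M := ‖(⟨φ, hφ.cont⟩ : C(V, ℂ))‖ + |M|) fun u m h1 h2 => ?_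
    have e4 := (norm_nonneg _).trans h1
    have e5 : ∀ (v : C(V, Λ)) y, ‖v‖ ≤ m → ‖φ y • v y‖ ≤ ‖(⟨φ, hφ.cont⟩ : C(V, ℂ))‖ * m := by
      intro v y hv
      rw [norm_smul]
      exact mul_le_mul (ContinuousMap.norm_coe_le_norm (⟨φ, hφ.cont⟩ : C(V, ℂ)) y)
        ((ContinuousMap.norm_coe_le_norm _ y).trans hv) (norm_nonneg _) (norm_nonneg _)
    have e6 := mul_nonneg (abs_nonneg M) e4
    refine ⟨(ContinuousMap.norm_le _ (by positivity)).2 fun y => ?_,
      (ContinuousMap.norm_le _ (by positivity)).2 fun y => ?_⟩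
    · rw [h.mulj φ hφ]
      linarith [e5 _ y h1]
    · have e7 : M * ‖P.j u y‖ ≤ |M| * m := mul_le_mul (le_abs_self M)
        ((ContinuousMap.norm_coe_le_norm _ y).trans h1) (norm_nonneg _) (abs_nonneg M)
      linarith [e5 _ y h2, hM u y, norm_le_norm_sub_add (P.j (P.d (P.mul φ u)) y)
        (φ y • P.j (P.d u) y)]
  · refine P.io_dense.induction_on (p := fun ξ : P.Xs => ‖ξ‖ ≤ ‖ξ.1.1‖ + ‖(P.xt P.d ξ).1.1‖) ξ
      (isClosed_le (by fun_prop) (by fun_prop)) fun u => ?_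
    rw [hD, io_norm]
    exact max_le (le_add_of_nonneg_right (norm_nonneg _)) (le_add_of_nonneg_left (norm_nonneg _))

end Pre

/-- row PRE -/
theorem pre : PRE := fun _ _ _ _ _ _ _ _ hL p F _ _ _ _ _ _ _ _ P h1 h2 h3 h4 h5 =>
  ⟨P.cx p, (P.cp h1).good hL h1 h2 h3 h4 h5 F⟩

end Vale.Agent.P281Z.Gr
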