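import Vale.Agent.P281Z.Gr.Sk
import Vale.Agent.P281Z.Sc.Riem
import Vale.Agent.P281Z.Mf.Fib

/-!
# P281Z, block GR: twisted bundles, extension, embedded fibres
-/

open scoped Manifold ContDiff Topology
open Set Filter Metric
open Vale.Agent.P272.K Vale.Agent.P285.H281.FD
open Vale.Agent.P277Z (Hol at_chart hol_const)
open Vale.Agent.P277Z.Slc (Ind LEq Snc lin)
open Vale.Agent.P277Z.Hir (Cpb)

noncomputable section

namespace Vale.Agent.P281Z.Gr

namespace Tw

theorem cpb {T : Type} [TopologicalSpace T] {x : T} {f g : T → ℝ} {u : T → ℂ}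
    (hu : ContinuousAt u x) (h0 : u x ≠ 0) (hg : ∀ y, 0 ≤ g y)
    (h : ∀ᶠ y in 𝓝 x, f y = ‖u y‖ * g y) (l : Filter T) : Cpb (𝓝 x ⊓ l) f g := by
  obtain ⟨C, a, b⟩ := bdd_near hu.norm
  obtain ⟨D, c, d⟩ := bdd_near (hu.norm.inv₀ (norm_ne_zero_iff.2 h0))
  refine ⟨max C D, lt_max_of_lt_left a, Eventually.filter_mono inf_le_left ?_⟩
  filter_upwards [h, b, d, hu.eventually_ne h0] with y e i j k
  rw [e]
  refine ⟨mul_le_mul_of_nonneg_right (i.trans (le_max_left _ _)) (hg y), ?_⟩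
  exact (inv_mul_cancel_left₀ (norm_ne_zero_iff.2 k) _).symm.le.trans
    (mul_le_mul_of_nonneg_right (j.trans (le_max_right _ _)) (mul_nonneg (norm_nonneg _) (hg y)))

theorem nz {n : ℕ} {X : Type} [TopologicalSpace X] [ChartedSpace (Cm n) X] {G : Set X} {x : X}
    {ζ : X → ℂ} (h : LEq n G x ζ) : P277Z.Nz ζ x := fun k => by
  have he := at_chart (n := n) x
  refine (h.2 _ he).2 k.self_of_nhds ?_
  rw [EventuallyEq.fderiv_eq (f := fun _ => (0 : ℂ)) (at_ev he k)]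
  exact fderiv_const_apply 0

end Tw

theorem tw : TW := by
  intro n V L κ _ G c hL hG
  choose O σ h using fun l => P277Z.Slc.stDiv n V.X (G l) fun x => (hG x).elim fun ζ k => ⟨_, k.1 l⟩
  refine ⟨L.mul (lin O c), fun b a x => L.g b.1 a x * ∏ l, σ l (b.2 l) x ^ c l,
    lb_mul hL (lb_lin (fun l => (h l).lb) c), fun b a x hb ha => ?_⟩
  have k := fun l => (h l).leq _ x (hb.2 l)
  refine ⟨fun o => ⟨(lb_hol hL hb.1 ha).mul (hol_mono k o c), mul_ne_zero (hL.ne_zero _ _ x hb.1 ha)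
    (Finset.prod_ne_zero_iff.2 fun l _ => zpow_ne_zero _ (mt (k l).mem.1 (o l))),
    fun a' d => by rw [mul_right_comm, hL.cocycle _ _ _ x hb.1 ha d], fun b' d => ?_⟩,
    fun ζ hζ => ?_⟩
  · change L.g b'.1 b.1 x * (∏ l, (O l).g (b'.2 l) (b.2 l) x ^ c l) * _ = _
    rw [mul_mul_mul_comm, hL.cocycle _ _ _ x d.1 hb.1 ha, ← Finset.prod_mul_distrib]
    exact congrArg _ (Finset.prod_congr rfl fun l _ => by
      rw [← mul_zpow, ← (h l).sec.change _ _ x (d.2 l) (hb.2 l)])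
  · choose w h1 h2 h3 using fun l => leq_unit (hζ l) (k l)
    refine Tw.cpb (u := fun y => L.g b.1 a y * ∏ l, w l y ^ c l)
      ((lb_hol hL hb.1 ha).mul (Hol.prod _ fun l _ => (h1 l).zpow (h2 l) _)).cont
      (mul_ne_zero (hL.ne_zero _ _ x hb.1 ha)
        (Finset.prod_ne_zero_iff.2 fun l _ => zpow_ne_zero _ (h2 l))) (wt_nonneg ζ _)
      ((eventually_all.2 h3).mono fun y e => ?_) _
    rw [wt_int, ← norm_mul, mul_assoc, ← Finset.prod_mul_distrib]
    simp only [e, mul_zpow]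

theorem riem : RIEM := by
  classical
  intro d W κ _ G x ζ e u hζ hI he hu ⟨C, hC⟩
  have h0 : ∀ᶠ y in 𝓝 x, ∀ l, x ∉ G l → y ∉ G l := eventually_all.2 fun l =>
    eventually_imp_distrib_left.2 (hζ l).not_mem_near
  obtain ⟨Θ, hΘ, hx, hU, hc⟩ := exists_co hI (Nat.add_sub_cancel' (ind_le hI))
    (hu.and (hC.and (h0.and (eventually_all.2 fun l => (hζ l).near))))
  have h1 : ∀ y ∈ Θ.source, ∀ a : {l // x ∈ G l}, (Θ y).1 a = 0 ↔ y ∈ G a := fun y hy a => by
    rw [hc y hy]; exact ((hU hy).2.2.2 a).mem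
  have h2 : ∀ y ∈ Θ.source, (∀ a, (Θ y).1 a ≠ 0) ↔ y ∈ off G := fun y hy =>
    ⟨fun h l k => (em (x ∈ G l)).elim (fun m => h ⟨l, m⟩ ((h1 y hy ⟨l, m⟩).2 k))
      fun m => (hU hy).2.2.1 l m k, fun h a k => h a ((h1 y hy a).1 k)⟩
  have h3 : Θ x = (0, (Θ x).2) := Prod.ext (funext fun a => (h1 x hx a).2 a.2) rfl
  obtain ⟨R, hR, hRT⟩ := nhds_basis_closedBall.mem_iff.1 (Θ.open_target.mem_nhds (Θ.map_source hx))
  rw [h3] at hRT
  obtain ⟨K, hK⟩ := Sc.flat (v := fun q => u (Θ.symm q)) hR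
    (θ := fun a : {l // x ∈ G l} => e a) (fun a => he a)
    (fun q hq h => by
      have t1 := Θ.map_target (hRT hq)
      exact (hΘ.an_hol (hRT hq)
        ((hU t1).1 ((h2 _ t1).1 (by rwa [Θ.right_inv (hRT hq)])))).differentiableAt)
    (fun a q hq m1 m2 => by
      have t0 := hRT (ball_subset_closedBall hq)
      have t1 := Θ.map_target t0
      have t2 : ∀ l : κ, Θ.symm q ∈ G l → l = a := fun l k => by_contra fun m => (em (x ∈ G l)).elim
        (fun m' => m2 ⟨l, m'⟩ (fun e => m (congrArg Subtype.val e))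
          (Θ.right_inv t0 ▸ (h1 _ t1 ⟨l, m'⟩).2 k)) fun m' => (hU t1).2.2.1 l m' k
      obtain ⟨K, hK⟩ := (bdP_of_one (i := id) continuousAt_id (hU t1).2.2.2
        ((Θ.open_source.eventually_mem t1).mono fun y a => (hU a).2.1)).mono continuousAt_id
        (c' := fun l : κ => if l = a then e a else 0) (fun l m => by rw [if_pos (t2 l m), t2 l m])
        ζ (hU t1).2.2.2
      refine (frequently_pure.2 ⟨m1, K, ?_⟩).filter_mono (pure_le_nhds q)
      filter_upwards [(Θ.continuousAt_symm t0).eventually hK, Θ.open_target.mem_nhds t0]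
        with w s1 s2 s3
      have s4 := s1 ((h2 _ (Θ.map_target s2)).1 (by rwa [Θ.right_inv s2]))
      rw [wt_single] at s4
      have s5 : w.1 a = ζ a (Θ.symm w) := by
        rw [← congrFun (hc _ (Θ.map_target s2)) a, Θ.right_inv s2]
      rw [s5]
      exact s4)
  rw [← h3] at hK
  have h4 : ∀ᶠ y in 𝓝 x, y ∈ off G ↔ ∏ l, ζ l y ≠ 0 :=
    (off_iff hζ).mono fun y hy => by rw [hy, Finset.prod_ne_zero_iff]; simp
  obtain ⟨b, h5, h6⟩ := P281Z.riem (τ := fun y => ∏ l, ζ l y) (f := u) (C := K)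
    (Hol.prod _ fun l _ => (hζ l).hol) (P277Z.nz_of_gen ((eventually_all.2 fun l =>
      (Tw.nz (hζ l)).gen (hζ l).hol).mono fun y a => Finset.prod_ne_zero_iff.2 fun l _ => a l)) (by
      filter_upwards [h4, (Θ.continuousAt hx).eventually (ball_mem_nhds _ hR),
        Θ.open_source.mem_nhds hx] with y t0 t1 t2 t3
      refine ⟨(hU t2).1 (t0.2 t3), ?_⟩
      simpa only [Θ.left_inv t2] using hK _ t1 ((h2 y t2).2 (t0.2 t3)))
  exact ⟨b, h5, (h4.and h6).mono fun y hy k => (hy.2 (hy.1.1 k)).symm⟩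

theorem embf : EMBF := by
  intro d n W V i S hi x
  refine ⟨fun u hu => ?_, fun α β _ _ ζ F h k => ?_⟩
  · obtain ⟨b, h1, h2⟩ := (hi.imm x).ext (hi.hol.at x) hu
    exact ⟨b, h1, (hi.ev.1 h2).mono fun y a w e => e ▸ (a w e).symm⟩
  · have := Fintype.ofFinite α
    have := Fintype.ofFinite β
    have he := at_chart (n := n) (i x)
    have h1 : Ind n F (i x) := h.comp Sum.inr Sum.inr_injective
    refine ⟨fun l => hi.hol.hol (h.1 (.inl l)), fun c hc =>
      (P277Z.Slc.ind_iff_surj _).2 fun w => ?_⟩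
    obtain ⟨v, hv⟩ := (P277Z.Slc.ind_iff_surj _).1 (h.2 _ he) (Sum.elim w 0)
    obtain ⟨u, rfl⟩ := ((hi.tan (h := fun b y => F b y - F b (i x))
      ⟨fun b => (h1.1 b).sub (hol_const _ _), fun e he => by
        simpa only [P277Z.Slc.dd_sub_const] using h1.2 e he⟩
      (by simpa only [sub_eq_zero] using k)).2 c _ hc he v).1 fun b => by
        rw [P277Z.Slc.dd_sub_const]
        exact congrFun hv (.inr b)
    exact ⟨u, funext fun l => (DFunLike.congr_fun
      (dd_comp (h.1 (.inl l)) (hi.hol.at x) hc he) u).trans (congrFun hv (.inl l))⟩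

end Vale.Agent.P281Z.Gr
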