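import Vale.Agent.P281Z.Gr.Sk
import Vale.Agent.P281Z.Mf.Fib
import Vale.Agent.P281Z.Sc.Riem

/-!
# P281Z, block GR: from the statement without poles to `GR`
-/

open scoped Manifold ContDiff Topology
open Set Filter
open Vale.Agent.P272.K Vale.Agent.P285.H281.FD
open Vale.Agent.P277Z (Hol at_chart)
open Vale.Agent.P277Z.Slc (Ind LEq Snc)
open Vale.Agent.P277Z.Hir (Cpb)
open Vale.Agent.P277.HD (pull)

set_option linter.unusedSectionVars false

noncomputable section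

namespace Vale.Agent.P281Z.Gr

namespace WrapA

variable {n d : ℕ} {V F : Type} [TopologicalSpace V] [ChartedSpace (Cm n) V]
  [TopologicalSpace F] [ChartedSpace (Cm d) F] {κ : Type} [Fintype κ]

variable (n) in
/-- `θ` identifies `L + ∑ k l • G l` with `L'` -/
def Th (L L' : Bd V) (G : κ → Set V) (k : κ → ℤ) (θ : L'.ι → L.ι → V → ℂ) : Prop :=
  ∀ b a, ∀ x ∈ L'.U b, x ∈ L.U a →
    (x ∈ off G → Hol n (θ b a) x ∧ θ b a x ≠ 0 ∧
      (∀ a', x ∈ L.U a' → θ b a x * L.g a a' x = θ b a' x) ∧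
      ∀ b', x ∈ L'.U b' → L'.g b' b x * θ b a x = θ b' a x) ∧
    ∀ ζ : κ → V → ℂ, (∀ l, LEq n (G l) x (ζ l)) →
      Cpb (𝓝 x ⊓ 𝓟 (off G)) (fun y => ‖θ b a y‖) fun y => ∏ l, ‖ζ l y‖ ^ (k l : ℝ)

variable [IsManifold 𝓘(ℂ, Cm n) ω V] [IsManifold 𝓘(ℂ, Cm d) ω F] {L L' : Bd V} {G : κ → Set V}
  {k : κ → ℤ} {θ : L'.ι → L.ι → V → ℂ} {c : κ → ℝ} {a : L.ι} {b : L'.ι} {x : V}

theorem Th.bd (h : Th n L L' G k θ) (hb : x ∈ L'.U b) (ha : x ∈ L.U a) :
    BdP n id G (fun l => -(k l : ℝ)) (θ b a) x := fun ζ hζ => by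
  obtain ⟨C, -, hC⟩ := (h b a x hb ha).2 ζ hζ
  refine ⟨C, ?_⟩
  filter_upwards [eventually_inf_principal.1 hC, off_iff hζ] with y h1 h2 h3
  have h4 : (∏ l, ‖ζ l y‖ ^ (k l : ℝ)) * ∏ l, ‖ζ l y‖ ^ (-(k l : ℝ)) = 1 := by
    rw [← wt_add (h2.1 h3)]
    simp
  have h5 := mul_le_mul_of_nonneg_right (h1 h3).1 (wt_nonneg ζ (fun l => -(k l : ℝ)) y)
  rwa [mul_assoc, h4, mul_one] at h5

theorem Th.bd_inv (h : Th n L L' G k θ) (hL : IsLB n L) (hL' : IsLB n L') (hb : x ∈ L'.U b)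
    (ha : x ∈ L.U a) : BdP n id G (fun l => (k l : ℝ)) (fun y => (θ b a y)⁻¹) x := fun ζ hζ => by
  obtain ⟨C, -, hC⟩ := (h b a x hb ha).2 ζ hζ
  refine ⟨C, ?_⟩
  filter_upwards [eventually_inf_principal.1 hC, lb_near hL ha, lb_near hL' hb] with y h1 h2 h3 h4
  have h5 : 0 < ‖θ b a y‖ := norm_pos_iff.2 ((h b a y h3 h2).1 h4).2.1
  rw [norm_inv, inv_mul_le_iff₀ h5, mul_comm]
  exact (h1 h4).2

/-- from sections with poles to sections of the twisted bundle -/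
theorem Th.up (h : Th n L L' G k θ) (hL : IsLB n L) (hL' : IsLB n L') (hG : Hyp n G) {i : F → V}
    (hi : HolM d n i) {O : Set F} (hO : IsOpen O) {t : L.ι → F → ℂ}
    (ht : SecP d n i O (pull i L) G c t) :
    ∃ u : L'.ι → F → ℂ, SecP d n i O (pull i L') G (fun l => c l - k l) u ∧
      ∀ b a, ∀ x ∈ O, i x ∈ L'.U b → i x ∈ L.U a → i x ∈ off G → u b x = θ b a (i x) * t a x := by
  choose α hα using hL.cover
  have key : ∀ b a, ∀ x ∈ O, i x ∈ L'.U b → i x ∈ L.U a → i x ∈ off G →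
      θ b (α (i x)) (i x) * t (α (i x)) x = θ b a (i x) * t a x := fun b a x hx hb ha h0 => by
    rw [ht.chg (α (i x)) a x hx (hα _) ha h0, ← mul_assoc,
      ← ((h b (α (i x)) _ hb (hα _)).1 h0).2.2.1 a ha]
    rfl
  have ev : ∀ b a, ∀ x ∈ O, i x ∈ L'.U b → i x ∈ L.U a → ∀ᶠ y in 𝓝 x, i y ∈ off G →
      θ b (α (i y)) (i y) * t (α (i y)) y = θ b a (i y) * t a y := fun b a x hx hb ha => by
    filter_upwards [hO.mem_nhds hx, hi.cont.continuousAt.eventually (lb_near hL' hb),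
      hi.cont.continuousAt.eventually (lb_near hL ha)] with y h1 h2 h3 using key b a y h1 h2 h3
  refine ⟨fun b x => θ b (α (i x)) (i x) * t (α (i x)) x, ⟨fun b x hx hb h0 => ?_,
    fun b b' x hx hb hb' h0 => ?_, fun b x hx hb => ?_⟩, key⟩
  · refine ((hi.hol ((h b _ _ hb (hα (i x))).1 h0).1).mul (ht.hol _ x hx (hα _) h0)).congr ?_
    filter_upwards [ev b _ x hx hb (hα (i x)),
      hi.cont.continuousAt.eventually (hG.isOpen.mem_nhds h0)] with y h1 h2 using (h1 h2).symm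
  · show _ = L'.g b b' (i x) * (_ * _)
    rw [← mul_assoc, ((h b' _ _ hb' (hα (i x))).1 h0).2.2.2 b hb]
  · have h1 : BdP n i G (fun l => -(k l : ℝ)) (fun y => θ b (α (i x)) (i y)) x :=
      (h.bd hb (hα (i x))).comp hi.cont.continuousAt
    exact ((h1.mul hi.cont.continuousAt (ht.bdP hx (hα _))).congr (ev b _ x hx hb (hα _))).mono
      hi.cont.continuousAt fun l _ => le_of_eq (by ring)

/-- from sections of the twisted bundle to sections with poles -/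
theorem Th.down (h : Th n L L' G k θ) (hL : IsLB n L) (hL' : IsLB n L') (hG : Hyp n G)
    (hk : ∀ l, (k l : ℝ) ≤ c l) {O : Set V} (hO : IsOpen O) {s' : L'.ι → V → ℂ}
    (hs : SecOn n L' O s') : ∃ s : L.ι → V → ℂ, SecP n n id O L G c s ∧
      ∀ b a, ∀ x ∈ O, x ∈ L'.U b → x ∈ L.U a → x ∈ off G → s' b x = θ b a x * s a x := by
  choose β hβ using hL'.cover
  have key : ∀ b a, ∀ x ∈ O, x ∈ L'.U b → x ∈ L.U a → x ∈ off G →
      s' b x = θ b a x * ((θ (β x) a x)⁻¹ * s' (β x) x) := fun b a x hx hb ha h0 => by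
    have h1 := (h (β x) a x (hβ x) ha).1 h0
    rw [hs.chg x hx b (β x) hb (hβ x), ← h1.2.2.2 b hb, mul_assoc, mul_inv_cancel_left₀ h1.2.1]
  have ev : ∀ b a, ∀ x ∈ O, x ∈ L'.U b → x ∈ L.U a → ∀ᶠ y in 𝓝 x, y ∈ off G →
      (θ (β y) a y)⁻¹ * s' (β y) y = s' b y * (θ b a y)⁻¹ := fun b a x hx hb ha => by
    filter_upwards [hO.mem_nhds hx, lb_near hL' hb, lb_near hL ha] with y h1 h2 h3 h4
    rw [key b a y h1 h2 h3 h4, mul_comm (θ b a y), mul_inv_cancel_right₀ ((h b a y h2 h3).1 h4).2.1]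
  refine ⟨fun a x => (θ (β x) a x)⁻¹ * s' (β x) x, ⟨fun a x hx ha h0 => ?_,
    fun a a' x hx ha ha' h0 => ?_, fun a x hx ha => ?_⟩, key⟩
  · have h1 := (h (β x) a x (hβ x) ha).1 h0
    refine ((hs.hol x hx _ (hβ x)).mul (h1.1.inv h1.2.1)).congr ?_
    filter_upwards [ev _ a x hx (hβ x) ha, hG.isOpen.mem_nhds h0] with y h2 h3 using (h2 h3).symm
  · have h1 := (h (β x) a x (hβ x) ha).1 h0
    refine mul_left_cancel₀ h1.2.1 ?_
    rw [← key _ a x hx (hβ x) ha h0, ← mul_assoc, h1.2.2.1 a' ha', ← key _ a' x hx (hβ x) ha' h0]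
  · exact (((h.bd_inv hL hL' (hβ x) ha).cmul (hs.hol x hx _ (hβ x)).cont).congr
      (ev _ a x hx (hβ x) ha)).mono continuousAt_id fun l _ => hk l

theorem van_iff {m : ℕ} {S : Set V} {t : L'.ι → V → ℂ} {a : Fin m → ℂ}
    {s : Fin m → L'.ι → V → ℂ} : t - ∑ j, a j • s j ∈ Van L' S ↔
      ∀ x ∈ S, ∀ b, x ∈ L'.U b → t b x = ∑ j, a j * s j b x := by
  simp only [Van, mem_ofPred_eq, Pi.sub_apply, Finset.sum_apply, Pi.smul_apply, smul_eq_mul,
    sub_eq_zero]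

theorem cancel {m : ℕ} {θ t t' : ℂ} {a s s' : Fin m → ℂ} (h0 : θ ≠ 0) (h1 : t' = θ * t)
    (h2 : ∀ j, s' j = θ * s j) (h : t' = ∑ j, a j * s' j) : t = ∑ j, a j * s j := by
  refine mul_left_cancel₀ h0 ?_
  rw [← h1, h, Finset.mul_sum]
  exact Finset.sum_congr rfl fun j _ => by rw [h2, mul_left_comm]

end WrapA

open WrapA

/-- the complement of the divisors is dense in the regular fibres -/
theorem WrapA.freq (dens : DENS) {n p : ℕ} {V : Mf n} {Y : Mf p} {f : V.X → Y.X} {κ : Type}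
    [Fintype κ] {G : κ → Set V.X} (hf : HolM n p f) (hG : Snc n G) {x : V.X}
    (h : RegAt n p f G (f x)) : ∃ᶠ z in 𝓝 x, f z = f x ∧ z ∈ off G := by
  obtain ⟨ζ, hζ, -⟩ := hG x
  have he := at_chart (n := p) (f x)
  have h0 : ∀ᶠ z in 𝓝 x, ∀ l, x ∉ G l → z ∉ G l := eventually_all.2 fun l =>
    eventually_imp_distrib_left.2 (hζ l).not_mem_near
  refine ((dens n V _ _ _ _ x (h x rfl _ he ζ hζ)).and_eventually
    ((fib_ev hf.cont.continuousAt he).and (h0.and (eventually_all.2 fun l => (hζ l).1)))).mono ?_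
  rintro z ⟨⟨h1, h2⟩, h3, h4, h5⟩
  refine ⟨h3.2 fun a => sub_eq_zero.2 (h1 a), fun l hl => ?_⟩
  by_cases hx : x ∈ G l
  · exact h2 ⟨l, hx⟩ (((h5 l).2 hl).trans ((hζ l).mem.2 hx).symm)
  · exact h4 l hx hl

/-- **WRAP** -/
theorem wrap : WRAP := by
  intro tw _ dens embf gen gr1 n p V Y f L κ _ G c hY hf hL hG
  obtain ⟨Q, hQ, hreg⟩ := gen n p V Y f κ G hf hG
  obtain ⟨L', θ, hL', hθ⟩ := tw n V L κ G (fun l => ⌊c l⌋) hL hG
  replace hθ : Th n L L' G (fun l => ⌊c l⌋) θ := hθ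
  have hH := Hyp.of_snc hG
  have hc : ∀ l, c l - (⌊c l⌋ : ℤ) < 1 := fun l => by linarith [Int.lt_floor_add_one (c l)]
  obtain ⟨S, ρ, hS, hQS, hloc⟩ := gr1 n p V Y f L' Q hY hf hL' hQ fun y hy x hx e' he' =>
    let ⟨ζ, hζ, _⟩ := hG x
    (hreg y hy x hx e' he' ζ hζ).comp Sum.inr Sum.inr_injective
  have hr : ∀ y ∉ S, RegAt n p f G y := fun y hy => hreg y fun k => hy (hQS k)
  refine ⟨S, ρ, hS, hr, fun y₀ => ?_⟩
  obtain ⟨U, k, s', hU, hy₀, hs', hgen, hfib⟩ := hloc y₀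
  choose s hs hrel using fun j =>
    hθ.down hL hL' hH (c := c) (fun l => Int.floor_le (c l)) (hU.preimage hf.cont) (hs' j)
  refine ⟨U, k, s, hU, hy₀, hs, fun U' hU' t ht y hy => ?_, fun y hy hyS => ⟨?_, ?_⟩⟩
  · obtain ⟨u, hu, h1⟩ := hθ.up hL hL' hH (i := id) holM_id (hU'.preimage hf.cont) ht
    obtain ⟨t', h2, h3, h4⟩ := SecP.ext (L := L') hG hL' (hU'.preimage hf.cont) hu hc
    obtain ⟨a, h5, h6⟩ := hgen U' hU' t'
      ⟨fun x hx b => h2 b x hx, fun x hx b b' => h3 b b' x hx⟩ y hy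
    refine ⟨a, h5, ?_⟩
    filter_upwards [h6, (hU.inter hU').mem_nhds hy] with y' h7 h8 x h0 hx b hb
    subst hx
    obtain ⟨b', hb'⟩ := hL'.cover x
    exact cancel ((hθ b' b x hb' hb).1 h0).2.1
      ((h4 b' x h8.2 hb' h0).trans (h1 b' b x h8.2 hb' hb h0))
      (fun j => hrel j b' b x h8.1 hb' hb h0) (van_iff.1 h7 x rfl b' hb')
  · intro d F i hi t ht
    obtain ⟨u, hu, h1⟩ := hθ.up hL hL' hH hi.hol isOpen_univ ht
    obtain ⟨t', h2, h3, h4⟩ := SecP.ext ((hr y hyS).snc hf hG hi) (hi.hol.lb hL') isOpen_univ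
      (((hr y hyS).secP hf hG hi).1 hu) hc
    have h5 : ∀ b w, Function.extend i (t' b) 0 (i w) = t' b w := fun b w =>
      hi.inj.extend_apply _ _ w
    obtain ⟨a, ha⟩ := (hfib y hy hyS).1 (fun b => Function.extend i (t' b) 0) fun x hx => by
      obtain ⟨w, rfl⟩ := hi.ex hx
      refine ⟨fun b hb => ?_, fun b b' hb hb' => ?_⟩
      · obtain ⟨B, h6, h7⟩ := (embf d n F V i _ hi w).1 (t' b) (h2 b w trivial hb)
        refine ⟨B, h6, h7.mono fun z h8 hz => ?_⟩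
        obtain ⟨w', rfl⟩ := hi.ex hz
        exact (h5 b w').trans (h8 w' rfl)
      · exact (h5 b w).trans ((h3 b b' w trivial hb hb').trans (congrArg _ (h5 b' w).symm))
    refine ⟨a, fun x h0 b hb => ?_⟩
    obtain ⟨b', hb'⟩ := hL'.cover (i x)
    have hx : i x ∈ f ⁻¹' U := by rw [mem_preimage, hi.fib x]; exact hy
    exact cancel ((hθ b' b _ hb' hb).1 h0).2.1
      ((h5 b' x).trans ((h4 b' x trivial hb' h0).trans (h1 b' b x trivial hb' hb h0)))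
      (fun j => hrel j b' b _ hx hb' hb h0) (van_iff.1 ha _ (hi.mem x) b' hb')
  · refine (hfib y hy hyS).2 _ fun a => ?_
    have hv : ∑ j, a j • s' j ∈ Van L' (f ⁻¹' {y}) ↔
        ∀ x, f x = y → ∀ b, x ∈ L'.U b → ∑ j, a j * s' j b x = 0 := by
      simp only [Van, mem_ofPred_eq, Finset.sum_apply, Pi.smul_apply, smul_eq_mul, mem_preimage,
        mem_singleton_iff]
    have hw : ∀ (q : L.ι × V.X), (∑ j, s j q.1 q.2 • LinearMap.proj j : (Fin k → ℂ) →ₗ[ℂ] ℂ) a =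
        ∑ j, a j * s j q.1 q.2 := fun q => by
      simp only [LinearMap.sum_apply, LinearMap.smul_apply, LinearMap.proj_apply, smul_eq_mul,
        mul_comm]
    rw [hv, LinearMap.mem_ker, funext_iff]
    simp only [LinearMap.pi_apply, hw, Pi.zero_apply]
    refine ⟨fun h x hx b hb => ?_, fun h q => ?_⟩
    · subst hx
      have h1 : Hol n (fun z => ∑ j, a j * s' j b z) x :=
        Hol.sum _ fun j _ => (P277Z.hol_const _ _).mul ((hs' j).hol x hy b hb)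
      refine tendsto_nhds_unique_of_frequently_eq h1.cont.tendsto tendsto_const_nhds
        (((freq dens hf hG (hr _ hyS)).and_eventually (lb_near hL' hb)).mono ?_)
      rintro z ⟨⟨h2, h3⟩, h4⟩
      obtain ⟨a', ha'⟩ := hL.cover z
      have hz : z ∈ f ⁻¹' U := by rw [mem_preimage, h2]; exact hy
      have h5 := h ⟨(a', z), ha', h3, h2⟩
      show ∑ j, a j * s' j b z = 0
      rw [Finset.sum_congr rfl fun j _ => by rw [hrel j b a' z hz h4 ha' h3, mul_left_comm],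
        ← Finset.mul_sum, h5, mul_zero]
    · obtain ⟨⟨b, x⟩, hb, h0, hx⟩ := q
      obtain ⟨b', hb'⟩ := hL'.cover x
      have hz : x ∈ f ⁻¹' U := by rw [mem_preimage, hx]; exact hy
      exact (cancel ((hθ b' b x hb' hb).1 h0).2.1 (mul_zero _).symm
        (fun j => hrel j b' b x hz hb' hb h0) (h x hx b' hb').symm).symm

end Vale.Agent.P281Z.Gr
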