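import Vale.Agent.P281Z.Gr.Hpl
import Vale.Agent.P281Z.Gr.Lin
import Vale.Agent.P281Z.Gr.Fin
import Vale.Agent.P281Z.Gr.Glue
import Vale.Agent.P281Z.Gr.Kill
import Vale.Agent.P281Z.Gr.Loc
import Vale.Agent.P281Z.Gr.Div
import Vale.Agent.P281Z.Gr.Iso
import Vale.Agent.P281Z.Gr.Asm
import Vale.Agent.P281Z.Gr.Tw
import Vale.Agent.P281Z.Gr.Wrap
import Vale.Agent.P281Z.Gr.Pre
import Vale.Agent.P281Z.Gr.Man0
import Vale.Agent.P281Z.Gr.Mok
import Vale.Agent.P281Z.Gr.Mlh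
import Vale.Agent.P281Z.Gr.Dg
import Vale.Agent.P281Z.Gr.Flat

/-!
# P281Z, block GR: assembly
-/

namespace Vale.Agent.P281Z.Gr

theorem cx0 : CX0 :=
  cx0_of pre ops mok mwl (mdg_of bump glb dg) (mlh_of bump glb flat cpt)

theorem gr0 : GR0 :=
  asm0 bump cx0 cone (loc_of bump div) (fin_of hpl lin) parx hol
    (iso_of bump glue shf kill) (fam_of bump par shf kill)

theorem gr1 : GR1 := glob rkf gr0

theorem gr_of (hG : GEN) : GR := wrap tw riem dens embf hG gr1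

end Vale.Agent.P281Z.Gr
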