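import Vale.Agent.P281Z.Gr.Main

/-!
# P281Z, block GR: the relations between sections are the kernel of a holomorphic matrix
-/

open scoped Manifold ContDiff Topology Matrix
open Set Filter Metric
open Vale.Agent.P272.K Vale.Agent.P285.H281.FD
open Vale.Agent.P277Z (Hol)
open Vale.Agent.P277Z.Slc (Ind LEq Snc dd_sub_const at_chartAt)
open Vale.Agent.P281Z.Ana (rank_iff)
open Vale.Agent.P277.H762 (analyticAt_det)

noncomputable section

namespace Vale.Agent.P281Z.Gr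

/-- **REL** -/
def REL : Prop :=
  ∀ (n p : ℕ) (V : Mf n) (Y : Mf p) (f : V.X → Y.X) (L : Bd V.X) (κ : Type) [Fintype κ]
    (G : κ → Set V.X) (c : κ → ℝ), HolM n p f → IsLB n L → Snc n G → ∀ y₀ U, IsOpen U → y₀ ∈ U →
    ∀ (k : ℕ) (s : Fin k → L.ι → V.X → ℂ), (∀ j, SecP n n id (f ⁻¹' U) L G c (s j)) →
    ∃ (b : ℕ) (T : Y.X → Matrix (Fin b) (Fin k) ℂ) (h : Y.X → ℂ),
      (∀ i j, Hol p (fun y => T y i j) y₀) ∧ Hol p h y₀ ∧ (∃ᶠ y in 𝓝 y₀, h y ≠ 0) ∧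
      ∀ᶠ y in 𝓝 y₀, h y ≠ 0 → RegAt n p f G y → ∀ a : Fin k → ℂ,
        (∀ x ∈ off G, f x = y → ∀ b, x ∈ L.U b → ∑ j, a j * s j b x = 0) ↔ T y *ᵥ a = 0

namespace Rl

/-- equations for the image of an analytic matrix -/
theorem coker {p a a' : ℕ} {ε : ℝ} (hε : 0 < ε) {A : Cm p → Matrix (Fin a) (Fin a') ℂ}
    (hA : ∀ j k, AnalyticOnNhd ℂ (fun τ => A τ j k) (ball 0 ε)) :
    ∃ (K : Cm p → Matrix (Fin a) (Fin a) ℂ) (h : Cm p → ℂ),
      (∀ i j, AnalyticAt ℂ (fun τ => K τ i j) 0) ∧ AnalyticAt ℂ h 0 ∧ (∃ᶠ τ in 𝓝 0, h τ ≠ 0) ∧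
      ∀ τ ∈ ball (0 : Cm p) ε, h τ ≠ 0 → ∀ v, (∃ w, v = A τ *ᵥ w) ↔ K τ *ᵥ v = 0 := by
  obtain ⟨t, t1, t2⟩ := Ln.exists_max ⟨0, mem_ball_self hε⟩ A
  obtain ⟨σ, κ, h3⟩ := rank_iff.1 (le_refl (A t).rank)
  let M := fun s => (A s).submatrix σ κ
  let S := (1 : Matrix (Fin a) (Fin a) ℂ).submatrix σ id
  have h4 : AnalyticOnNhd ℂ (fun s => (M s).det) (ball 0 ε) := fun τ e =>
    analyticAt_det fun i j => hA _ _ τ e
  have h0 := mem_ball_self (x := (0 : Cm p)) hε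
  refine ⟨fun s => (M s).det • 1 - (A s).submatrix id κ * (M s).adjugate * S, fun s => (M s).det,
    fun i j => ?_, h4 0 h0, fun c => h3 (h4.eqOn_zero_of_preconnected_of_eventuallyEq_zero
      (convex_ball _ _).isPreconnected h0 (c.mono fun _ => not_not.1) t1), fun τ e d v => ?_⟩
  · simp only [Matrix.sub_apply, Matrix.smul_apply, Matrix.mul_apply, Matrix.adjugate_apply,
      smul_eq_mul]
    refine ((h4 0 h0).fun_mul analyticAt_const).fun_sub (Finset.analyticAt_fun_sum _ fun l _ =>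
      (Finset.analyticAt_fun_sum _ fun m _ => (hA _ _ 0 h0).fun_mul
        (analyticAt_det fun i j => ?_)).fun_mul analyticAt_const)
    simp only [Matrix.updateRow_apply]
    split_ifs
    · exact analyticAt_const
    · exact hA _ _ 0 h0
  have a4 : A τ * (1 : Matrix (Fin a') (Fin a') ℂ).submatrix id κ = (A τ).submatrix id κ := by
    rw [← Matrix.submatrix_id_id (A τ), ← Matrix.submatrix_mul _ _ _ _ _ Function.bijective_id,
      Matrix.mul_one, Matrix.submatrix_id_id]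
  have a5 : S * (A τ).submatrix id κ = M τ := by
    rw [← Matrix.submatrix_mul _ _ _ _ _ Function.bijective_id, Matrix.one_mul]
  have a3 : LinearMap.range ((A τ).submatrix id κ).mulVecLin =
      LinearMap.range (A τ).mulVecLin := by
    refine Submodule.eq_of_le_of_finrank_le ?_ ((t2 τ e).trans
      (rank_iff (M := (A τ).submatrix id κ).2 ⟨σ, id, d⟩))
    rintro _ ⟨w, rfl⟩
    exact ⟨(1 : Matrix (Fin a') (Fin a') ℂ).submatrix id κ *ᵥ w, by
      rw [← a4, Matrix.mulVecLin_apply, Matrix.mulVecLin_apply, Matrix.mulVec_mulVec]⟩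
  rw [Matrix.sub_mulVec, Matrix.smul_mulVec, Matrix.one_mulVec, sub_eq_zero]
  refine ⟨fun ⟨w, hw⟩ => ?_, fun hv => ?_⟩
  · obtain ⟨u, hu⟩ := a3.ge ⟨w, hw.symm⟩
    rw [← hu, Matrix.mulVecLin_apply, Matrix.mulVec_mulVec, Matrix.mul_assoc, a5, Matrix.mul_assoc,
      Matrix.adjugate_mul, Matrix.mul_smul, Matrix.mul_one, Matrix.smul_mulVec]
  · obtain ⟨w, hw⟩ := a3.le ⟨(M τ).det⁻¹ • (((M τ).adjugate * S) *ᵥ v), rfl⟩
    refine ⟨w, (hw.trans ?_).symm⟩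
    rw [map_smul, Matrix.mulVecLin_apply, Matrix.mulVec_mulVec, ← Matrix.mul_assoc, ← hv,
      inv_smul_smul₀ d]

variable {n p : ℕ} {V : Type} [TopologicalSpace V] [T2Space V] [CompactSpace V]
  [ChartedSpace (Cm n) V] [IsManifold 𝓘(ℂ, Cm n) ω V] {L : Bd V}

/-- the Koszul complex -/
theorem exists_cx (hL : IsLB n L) {G : V → Cm p} {K₀ : Set V} (hd : Dat n G K₀) :
    ∃ C : Cx p L, C.Good n G K₀ .univ := by
  induction (Finset.univ : Finset (Fin p)) using Finset.induction_on with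
  | empty => exact cx0 n V L hL p G K₀ hd
  | insert l s hl ih =>
    obtain ⟨C, hC⟩ := ih
    obtain ⟨a, b, c⟩ := cone n V L hL p G K₀ C hd s l hl hC.ok
    exact ⟨_, a, b hC.par, c hC.hom, fun x hx k =>
      loc_of bump div n V L hL p G K₀ C hd s l hl hC.ok x hx k (hC.loc x hx k)⟩

/-- a smooth extension of a proper holomorphic map -/
theorem exists_dat {O : Set V} {F : V → Cm p} {R : ℝ} (hO : IsOpen O)
    (hF : ∀ x ∈ O, ∀ l, Hol n (fun y => F y l) x) (hK : IsCompact (O ∩ F ⁻¹' closedBall 0 R)) :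
    ∃ G : V → Cm p, Dat n G (O ∩ F ⁻¹' closedBall 0 R) ∧
      (∀ x ∈ O ∩ F ⁻¹' closedBall 0 R, ∀ᶠ y in 𝓝 x, F y = G y) ∧
      O ∩ F ⁻¹' ball 0 R ⊆ interior (O ∩ F ⁻¹' closedBall 0 R) := by
  obtain ⟨φ, hφ, h1, hs⟩ := exists_bump n hK hO inter_subset_left
  have e1 : ∀ x ∈ O ∩ F ⁻¹' closedBall 0 R, ∀ᶠ y in 𝓝 x, F y = fun l => φ y * F y l :=
    fun x hx => (h1 x hx).mono fun y hy => by simp only [hy, one_mul]
  have hc : ContinuousOn F O := fun x hx =>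
    (continuousAt_pi.2 fun l => (hF x hx l).continuousAt).continuousWithinAt
  exact ⟨fun y l => φ y * F y l, ⟨hK, fun l => hφ.mul_hol fun x hx => hF x (hs hx) l,
    fun x hx l => (hF x hx.1 l).congr ((e1 x hx).mono fun y hy => congrFun hy l)⟩, e1,
    interior_maximal (inter_subset_inter_right _ (preimage_mono ball_subset_closedBall))
      (hc.isOpen_inter_preimage hO isOpen_ball)⟩

open As in
theorem rel0 (hL : IsLB n L) {O : Set V} {F : V → Cm p} {R : ℝ} (hO : IsOpen O)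
    (hF : ∀ x ∈ O, ∀ l, Hol n (fun y => F y l) x) (hR : 0 < R)
    (hK : IsCompact (O ∩ F ⁻¹' closedBall 0 R)) {O' : Set V} (hO' : IsOpen O')
    (h0 : O ∩ F ⁻¹' {0} ⊆ O') {k : ℕ} {t : Fin k → L.ι → V → ℂ} (ht : ∀ j, SecOn n L O' (t j)) :
    ∃ (b : ℕ) (T : Cm p → Matrix (Fin b) (Fin k) ℂ) (h : Cm p → ℂ),
      (∀ i j, AnalyticAt ℂ (fun τ => T τ i j) 0) ∧ AnalyticAt ℂ h 0 ∧ (∃ᶠ τ in 𝓝 0, h τ ≠ 0) ∧
      ∀ᶠ τ in 𝓝 0, h τ ≠ 0 → (∀ x ∈ O, F x = τ → Ind n (fun l y => F y l) x) → ∀ a : Fin k → ℂ,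
        ∑ j, a j • t j ∈ Van L (O ∩ F ⁻¹' {τ}) ↔ T τ *ᵥ a = 0 := by
  obtain ⟨G, hd, e1, hi⟩ := exists_dat hO hF hK
  set K₀ := O ∩ F ⁻¹' closedBall 0 R
  have e2 : ∀ x ∈ K₀, F x = G x := fun x hx => (e1 x hx).self_of_nhds
  have e3 : ∀ τ ∈ ball (0 : Cm p) R, K₀ ∩ G ⁻¹' {τ} = O ∩ F ⁻¹' {τ} := fun τ hτ => Set.ext fun x =>
    ⟨fun h => ⟨h.1.1, (e2 x h.1).trans h.2⟩, fun h =>
      have a : x ∈ K₀ := interior_subset (hi ⟨h.1, show F x ∈ _ from (show F x = τ from h.2) ▸ hτ⟩)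
      ⟨a, (e2 x a).symm.trans h.2⟩⟩
  have e4 : ∀ τ ∈ ball (0 : Cm p) R, ∀ x ∈ K₀, G x = τ → x ∈ interior K₀ := fun τ hτ x hx h =>
    hi ⟨hx.1, show F x ∈ _ from ((e2 x hx).trans h) ▸ hτ⟩
  obtain ⟨C, hC⟩ := exists_cx hL hd
  have h1 := mem_ball_self (x := (0 : Cm p)) hR
  obtain ⟨P, hP, hP'⟩ := parx n V L hL p G K₀ C hd hC (e4 0 h1)
  obtain ⟨ε, a, a', b, i, q, A, B, g⟩ := hpl p C.X C.D C.N P C.E hC.ok.fam hP hP'
  obtain ⟨K, h, k1, k2, k3, k4⟩ := coker g.pos g.anA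
  choose z hz hz' using fun j => fam_of bump par shf kill n V L hL p G K₀ C hd hC 0 (e4 0 h1) _ hO'
    ((e3 0 h1).symm ▸ h0) (t j) (ht j)
  refine ⟨a, fun τ => K τ * (Matrix.of fun i j => q τ (z j τ) i : Matrix (Fin a) (Fin k) ℂ), h,
    fun i j => ?_, k2, k3, ?_⟩
  · simp only [Matrix.mul_apply, Matrix.of_apply]
    exact Finset.analyticAt_fun_sum _ fun l _ => (k1 i l).fun_mul
      (analyticAt_pi_iff.1 (Fn.an_apply (g.anq 0 (mem_ball_self g.pos)) (hz j)) l)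
  filter_upwards [eventually_all.2 hz', ball_mem_nhds 0 g.pos, ball_mem_nhds 0 hR]
    with τ b1 b2 b3 b4 b5 c
  obtain ⟨-, a₂, -⟩ := iso_of bump glue shf kill n V L hL p G K₀ C hd hC τ fun x hx h =>
    ⟨e4 τ b3 x hx h, ind_congr (b5 x hx.1 ((e2 x hx).trans h)) fun l =>
      (e1 x hx).mono fun y hy => congrFun hy l⟩
  have c1 : ∑ j, c j • z j τ ∈ Zc (C.Dt τ) C.N := ⟨by simp [(b1 _).1.1], by simp [(b1 _).1.2]⟩
  have c2 : ∑ j, c j • t j - valL C (∑ j, c j • z j τ) ∈ vanS L (K₀ ∩ G ⁻¹' {τ}) := by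
    rw [map_sum, ← Finset.sum_sub_distrib]
    exact Submodule.sum_mem _ fun j _ => by
      rw [map_smul, ← smul_sub]
      exact Submodule.smul_mem _ _ (b1 j).2
  have c3 : (Matrix.of fun i j => q τ (z j τ) i) *ᵥ c = q τ (∑ j, c j • z j τ) := funext fun i => by
    simp [Matrix.mulVec, dotProduct, mul_comm]
  have c4 := (g.ret τ b2 _ c1).2
  rw [← e3 τ b3, ← Matrix.mulVec_mulVec, ← k4 τ b2 b4, c3, ← g.bd τ b2]
  refine ⟨fun d => ?_, fun d => ?_⟩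
  · obtain ⟨x, d1, d2⟩ := a₂ _ c1 (sub_sub_cancel _ (valL C _) ▸ (vanS L _).sub_mem d c2 :
      valL C _ ∈ vanS L _)
    obtain ⟨y, d3, d4⟩ := c4
    exact ⟨x - y, by rw [map_sub, d1, d3, neg_sub_neg, neg_sub], by
      rw [map_sub, ← d4]; exact (sub_sub_cancel _ _).symm.trans (congrArg (· - _) d2)⟩
  · have := val_bd hC.ok (S := K₀ ∩ G ⁻¹' {τ}) (fun x hx => hx.2) _ (Fn.bc_add c4 d)
    rw [sub_add_cancel] at this
    exact (sub_add_cancel (∑ j, c j • t j) _ ▸ (vanS L _).add_mem c2 this : _ ∈ vanS L _)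

end Rl

open As WrapA in
theorem rel : REL := by
  intro n p V Y f L κ _ G c hf hL hG y₀ U hU hy₀ k s hs
  obtain ⟨L', θ, hL', hθ⟩ := tw n V L κ G (fun l => ⌊c l⌋) hL hG
  replace hθ : Th n L L' G (fun l => ⌊c l⌋) θ := hθ
  have hH := Hyp.of_snc hG
  have hc : ∀ l, c l - (⌊c l⌋ : ℤ) < 1 := fun l => by linarith [Int.lt_floor_add_one (c l)]
  have hO := hU.preimage hf.cont
  choose u hu h1 using fun j => hθ.up hL hL' hH (i := id) holM_id hO (hs j)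
  choose t h2 h3 h4 using fun j => SecP.ext (L := L') hG hL' hO (hu j) hc
  have hrel : ∀ j b a, ∀ x ∈ f ⁻¹' U, x ∈ L'.U b → x ∈ L.U a → x ∈ off G →
      t j b x = θ b a x * s j a x := fun j b a x a1 a2 a3 a4 =>
    (h4 j b x a1 a2 a4).trans (h1 j b a x a1 a2 a3 a4)
  obtain ⟨e, he⟩ : ∃ e : Chart p Y.X, At e y₀ := ⟨_, at_chartAt y₀⟩
  obtain ⟨R, hR, hb⟩ := nhds_basis_closedBall.mem_iff.1
    (e.open_target.mem_nhds (e.map_source he.2))
  obtain ⟨g, hg⟩ : ∃ g : Y.X → Cm p, g = fun y => e y - e y₀ := ⟨_, rfl⟩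
  have g0 : g y₀ = 0 := by simp [hg]
  have hm : map g (𝓝 y₀) = 𝓝 0 := by
    rw [← g0, hg]
    exact (congrArg (map fun z => z - e y₀) (e.map_nhds_eq he.2)).trans
      ((Homeomorph.subRight (e y₀)).map_nhds_eq _)
  have hj : InjOn g e.source := fun y hy y' hy' h => e.injOn hy hy' (by simpa [hg] using h)
  have hh : ∀ y ∈ e.source, ∀ c : Cm p → ℂ, AnalyticAt ℂ c (g y) → Hol p (fun y => c (g y)) y :=
    fun y hy c hc => by
      subst hg
      exact Ana.hol_chart ⟨he.1, hy⟩ (g := fun z => c (z - e y₀))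
        (hc.comp (f := fun z => z - e y₀) (analyticAt_id.sub analyticAt_const))
  have e1 : ∀ y ∈ e.source, f ⁻¹' e.source ∩ (fun x => g (f x)) ⁻¹' {g y} = f ⁻¹' {y} :=
    fun y hy => Set.ext fun x => ⟨fun h => hj h.1 hy h.2, fun (h : f x = y) =>
      ⟨show f x ∈ e.source from h ▸ hy, congrArg g h⟩⟩
  have hK : IsCompact (f ⁻¹' e.source ∩ (fun x => g (f x)) ⁻¹' closedBall 0 R) := by
    have : f ⁻¹' e.source ∩ (fun x => g (f x)) ⁻¹' closedBall 0 R =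
        f ⁻¹' (e.symm '' closedBall (e y₀) R) := by
      rw [e.symm_image_eq_source_inter_preimage hb]
      exact Set.ext fun x => by simp [hg, dist_eq_norm]
    rw [this]
    exact (((isCompact_closedBall _ _).image_of_continuousOn
      (e.continuousOn_symm.mono hb)).isClosed.preimage hf.cont).isCompact
  obtain ⟨b, T, h, k1, k2, k3, k4⟩ := Rl.rel0 hL' (F := fun x => g (f x))
    (e.open_source.preimage hf.cont) (fun x hx l => hf.hol (hh _ hx (fun z => z l)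
      ((ContinuousLinearMap.proj l : Cm p →L[ℂ] ℂ).analyticAt _))) hR hK hO
    (by rw [← g0, e1 y₀ he.2]; exact preimage_mono (singleton_subset_iff.2 hy₀)) (t := t)
    fun j => ⟨fun x hx b => h2 j b x hx, fun x hx b b' => h3 j b b' x hx⟩
  rw [← hm] at k3 k4
  refine ⟨b, fun y => T (g y), fun y => h (g y), fun i j => hh _ he.2 (fun τ => T τ i j)
    (g0 ▸ k1 i j), hh _ he.2 h (g0 ▸ k2), frequently_map.1 k3, ?_⟩
  filter_upwards [eventually_map.1 k4, e.open_source.mem_nhds he.2, hU.mem_nhds hy₀]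
    with y b1 b2 hy b3 hr a
  rw [← b1 b3 (fun x hx h => by
    obtain ⟨ζ, hζ, -⟩ := hG x
    have a : Ind n (fun (a : Fin p) z => e (f z) a) x := (hr x (hj hx b2 h) e ⟨he.1, b2⟩ ζ
      hζ).comp Sum.inr Sum.inr_injective
    subst hg
    exact ⟨fun l e' he' => (a.1 l e' he').sub analyticAt_const, fun e' he' => by
      simpa only [Pi.sub_apply, dd_sub_const] using a.2 e' he'⟩) a, e1 y b2]
  simp only [Van, mem_ofPred_eq, Finset.sum_apply, Pi.smul_apply, smul_eq_mul, mem_preimage,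
    mem_singleton_iff]
  refine ⟨fun h x hx b hb => ?_, fun h x h0 hx b hb => ?_⟩
  · subst hx
    have h1 : Hol n (fun z => ∑ j, a j * t j b z) x :=
      Hol.sum _ fun j _ => (P277Z.hol_const _ _).mul (h2 j b x hy hb)
    refine tendsto_nhds_unique_of_frequently_eq h1.cont.tendsto tendsto_const_nhds
      (((freq dens hf hG hr).and_eventually (lb_near hL' hb)).mono ?_)
    rintro z ⟨⟨h2, h3⟩, h4⟩
    obtain ⟨a', ha'⟩ := hL.cover z
    have hz : z ∈ f ⁻¹' U := by rw [mem_preimage, h2]; exact hy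
    show ∑ j, a j * t j b z = 0
    rw [Finset.sum_congr rfl fun j _ => by rw [hrel j b a' z hz h4 ha' h3, mul_left_comm],
      ← Finset.mul_sum, h z h3 h2 a' ha', mul_zero]
  · obtain ⟨b', hb'⟩ := hL'.cover x
    have hz : x ∈ f ⁻¹' U := by rw [mem_preimage, hx]; exact hy
    exact (cancel ((hθ b' b x hb' hb).1 h0).2.1 (mul_zero _).symm
      (fun j => hrel j b' b x hz hb' hb h0) (h x hx b' hb').symm).symm

end Vale.Agent.P281Z.Gr
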