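import Vale.Agent.P281Z.Gr.CrcB
import Vale.Agent.P281Z.Rg.Defs

/-!
# P281Z, block GR: limits of coboundaries near a fibre are coboundaries
-/

open scoped Manifold ContDiff Topology
open Set Filter Metric
open Vale.Agent.P272.K Vale.Agent.P285.H281.FD
open Vale.Agent.P277Z (Hol)
open Vale.Agent.P277Z.Slc (at_chartAt)

noncomputable section

namespace Vale.Agent.P281Z.Gr

namespace Cr

variable {n p : ℕ} {V : Type} [TopologicalSpace V] [T2Space V] [CompactSpace V]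
  [ChartedSpace (Cm n) V] [IsManifold 𝓘(ℂ, Cm n) ω V] {L : Bd V} {I : Type} [Fintype I]
  {U : I → Set V}

open As in
theorem crc0 (hL : IsLB n L) {O : Set V} {F : V → Cm p} {R : ℝ} (hO : IsOpen O)
    (hF : ∀ x ∈ O, ∀ l, Hol n (fun y => F y l) x) (hR : 0 < R)
    (hK : IsCompact (O ∩ F ⁻¹' closedBall 0 R)) (hU : ∀ i, IsOpen (U i))
    (h0 : ∀ x ∈ O, F x = 0 → ∃ i, x ∈ U i) {c : I → I → L.ι → V → ℂ} {h : ℕ → I → L.ι → V → ℂ}
    (hc : ∀ i j, SecOn n L (U i ∩ U j) (c i j)) (hh : ∀ k i, SecOn n L (U i) (h k i))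
    (hl : ∀ i j a, TendstoLocallyUniformlyOn (fun k x => h k i a x - h k j a x) (c i j a) atTop
      (U i ∩ U j ∩ L.U a)) :
    ∃ r, 0 < r ∧ ∃ g : I → L.ι → V → ℂ, (∀ i, SecOn n L (U i ∩ (O ∩ F ⁻¹' ball 0 r)) (g i)) ∧
      ∀ i j a x, x ∈ U i → x ∈ U j → x ∈ L.U a → x ∈ O ∩ F ⁻¹' ball 0 r →
        g i a x - g j a x = c i j a x := by
  obtain ⟨G, hd, e1, hi⟩ := Rl.exists_dat hO hF hK
  set K₀ := O ∩ F ⁻¹' closedBall 0 R
  have e2 : ∀ x ∈ K₀, F x = G x := fun x hx => (e1 x hx).self_of_nhds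
  have e4 : ∀ x ∈ K₀, G x = 0 → x ∈ interior K₀ := fun x hx h =>
    hi ⟨hx.1, by rw [mem_preimage, e2 x hx, h]; exact mem_ball_self hR⟩
  obtain ⟨C, hC, hV⟩ := exists_cx hL hd
  have o := hC.ok
  obtain ⟨ρ, r1, r2, r3⟩ := pou (n := n) (fun i => (hU i).inter (isOpen_interior (s := K₀)))
    (hd.cpt.inter_right (isClosed_singleton.preimage (Is.cont hd)) : IsCompact (K₀ ∩ G ⁻¹' {0}))
    fun x a => (h0 x a.1.1 ((e2 x a.1).trans a.2)).imp fun i b => ⟨b, e4 x a.1 a.2⟩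
  choose σ s1 s2 s3 using fun i => exists_bump n (isClosed_tsupport (ρ i)).isCompact
    ((hU i).inter isOpen_interior) (r2 i)
  have s4 : ∀ i j, tsupport (fun y => σ i y * σ j y) ⊆ U i ∩ U j ∩ interior K₀ := fun i j y a =>
    ⟨⟨(s3 i (tsupport_mul_subset_left a)).1, (s3 j (tsupport_mul_subset_right a)).1⟩,
      (s3 i (tsupport_mul_subset_left a)).2⟩
  have k1 : ∀ t : I → I → L.ι → V → ℂ, (∀ i j, SecOn n L (U i ∩ U j) (t i j)) →
      ∃ b : I → I → C.X, (∀ i j, Vc C (b i j) ∧ (∀ a x, x ∈ L.U a →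
        C.val (b i j) a x = σ i x * σ j x * t i j a x) ∧ ∀ x, x ∈ tsupport (ρ i) →
        x ∈ tsupport (ρ j) → C.π (C.D (b i j)) x = 0) ∧
      ∀ (θ : V → ℂ) (O' : Set V) (u : I → L.ι → V → ℂ), Sm n θ → IsOpen O' → tsupport θ ⊆ O' →
        (∀ i, SecOn n L (O' ∩ U i) (u i)) → (∀ i j a x, x ∈ O' → x ∈ U i → x ∈ U j → x ∈ L.U a →
          t i j a x = u i a x - u j a x) → ∃ ξ, ∀ x, (∀ᶠ y in 𝓝 x, ∑ i, ρ i y = 1 ∧ θ y = 1) →
          (∀ τ, x ∈ C.Z (Ph C ρ b - C.Dt τ ξ)) ∧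
            ∀ a, x ∈ L.U a → C.val ξ a x = ∑ i, ρ i x * u i a x := fun t ht => by
    choose b b1 b2 b3 b4 using fun i j =>
      o.lift _ ((hU i).inter (hU j)) _ (ht i j) _ ((s1 i).mul (s1 j)) (s4 i j)
    have b5 : ∀ i j x, x ∈ tsupport (ρ i) → x ∈ tsupport (ρ j) → C.π (C.D (b i j)) x = 0 :=
      fun i j x a a' => b4 i j x (hol_of_const (c := 1) (by
        filter_upwards [s2 i x a, s2 j x a'] with y d d' using by rw [d, d', one_mul]))
    refine ⟨b, fun i j => ⟨⟨b1 i j, b2 i j⟩, b3 i j, b5 i j⟩, fun θ O' u t1 t2 t3 t4 t5 => ?_⟩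
    choose a a1 a2 a3 a4 using fun i => o.lift _ (t2.inter (hU i)) _ (t4 i) _ (t1.mul (s1 i))
      fun y a => ⟨⟨t3 (tsupport_mul_subset_left a), (s3 i (tsupport_mul_subset_right a)).1⟩,
        (s3 i (tsupport_mul_subset_right a)).2⟩
    refine ⟨∑ i, C.mul (ρ i) (a i), fun x hx => ⟨fun τ => ?_, fun d hd => ?_⟩⟩
    · rw [Cx.Dt_apply, show C.E τ _ = 0 by simp [o.mulE _ (r1 _), a2], add_zero]
      refine hx.eventually_nhds.mono fun y hy => cech o r1 (hy.mono fun _ d => d.1)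
        (fun i j d d' => ⟨?_, b5 i j y d d'⟩) fun i d => a4 i y (hol_of_const (c := 1) (by
          filter_upwards [s2 i y d, hy] with z e e' using by rw [e, e'.2, one_mul]))
      obtain ⟨l, hl⟩ := hL.cover y
      refine hV _ ⟨by simp [a1, b1], fun τ => by simp [a2, b2]⟩ l y hl ?_
      rw [Cx.val_sub, Cx.val_sub, b3 i j l y hl, a3 i l y hl, a3 j l y hl, hy.self_of_nhds.2,
        (s2 i y d).self_of_nhds, (s2 j y d').self_of_nhds, t5 i j l y (t3 (subset_tsupport _ (by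
          simp [hy.self_of_nhds.2]))) (r2 i d).1 (r2 j d').1 hl]
      ring
    · rw [Cx.val_sum]
      refine Finset.sum_congr rfl fun i _ => ?_
      rw [o.val_mul (r1 i), a3 i d x hd, hx.self_of_nhds.2]
      by_cases e : x ∈ tsupport (ρ i)
      · rw [(s2 i x e).self_of_nhds, one_mul, one_mul]
      · rw [image_eq_zero_of_notMem_tsupport e, zero_mul, zero_mul]
  obtain ⟨b, b1, b2⟩ := k1 c hc
  choose β d1 d2 using fun k => k1 (fun i j a x => h k i a x - h k j a x) fun i j =>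
    ⟨fun x a l e e' he => ((hh k i).hol x a.1 l e e' he).fun_sub ((hh k j).hol x a.2 l e e' he),
      fun x a l l' e e' => by rw [(hh k i).chg x a.1 l l' e e', (hh k j).chg x a.2 l l' e e', mul_sub]⟩
  choose ξ d3 using fun k => d2 k (fun _ => 1) univ (h k) (sm_const 1) isOpen_univ (subset_univ _)
    (fun i => secOn_mono (hh k i) inter_subset_right) fun _ _ _ _ _ _ _ _ => rfl
  have hW : IsOpen {x | ∀ᶠ y in 𝓝 x, ∑ i, ρ i y = 1} := isOpen_setOfPred_eventually_nhds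
  obtain ⟨η, f1, f2⟩ := bdry hL hd hC e4 hW r3 (v := fun k => Ph C ρ (β k)) (w := Ph C ρ b) (ξ := ξ)
    (tendsto_sub_nhds_zero_iff.1 (by
      simp only [Ph_sub]
      refine nul_Ph o r1 (fun i j => conv o hL hV (fun k => ⟨by simp [(d1 k i j).1.1, (b1 i j).1.1],
        fun τ => by simp [(d1 k i j).1.2, (b1 i j).1.2]⟩) ((s1 i).mul (s1 j))
        ((hU i).inter (hU j)) (s4 i j) (r := fun k a x => h k i a x - h k j a x - c i j a x)
        (fun k a x e => ?_) fun a => ?_) fun k i j x a a' => ?_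
      · rw [Cx.val_sub, (d1 k i j).2.1 a x e, (b1 i j).2.1 a x e, ← mul_sub]
      · have := hl i j a
        rw [Metric.tendstoLocallyUniformlyOn_iff] at this ⊢
        simpa only [dist_eq_norm', Pi.zero_apply, sub_zero] using this
      · simp [(d1 k i j).2.2 x a a', (b1 i j).2.2 x a a']))
    fun k τ x a => (d3 k x (a.mono fun _ d => ⟨d, rfl⟩)).1 τ
  obtain ⟨r, r0, r4⟩ := Metric.eventually_nhds_iff_ball.1 ((f1.eventually_analyticAt.and f2).and
    ((((hd.cpt.diff hW).image (Is.cont hd)).isClosed.isOpen_compl.eventually_mem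
      fun ⟨x, a, b⟩ => a.2 (r3 x ⟨a.1, b⟩)).and (ball_mem_nhds 0 hR)))
  have k2 : ∀ x ∈ O ∩ F ⁻¹' ball 0 r, G x ∈ ball (0 : Cm p) r ∧ ∀ᶠ y in 𝓝 x, ∑ i, ρ i y = 1 :=
    fun x a => by
      have a' : x ∈ K₀ := interior_subset (hi ⟨a.1, (r4 _ a.2).2.2⟩)
      have a'' : G x ∈ ball (0 : Cm p) r := e2 x a' ▸ a.2
      exact ⟨a'', by_contra fun d => (r4 _ a'').2.1 ⟨x, ⟨a', d⟩, rfl⟩⟩
  have k3 : ∀ i j m a x, x ∈ U i → x ∈ U j → x ∈ U m → x ∈ L.U a →
      c i j a x = c i m a x - c j m a x := fun i j m a x a1 a2 a3 a4 =>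
    tendsto_nhds_unique ((hl i j a).tendsto_at ⟨⟨a1, a2⟩, a4⟩) (by
      simpa using ((hl i m a).tendsto_at ⟨⟨a1, a3⟩, a4⟩).sub ((hl j m a).tendsto_at ⟨⟨a2, a3⟩, a4⟩))
  have k4 : ∀ i x, x ∉ U i → ρ i x = 0 := fun i x a =>
    image_eq_zero_of_notMem_tsupport fun d => a (r2 i d).1
  refine ⟨r, r0, fun m a x => C.val (η (G x)) a x - ∑ i, ρ i x * c i m a x, fun m =>
    ⟨fun x hx a ha => ?_, fun x hx a a' ha ha' => ?_⟩, fun i j a x a1 a2 a3 a4 => ?_⟩
  · obtain ⟨θ, t1, t2, t3⟩ := exists_bump n isCompact_singleton (hU m)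
      (singleton_subset_iff.2 hx.1)
    obtain ⟨ζ, t4⟩ := b2 θ (U m) (fun i => c i m) t1 (hU m) t3
      (fun i => inter_comm _ _ ▸ hc i m) fun i j a x a1 a2 a3 a4 => k3 i j m a x a2 a3 a1 a4
    obtain ⟨a1, a2⟩ := k2 x hx.2
    have t5 := (a2.and (t2 x rfl)).eventually_nhds
    refine (holx hd o (v := fun τ => η τ - ζ) ha ((r4 _ a1).1.1.fun_sub analyticAt_const) ?_).congr ?_
    · filter_upwards [t5, (Is.cont hd).continuousAt.eventually (isOpen_ball.mem_nhds a1)]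
        with y a3 a4
      have := Cx.Z_π (Cx.Z_sub ((t4 y a3).1 (G y)) ((r4 _ a4).1.2 (a3.mono fun _ d => d.1)))
      rwa [sub_sub_sub_cancel_left, ← map_sub] at this
    · filter_upwards [t5, (hL.isOpen a).mem_nhds ha] with y a3 a4
      rw [Cx.val_sub, (t4 y a3).2 a a4]
  · beta_reduce
    rw [o.chg _ a a' x ha ha', mul_sub, Finset.mul_sum]
    refine congrArg _ (Finset.sum_congr rfl fun i _ => ?_)
    by_cases e : x ∈ U i
    · rw [(hc i m).chg x ⟨e, hx.1⟩ a a' ha ha', mul_left_comm]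
    · simp [k4 i x e]
  · beta_reduce
    rw [sub_sub_sub_cancel_left, ← Finset.sum_sub_distrib, ← one_mul (c i j a x),
      ← (k2 x a4).2.self_of_nhds, Finset.sum_mul]
    refine Finset.sum_congr rfl fun m _ => ?_
    by_cases e : x ∈ U m
    · rw [k3 m i j a x e a1 a2 a3]
      ring
    · simp [k4 m x e]

end Cr

theorem crc : Rg.CRC := by
  intro n p V Y f L y₀ I _ U c h hf hL hU h0 hc hh hl
  obtain ⟨e, he⟩ : ∃ e : Chart p Y.X, At e y₀ := ⟨_, at_chartAt y₀⟩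
  obtain ⟨R, hR, hb⟩ := nhds_basis_closedBall.mem_iff.1
    (e.open_target.mem_nhds (e.map_source he.2))
  have hK : IsCompact (f ⁻¹' e.source ∩ (fun x => e (f x) - e y₀) ⁻¹' closedBall 0 R) := by
    have : f ⁻¹' e.source ∩ (fun x => e (f x) - e y₀) ⁻¹' closedBall 0 R =
        f ⁻¹' (e.symm '' closedBall (e y₀) R) := by
      rw [e.symm_image_eq_source_inter_preimage hb]
      exact Set.ext fun x => by simp [dist_eq_norm]
    rw [this]
    exact (((isCompact_closedBall _ _).image_of_continuousOn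
      (e.continuousOn_symm.mono hb)).isClosed.preimage hf.cont).isCompact
  obtain ⟨r, hr, g, g1, g2⟩ := Cr.crc0 hL (F := fun x => e (f x) - e y₀)
    (e.open_source.preimage hf.cont) (fun x hx l => hf.hol (Ana.hol_chart ⟨he.1, hx⟩
      (g := fun z => (z - e y₀) l) (((ContinuousLinearMap.proj l : Cm p →L[ℂ] ℂ).analyticAt _).comp
        (analyticAt_id.sub analyticAt_const)))) hR hK hU
    (fun x hx k => h0 x (e.injOn hx he.2 (sub_eq_zero.1 k))) hc hh hl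
  exact ⟨e.source ∩ (fun y => e y - e y₀) ⁻¹' ball 0 r, (e.continuousOn.sub
    continuousOn_const).isOpen_inter_preimage e.open_source isOpen_ball, ⟨he.2, by simpa using hr⟩,
    g, g1, g2⟩

end Vale.Agent.P281Z.Gr
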