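import Vale.Agent.P281Z.Gr.Defs2
import Vale.Agent.P299.H954.IX.G.Cov

/-!
# P281Z, block GR: the calculus of `∂̄` on flat space
-/

open scoped ContDiff Topology Matrix
open Set Filter
open Vale.Agent.P272.K Vale.Agent.P299.IX Vale.Agent.P299.IX.Fock Vale.Agent.P299.IX.G
open Vale.Agent.P272.K.C2 (DM DMb MC)

noncomputable section

namespace Vale.Agent.P281Z.Gr

variable {n : ℕ} {u v : Cm n → Fk n} {z : Cm n} {φ : Cm n → ℂ}

theorem vc1 {ι : Type} [Fintype ι] {u : Cm n → ι → ℂ} (h : ContDiffAt ℝ ∞ u z) : VC 1 u z :=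
  VC.mono (contDiffAt_pi.1 h) (by exact_mod_cast le_top)

theorem smooth_mulVec {ι κ : Type} [Fintype ι] [Fintype κ] {M : Cm n → Matrix κ ι ℂ}
    {u : Cm n → ι → ℂ} (hM : MC ∞ M z) (h : ContDiffAt ℝ ∞ u z) :
    ContDiffAt ℝ ∞ (fun y => M y *ᵥ u y) z :=
  contDiffAt_pi.2 (VC.mulVec hM (contDiffAt_pi.1 h))

theorem DVb_smooth {ι : Type} [Fintype ι] {u : Cm n → ι → ℂ} (h : ContDiffAt ℝ ∞ u z) (l : Fin n) :
    ContDiffAt ℝ ∞ (DVb l u) z :=
  contDiffAt_pi.2 (VC.DVb (contDiffAt_pi.1 h) le_rfl)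

theorem db_smooth (h : ContDiffAt ℝ ∞ u z) : ContDiffAt ℝ ∞ (db u) z :=
  ContDiffAt.sum (f := fun l y => eps l *ᵥ DVb l u y) fun l _ =>
    smooth_mulVec (MC_const _ z) (DVb_smooth h l)

theorem db_congr (h : u =ᶠ[𝓝 z] v) : db u z = db v z :=
  Finset.sum_congr rfl fun _ _ => by rw [DVb_congr h]

theorem db_const (c : Fk n) : db (fun _ => c) z = 0 :=
  Finset.sum_eq_zero fun l _ => by
    rw [show DVb l (fun _ : Cm n => c) z = 0 from funext fun I => C2.dzb_const l (c I),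
      Matrix.mulVec_zero]

theorem db_add (h : ContDiffAt ℝ ∞ u z) (k : ContDiffAt ℝ ∞ v z) :
    db (fun y => u y + v y) z = db u z + db v z := by
  simp only [db, DVb_add (vc1 h) (vc1 k), Matrix.mulVec_add, Finset.sum_add_distrib]

theorem db_neg : db (fun y => -u y) z = -db u z := by
  simp only [db, DVb_neg, Matrix.mulVec_neg, Finset.sum_neg_distrib]

theorem db_sub (h : ContDiffAt ℝ ∞ u z) (k : ContDiffAt ℝ ∞ v z) :
    db (fun y => u y - v y) z = db u z - db v z := by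
  simp only [sub_eq_add_neg]
  rw [db_add h k.neg, db_neg]

theorem db_smul (hφ : ContDiffAt ℝ ∞ φ z) (h : ContDiffAt ℝ ∞ u z) :
    db (fun y => φ y • u y) z = φ z • db u z + ∑ l, dzb l φ z • eps l *ᵥ u z := by
  simp only [db, DVb_smul (hφ.of_le (by exact_mod_cast le_top)) (vc1 h), Matrix.mulVec_add,
    Matrix.mulVec_smul, Finset.sum_add_distrib, Finset.smul_sum]
  exact add_comm _ _

theorem db_smul_hol (hφ : AnalyticAt ℂ φ z) (h : ContDiffAt ℝ ∞ u z) :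
    db (fun y => φ y • u y) z = φ z • db u z := by
  rw [db_smul (hφ.restrictScalars (𝕜 := ℝ)).contDiffAt h]
  simp only [dzb_of_holo hφ.differentiableAt, zero_smul, Finset.sum_const_zero, add_zero]

theorem db_const_smul (c : ℂ) (h : ContDiffAt ℝ ∞ u z) :
    db (fun y => c • u y) z = c • db u z := db_smul_hol analyticAt_const h

theorem DVb_const_mulVec {ι κ : Type} [Fintype ι] (M : Matrix κ ι ℂ) {u : Cm n → ι → ℂ}
    (h : ContDiffAt ℝ ∞ u z) (l : Fin n) : DVb l (fun y => M *ᵥ u y) z = M *ᵥ DVb l u z := by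
  rw [DVb_mulVec (MC_const M z) (vc1 h), C2.DMb_const, Matrix.zero_mulVec, zero_add]

theorem DVb_db (h : ContDiffAt ℝ ∞ u z) (k : Fin n) :
    DVb k (db u) z = ∑ l, eps l *ᵥ DVb k (DVb l u) z := by
  rw [show db u = fun y => ∑ l, eps l *ᵥ DVb l u y from rfl,
    DVb_sum _ fun l _ => vc1 (smooth_mulVec (MC_const _ z) (DVb_smooth h l))]
  exact Finset.sum_congr rfl fun l _ => DVb_const_mulVec _ (DVb_smooth h l) k

theorem DVb_comm {ι : Type} [Fintype ι] {u : Cm n → ι → ℂ} (h : ContDiffAt ℝ ∞ u z) (k l : Fin n) :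
    DVb k (DVb l u) z = DVb l (DVb k u) z :=
  funext fun I => C2.dzb_dzb_comm k l ((contDiffAt_pi.1 h I).of_le (by norm_cast))

theorem db_db (h : ContDiffAt ℝ ∞ u z) : db (db u) z = 0 := by
  simp only [db.eq_1 (db u), DVb_db h, Matrix.mulVec_sum]
  exact sum_eps_symm' fun k l => DVb_comm h k l

theorem Nm_apply (a : Fk n) (I : FI n) : (Nm n *ᵥ a) I = I.card * a I := dgl_mulVec _ a I

theorem Nm_eps (l : Fin n) (a : Fk n) :
    Nm n *ᵥ (eps l *ᵥ a) = eps l *ᵥ (Nm n *ᵥ a) + eps l *ᵥ a := by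
  rw [Matrix.mulVec_mulVec, Nm, dgl_eps, ← Matrix.mulVec_mulVec, ← Matrix.mulVec_add]
  congr 1
  ext I
  simp only [dgl_mulVec, Pi.add_apply, Nat.cast_add, Nat.cast_one, add_mul, one_mul]

theorem Nm_iot (l : Fin n) (a : Fk n) :
    Nm n *ᵥ (iot l *ᵥ a) = iot l *ᵥ (Nm n *ᵥ a) - iot l *ᵥ a := by
  rw [Matrix.mulVec_mulVec a (iot l), Nm, ← dgl_iot, ← Matrix.mulVec_mulVec a _ (iot l)]
  ext I
  simp only [dgl_mulVec, Pi.sub_apply, Nat.cast_add, Nat.cast_one]
  ring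

theorem Nm_lam (J : Matrix (Fin n) (Fin n) ℂ) (a : Fk n) :
    Nm n *ᵥ (lam J *ᵥ a) = lam J *ᵥ (Nm n *ᵥ a) := by
  rw [Matrix.mulVec_mulVec, Matrix.mulVec_mulVec, Nm, dgl_lam]

theorem Nm_db (h : ContDiffAt ℝ ∞ u z) :
    Nm n *ᵥ db u z = db (fun y => Nm n *ᵥ u y) z + db u z := by
  simp only [db, Matrix.mulVec_sum, Nm_eps, DVb_const_mulVec _ h, Finset.sum_add_distrib]

theorem db_empty (u : Cm n → Fk n) (z : Cm n) : db u z ∅ = 0 := by
  simp only [db, Finset.sum_apply, eps_mulVec_empty, Finset.sum_const_zero]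

theorem db_single (u : Cm n → Fk n) (z : Cm n) (l : Fin n) :
    db u z {l} = dzb l (fun y => u y ∅) z := by
  simp only [db, Finset.sum_apply, eps_mulVec, Finset.mem_singleton, Finset.sum_ite_eq',
    Finset.mem_univ, if_true, Finset.erase_singleton]
  rw [sg_min fun j hj => (Finset.mem_singleton.1 hj).ge, one_mul]
  rfl

theorem lam_empty (J : Matrix (Fin n) (Fin n) ℂ) (a : Fk n) : (lam J *ᵥ a) ∅ = a ∅ := by
  simp [Matrix.mulVec, dotProduct, lam_apply_empty]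

theorem norm_le_Nm (a : Fk n) : ‖a‖ ≤ ‖Nm n *ᵥ a‖ + ‖a ∅‖ := by
  refine (pi_norm_le_iff_of_nonneg (by positivity)).2 fun I => ?_
  rcases I.eq_empty_or_nonempty with rfl | h
  · exact le_add_of_nonneg_left (norm_nonneg _)
  · refine le_add_of_le_of_nonneg (le_trans ?_ (norm_le_pi_norm _ I)) (norm_nonneg _)
    rw [Nm_apply, norm_mul, Complex.norm_natCast]
    exact le_mul_of_one_le_left (norm_nonneg _) (by exact_mod_cast h.card_pos)

variable {τ : Cm n → Cm n}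

theorem MC_jmatH (h : ContDiffAt ℂ ω τ z) : MC ∞ (fun y => lam (jmat τ y)ᴴ) z :=
  MC_lam fun i p => C2.contDiffAt_conj (MC_jmatT h i p)

theorem sum_eps_DMb (h : ContDiffAt ℂ ω τ z) (hu : IsUnit (jmat τ z).det) :
    ∑ l, eps l * DMb l (fun y => lam (jmat τ y)ᴴ) z = 0 := by
  have h1 : ∀ l, DMb l (fun y => lam (jmat τ y)ᴴ) z =
      (DM l (fun y => lam (jmat τ y)ᵀ) z).map star := fun l => by
    ext K I
    have h2 : (fun y => lam (jmat τ y)ᴴ K I) = fun y => starRingEnd ℂ (lam (jmat τ y)ᵀ K I) :=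
      funext fun y => (congrFun (congrFun (lam_map_star (jmat τ y)ᵀ) K) I).symm
    rw [C2.DMb_apply, h2, C2.dzb_conj l ((MC_lam (MC_jmatT h) K I).differentiableAt (by simp))]
    rfl
  have h3 := congrArg (fun M : FM n => (starRingEnd ℂ).mapMatrix M) (sum_eps_DM_lam h hu)
  simp only [map_sum, map_mul, map_zero, RingHom.mapMatrix_apply] at h3
  rw [← h3]
  exact Finset.sum_congr rfl fun l _ => by rw [h1, ← eps_star l]; congr 1; rw [eps_star]; exact (eps_star l).symm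

/-- `∂̄` commutes with holomorphic changes of frames -/
theorem db_chg {c : Cm n → ℂ} (h : ContDiffAt ℂ ω τ z) (hu : IsUnit (jmat τ z).det)
    (hc : AnalyticAt ℂ c z) (ha : ContDiffAt ℝ ∞ u (τ z)) :
    db (fun y => (c y • lam (jmat τ y)ᴴ) *ᵥ u (τ y)) z =
      (c z • lam (jmat τ z)ᴴ) *ᵥ db u (τ z) := by
  have h1 : ContDiffAt ℝ ∞ (fun y => u (τ y)) z :=
    ha.comp z ((h.restrict_scalars ℝ).of_le le_top)
  simp only [Matrix.smul_mulVec]
  rw [db_smul_hol hc (smooth_mulVec (MC_jmatH h) h1)]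
  congr 1
  simp only [db, DVb_mulVec ((MC_jmatH h).mono (by exact_mod_cast le_top)) (vc1 h1),
    Matrix.mulVec_add, Finset.sum_add_distrib, DVb_comp (h.differentiableAt (by simp)) (vc1 ha)]
  rw [show ∑ l, eps l *ᵥ (DMb l (fun y => lam (jmat τ y)ᴴ) z *ᵥ u (τ z)) = 0 by
    simp only [Matrix.mulVec_mulVec]
    rw [← Matrix.sum_mulVec, sum_eps_DMb h hu, Matrix.zero_mulVec], zero_add]
  simp only [Matrix.mulVec_sum, lam_eps_mulVec, epsV, Matrix.sum_mulVec, Matrix.smul_mulVec,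
    Matrix.mulVec_smul]
  exact Finset.sum_comm

end Vale.Agent.P281Z.Gr
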