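import Vale.Agent.P281Z.Gr.Hpl
import Vale.Agent.P281Z.Gr.Fin
import Vale.Agent.P277Z.Oka.Noe

/-!
# P281Z, block GR: closed range of an analytic family
-/

open scoped Topology Matrix
open Set Filter Metric
open Vale.Agent.P272.K

noncomputable section

namespace Vale.Agent.P281Z.Gr

namespace Cl

open Vale.Agent.P277Z.Oka Vale.Agent.P298.H941 IsLocalRing

theorem hada {E F : Type} [NormedAddCommGroup E] [NormedSpace ℂ E] [NormedAddCommGroup F]
    [NormedSpace ℂ F] [CompleteSpace F] {f : E → F} (hf : AnalyticAt ℂ f 0) :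
    ∃ g : E → E →L[ℂ] F, AnalyticAt ℂ g 0 ∧ ∀ᶠ y in 𝓝 0, f y = f 0 + g y y := by
  obtain ⟨pw, r, h⟩ := hf
  have h1 := pw.shift.hasFPowerSeriesOnBall (by rw [pw.radius_shift]; exact h.r_pos.trans_le h.r_le)
  have h2 : pw.shift.unshift (f 0) = pw := by
    funext n
    cases n with
    | zero =>
      ext v
      simpa [FormalMultilinearSeries.unshift] using (h.coeff_zero v).symm
    | succ n => exact (continuousMultilinearCurryRightEquiv' ℂ n E F).symm_apply_apply (pw (n + 1))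
  have h3 := h1.unshift (z := f 0)
  rw [h2] at h3
  refine ⟨_, h1.analyticAt, ?_⟩
  filter_upwards [h.eventually_hasSum, h3.eventually_hasSum] with y a b
  simpa using a.unique b

variable {p : ℕ} {X : Type} [NormedAddCommGroup X] [NormedSpace ℂ X]

theorem an_ev {Y : Type} [NormedAddCommGroup Y] [NormedSpace ℂ Y] {T : Cm p → X →L[ℂ] Y}
    (hT : AnalyticAt ℂ T 0) (v : X) : AnalyticAt ℂ (fun t => T t v) 0 :=
  Fn.an_apply hT analyticAt_const

theorem jets (n : ℕ) : ∀ T : Cm p → X →L[ℂ] ℂ, AnalyticAt ℂ T 0 →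
    ∃ s : Set (X →L[ℂ] ℂ), s.Finite ∧ ∀ v, (∀ φ ∈ s, φ v = 0) →
      gm 0 (fun t => T t v) ∈ maximalIdeal (O (Cm p)) ^ n := by
  induction n with
  | zero => exact fun T _ => ⟨∅, finite_empty, fun v _ => by simp⟩
  | succ n ih =>
    intro T hT
    obtain ⟨g, h1, h2⟩ := hada hT
    choose s h3 h4 using fun l : Fin p => ih _ (an_ev h1 (Pi.single l 1))
    refine ⟨insert (T 0) (⋃ l, s l), (finite_iUnion h3).insert _, fun v hv => ?_⟩
    have h5 : ∀ l, AnalyticAt ℂ (fun t : Cm p => t l) 0 := fun l =>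
      (ContinuousLinearMap.proj (R := ℂ) (φ := fun _ : Fin p => ℂ) l).analyticAt _
    have h6 := fun l : Fin p => an_ev (an_ev h1 (Pi.single l 1)) v
    rw [gm_congr (g := fun t => ∑ l, g t (Pi.single l 1) v * t l) (an_ev hT v) ?_,
      gm_sum _ fun l => (h6 l).fun_mul (h5 l), pow_succ]
    · refine Ideal.sum_mem _ fun l _ => ?_
      rw [gm_mul (h6 l) (h5 l)]
      exact Ideal.mul_mem_mul (h4 l v fun φ a => hv φ (.inr (mem_iUnion.2 ⟨l, a⟩)))
        fun a => (isUnit_gm (h5 l)).1 a rfl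
    · filter_upwards [h2] with t a
      rw [a, add_apply, hv _ (.inl rfl), zero_add]
      generalize g t = A
      conv_lhs => rw [← Finset.univ_sum_single t]
      simp only [map_sum, sum_apply]
      refine Finset.sum_congr rfl fun l _ => ?_
      rw [show (Pi.single l (t l) : Cm p) = t l • Pi.single l 1 by
        rw [← Pi.single_smul, smul_eq_mul, mul_one], map_smul, mul_comm]
      rfl

theorem krull {a : ℕ} {T : Cm p → X →L[ℂ] (Fin a → ℂ)} (hT : AnalyticAt ℂ T 0)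
    {δ : Cm p → Matrix (Fin a) (Fin a) ℂ} (hδ : ∀ i j, AnalyticAt ℂ (fun t => δ t i j) 0) :
    IsClosed {v | ∃ k : Cm p → Fin a → ℂ, AnalyticAt ℂ k 0 ∧ ∀ᶠ t in 𝓝 0, T t v = δ t *ᵥ k t} := by
  have : IsNoetherianRing (O (Cm p)) := noe (Cm p)
  have h0 : ∀ v i, AnalyticAt ℂ (fun t => T t v i) 0 := fun v =>
    analyticAt_pi_iff.1 (an_ev hT v)
  let G : X →ₗ[ℂ] Fin a → O (Cm p) :=
    { toFun := fun v i => gm 0 fun t => T t v i
      map_add' := fun v w => funext fun i => by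
        simp only [map_add, Pi.add_apply]
        exact gm_add (h0 v i) (h0 w i)
      map_smul' := fun c v => funext fun i => by
        simp only [map_smul, Pi.smul_apply, smul_eq_mul, RingHom.id_apply]
        rw [gm_mul analyticAt_const (h0 v i), gm_const, Algebra.smul_def] }
  let M := LinearMap.range (Matrix.mulVecLin (Matrix.of fun i j => gm 0 fun t => δ t i j))
  have h1 : ∀ (k : Cm p → Fin a → ℂ), AnalyticAt ℂ k 0 → ∀ v,
      (Matrix.of fun i j => gm 0 fun t => δ t i j) *ᵥ (fun j => gm 0 fun t => k t j) = G v ↔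
        ∀ᶠ t in 𝓝 0, T t v = δ t *ᵥ k t := fun k hk v => by
    have h2 := fun i j => (hδ i j).fun_mul (analyticAt_pi_iff.1 hk j)
    simp only [funext_iff, eventually_all]
    refine forall_congr' fun i => eq_comm.trans (Iff.trans (iff_of_eq (congrArg _ ?_))
      (gm_eq_iff (h0 v i) (Finset.analyticAt_fun_sum Finset.univ fun j _ => h2 i j)))
    exact (Finset.sum_congr rfl fun j _ => (gm_mul (hδ i j) (analyticAt_pi_iff.1 hk j)).symm).trans
      (gm_sum Finset.univ (h2 i)).symm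
  have h3 : {v | ∃ k : Cm p → Fin a → ℂ, AnalyticAt ℂ k 0 ∧ ∀ᶠ t in 𝓝 0, T t v = δ t *ᵥ k t} =
      ⋂ n : ℕ, ↑(((M ⊔ maximalIdeal (O (Cm p)) ^ n • ⊤).restrictScalars ℂ).comap G) := by
    refine Set.ext fun v => ⟨fun ⟨k, a, b⟩ => mem_iInter.2 fun n =>
      Submodule.mem_sup_left (S := M) ⟨_, (h1 k a v).2 b⟩, fun h => ?_⟩
    have h4 : M.mkQ (G v) ∈ (⨅ n : ℕ, maximalIdeal (O (Cm p)) ^ n • ⊤ : Submodule _ _) :=
      (Submodule.mem_iInf _).2 fun n => by
        obtain ⟨x, b, y, c, d⟩ := Submodule.mem_sup.1 (mem_iInter.1 h n)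
        rw [← d, map_add, M.mkQ_apply, (Submodule.Quotient.mk_eq_zero _).2 b, zero_add]
        have e := Submodule.mem_map_of_mem (f := M.mkQ) c
        rw [Submodule.map_smul''] at e
        exact Submodule.smul_mono le_rfl le_top e
    rw [Ideal.iInf_pow_smul_eq_bot_of_isLocalRing _ (maximalIdeal.isMaximal _).ne_top] at h4
    obtain ⟨w, hw⟩ := (Submodule.Quotient.mk_eq_zero _).1 h4
    choose k k1 k2 using fun j => gm_surj (0 : Cm p) (w j)
    have k3 : AnalyticAt ℂ (fun t j => k j t) 0 := analyticAt_pi_iff.2 k1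
    exact ⟨_, k3, (h1 _ k3 v).1 (by rw [funext k2]; exact hw)⟩
  rw [h3]
  refine isClosed_iInter fun n => ?_
  choose s s1 s2 using fun i : Fin a => jets n (fun t => ContinuousLinearMap.proj i ∘L T t)
    (((ContinuousLinearMap.compL ℂ X (Fin a → ℂ) ℂ (ContinuousLinearMap.proj i)).analyticAt _).comp
      hT)
  have := (finite_iUnion s1).to_subtype
  let Φ := ContinuousLinearMap.pi fun φ : (⋃ i, s i) => φ.1
  have : FiniteDimensional ℂ (X ⧸ Φ.ker) := Φ.toLinearMap.quotKerEquivRange.symm.finiteDimensional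
  refine Submodule.isClosed_mono_of_finiteDimensional_quotient Φ.isClosed_ker fun v hv =>
    Submodule.mem_sup_right ?_
  rw [← Finset.univ_sum_single (G v)]
  refine Submodule.sum_mem _ fun i _ => ?_
  rw [show Pi.single i (G v i) = G v i • (Pi.single i 1 : Fin a → O (Cm p)) by
    rw [← Pi.single_smul, smul_eq_mul, mul_one]]
  exact Submodule.smul_mem_smul
    (s2 i v fun φ b => congrFun hv ⟨φ, mem_iUnion.2 ⟨i, b⟩⟩) Submodule.mem_top

end Cl

open Hp Cl Fn in
theorem clo {p : ℕ} {X : Type} [NormedAddCommGroup X] [NormedSpace ℂ X] [CompleteSpace X]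
    {D N P : X →L[ℂ] X} {E : Cm p →L[ℂ] X →L[ℂ] X} {T : Cm p → X →L[ℂ] X} (hF : Fam D N E)
    (hK : IsCompactOperator (1 - (D * P + P * D) : X →L[ℂ] X))
    (hP : ∀ ξ, N (P ξ) = P (N ξ) - P ξ) (hT : AnalyticAt ℂ T 0) {v : X}
    (hv : v ∈ closure {v | ∃ η : Cm p → X, AnalyticAt ℂ η 0 ∧
      ∀ᶠ τ in 𝓝 0, T τ v = (D + E τ) (η τ)})
    (h0 : ∀ᶠ τ in 𝓝 0, (D + E τ) (T τ v) = 0) :
    ∃ η : Cm p → X, AnalyticAt ℂ η 0 ∧ ∀ᶠ τ in 𝓝 0, T τ v = (D + E τ) (η τ) := by
  have sq : ∀ τ, (D + E τ) * (D + E τ) = 0 := fun τ => ContinuousLinearMap.ext (hF.sq τ)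
  have ne : ∀ τ, N * (D + E τ) = (D + E τ) * N + (D + E τ) := fun τ =>
    ContinuousLinearMap.ext (hF.deg τ)
  have dd : D * D = 0 := by simpa using sq 0
  have nd : N * D = D * N + D := by simpa using ne 0
  have np : N * P = P * N - P := ContinuousLinearMap.ext hP
  obtain ⟨n, Q, S, hR, hfd⟩ := P267.H285.exists_riesz _ hK
  rw [sub_sub_cancel] at hR
  have hD : D * (D * P + P * D) = (D * P + P * D) * D := by
    linear_combination (norm := noncomm_ring) dd * P - P * dd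
  have hN : N * (D * P + P * D) = (D * P + P * D) * N := by
    linear_combination (norm := noncomm_ring) nd * P + D * np + np * D + P * nd
  obtain ⟨h, c⟩ := exists_ctr (Q := Q) (S := S) dd nd np (ContinuousLinearMap.ext hR.idem)
    (ContinuousLinearMap.ext hR.ST) (ContinuousLinearMap.ext hR.PiS)
    (ContinuousLinearMap.ext (hR.intertwine_Pi hR (L := D) (DFunLike.congr_fun hD)))
    (ContinuousLinearMap.ext (hR.intertwine_S hR (L := D) (DFunLike.congr_fun hD)))
    (ContinuousLinearMap.ext (hR.intertwine_Pi hR (L := N) (DFunLike.congr_fun hN)))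
    (ContinuousLinearMap.ext (hR.intertwine_S hR (L := N) (DFunLike.congr_fun hN)))
  have hE : AnalyticAt ℂ (fun τ => E τ) 0 := E.analyticAt 0
  have h1 : AnalyticAt ℂ (fun τ => 1 + h * E τ) 0 := analyticAt_const.add (analyticAt_const.mul hE)
  have h2 : IsUnit (1 + h * E 0) := by simp
  set U : Cm p → X →L[ℂ] X := fun τ => Ring.inverse (1 + h * E τ)
  have hU : AnalyticAt ℂ U 0 := (analyticOnNhd_inverse _ h2).comp (f := fun τ => 1 + h * E τ) h1
  have hp := (h1.continuousAt.eventually (Units.isOpen.mem_nhds h2)).mono fun τ a =>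
    c.prt (U := U τ) nd (sq τ) (ne τ) (Ring.inverse_mul_cancel _ a) (Ring.mul_inverse_cancel _ a)
  have hδ : AnalyticAt ℂ (fun τ => Q * (D + E τ) * U τ * Q) 0 :=
    ((analyticAt_const.mul (analyticAt_const.add hE)).mul hU).mul analyticAt_const
  have hq : AnalyticAt ℂ (fun τ => Q * (1 - E τ * U τ * h)) 0 :=
    analyticAt_const.mul (analyticAt_const.sub ((hE.mul hU).mul analyticAt_const))
  obtain ⟨b, ι, r, -, -, s⟩ := coords (LinearMap.range Q.toLinearMap)
  have k0 : {v | ∃ η : Cm p → X, AnalyticAt ℂ η 0 ∧ ∀ᶠ τ in 𝓝 0, T τ v = (D + E τ) (η τ)} ⊆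
      {v | ∃ k : Cm p → Fin b → ℂ, AnalyticAt ℂ k 0 ∧ ∀ᶠ τ in 𝓝 0,
        (r ∘L (Q * (1 - E τ * U τ * h) * T τ)) v = mat r (Q * (D + E τ) * U τ * Q) ι *ᵥ k τ} := by
    rintro w ⟨η, a, e⟩
    refine ⟨fun τ => r ((Q * (1 - E τ * U τ * h)) (η τ)), (r.analyticAt _).comp (an_apply hq a), ?_⟩
    filter_upwards [hp, e] with τ H f
    rw [mat_mulVec, s _ ⟨_, DFunLike.congr_fun H.qq _⟩]
    exact congrArg r ((congrArg (fun x => (Q * (1 - E τ * U τ * h)) x) f).trans
      (DFunLike.congr_fun H.qd (η τ)).symm)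
  obtain ⟨k, k1, k2⟩ := closure_minimal k0 (krull
    (((ContinuousLinearMap.compL ℂ X X _ r).analyticAt _).comp (hq.mul hT)) (an_mat r ι hδ)) hv
  refine ⟨fun τ => (U τ * Q) (ι (k τ)) + (U τ * h) (T τ v),
    (an_apply (hU.mul analyticAt_const) ((ι.analyticAt _).comp k1)).add
      (an_apply (hU.mul analyticAt_const) (an_ev hT v)), ?_⟩
  filter_upwards [hp, k2, h0] with τ H a e
  rw [mat_mulVec] at a
  have a1 := congrArg ι a
  rw [s _ ⟨_, DFunLike.congr_fun H.qδ _⟩] at a1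
  have a2 := (s _ ⟨_, DFunLike.congr_fun H.qq (T τ v)⟩).symm.trans a1
  have a3 : (D + E τ) ((U τ * h) (T τ v)) + (U τ * h) ((D + E τ) (T τ v)) =
    T τ v - (U τ * Q) ((Q * (1 - E τ * U τ * h)) (T τ v)) := DFunLike.congr_fun H.hom _
  have a4 : (D + E τ) ((U τ * Q) (ι (k τ))) = (U τ * Q) ((Q * (D + E τ) * U τ * Q) (ι (k τ))) :=
    DFunLike.congr_fun H.di _
  rw [e, map_zero, add_zero, a2] at a3
  rw [map_add, a3, a4, add_sub_cancel]

end Vale.Agent.P281Z.Gr
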