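import Vale.Agent.P281Z.Gr.Api

/-!
# P281Z, block GR: the cone of the multiplication by `τ l - F l`
-/

open scoped Manifold ContDiff Topology
open Set Filter
open Vale.Agent.P272.K Vale.Agent.P285.H281.FD
open Vale.Agent.P277Z (Hol)

set_option linter.unusedSectionVars false

noncomputable section

namespace Vale.Agent.P281Z.Gr

namespace Cx

variable {n p : ℕ} {V : Type} [TopologicalSpace V] [CompactSpace V] [ChartedSpace (Cm n) V]
  {L : Bd V} {C : Cx p L} {F : V → Cm p} {K₀ : Set V} {s : Finset (Fin p)} {l : Fin p} {x : V}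
  {T U : C.X →L[ℂ] C.X} {φ : V → ℂ}

/-- the multiplication by `τ l - F l` -/
def fm (C : Cx p L) (F : V → Cm p) (l : Fin p) (τ : Cm p) : C.X →L[ℂ] C.X :=
  τ l • (1 : C.X →L[ℂ] C.X) - C.mul fun y => F y l

theorem fm_apply (τ : Cm p) (ξ : C.X) : C.fm F l τ ξ = τ l • ξ - C.mul (fun y => F y l) ξ := rfl

theorem cone_Dt (τ : Cm p) (ξ : C.X × C.X) :
    (C.cone F l).Dt τ ξ = (C.Dt τ ξ.1 + C.fm F l τ ξ.2, -C.Dt τ ξ.2) := by
  refine (congrArg₂ (fun a b : (C.cone F l).X => a + b) (cone_D C F l ξ) (cone_E C F l ξ τ)).trans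
    (Prod.ext ?_ ?_)
  · change C.D ξ.1 - C.mul (fun y => F y l) ξ.2 + (C.E τ ξ.1 + τ l • ξ.2) =
      C.D ξ.1 + C.E τ ξ.1 + (τ l • ξ.2 - C.mul (fun y => F y l) ξ.2)
    abel
  · change -C.D ξ.2 + -C.E τ ξ.2 = -(C.D ξ.2 + C.E τ ξ.2)
    abel

theorem cone_π_zero (ξ : C.X × C.X) :
    (C.cone F l).π ξ x = 0 ↔ C.π ξ.1 x = 0 ∧ C.π ξ.2 x = 0 := by
  rw [cone_π]
  exact Prod.mk_eq_zero

theorem cone_norm (ξ : C.X × C.X) (x : V) :
    ‖(C.cone F l).π ξ x‖ = max ‖C.π ξ.1 x‖ ‖C.π ξ.2 x‖ := by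
  rw [cone_π]
  rfl

theorem pw_zero : C.Pw 0 := ⟨0, fun ξ x => by simp⟩

theorem pw_one : C.Pw 1 := ⟨1, fun ξ x => by simp⟩

theorem Pw.nonneg (h : C.Pw T) : ∃ M : ℝ, 0 ≤ M ∧ ∀ ξ x, ‖C.π (T ξ) x‖ ≤ M * ‖C.π ξ x‖ := by
  obtain ⟨M, h⟩ := h
  exact ⟨max M 0, le_max_right _ _, fun ξ x =>
    (h ξ x).trans (mul_le_mul_of_nonneg_right (le_max_left _ _) (norm_nonneg _))⟩

theorem Pw.smul (h : C.Pw T) (c : ℂ) : C.Pw (c • T) := by
  obtain ⟨M, h⟩ := h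
  refine ⟨‖c‖ * M, fun ξ x => ?_⟩
  rw [smul_apply, map_smul, ContinuousMap.smul_apply, norm_smul, mul_assoc]
  exact mul_le_mul_of_nonneg_left (h ξ x) (norm_nonneg _)

theorem Pw.neg (h : C.Pw T) : C.Pw (-T) := by simpa using h.smul (-1)

theorem Pw.add (h : C.Pw T) (k : C.Pw U) : C.Pw (T + U) := by
  obtain ⟨M, h⟩ := h
  obtain ⟨M', k⟩ := k
  refine ⟨M + M', fun ξ x => ?_⟩
  rw [add_apply, map_add, ContinuousMap.add_apply, add_mul]
  exact norm_add_le_of_le (h ξ x) (k ξ x)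

theorem pw_cone {T' : (C.cone F l).X →L[ℂ] (C.cone F l).X} {A B A' B' : C.X →L[ℂ] C.X}
    (hA : C.Pw A) (hB : C.Pw B) (hA' : C.Pw A') (hB' : C.Pw B')
    (k : ∀ ξ : C.X × C.X, T' ξ = (A ξ.1 + B ξ.2, A' ξ.1 + B' ξ.2)) : (C.cone F l).Pw T' := by
  obtain ⟨a, a0, hA⟩ := hA.nonneg
  obtain ⟨b, b0, hB⟩ := hB.nonneg
  obtain ⟨c, c0, hA'⟩ := hA'.nonneg
  obtain ⟨d, d0, hB'⟩ := hB'.nonneg
  refine ⟨a + b + c + d, fun (ξ : C.X × C.X) x => ?_⟩
  rw [k, cone_norm, cone_norm]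
  have h1 := le_max_left ‖C.π ξ.1 x‖ ‖C.π ξ.2 x‖
  have h2 := le_max_right ‖C.π ξ.1 x‖ ‖C.π ξ.2 x‖
  have h0 := (norm_nonneg _).trans h1
  simp only [map_add, ContinuousMap.add_apply]
  refine max_le ((norm_add_le_of_le (hA _ x) (hB _ x)).trans ?_)
    ((norm_add_le_of_le (hA' _ x) (hB' _ x)).trans ?_)
  · nlinarith [mul_le_mul_of_nonneg_left h1 a0, mul_le_mul_of_nonneg_left h2 b0,
      mul_nonneg c0 h0, mul_nonneg d0 h0]
  · nlinarith [mul_le_mul_of_nonneg_left h1 c0, mul_le_mul_of_nonneg_left h2 d0,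
      mul_nonneg a0 h0, mul_nonneg b0 h0]

theorem SC.neg (h : C.SC T) : C.SC (-T) := by
  have := IsCompactOperator.neg h
  unfold SC
  rw [ContinuousLinearMap.comp_neg]
  exact this

theorem SC.sub (h : C.SC T) (k : C.SC U) : C.SC (T - U) := by
  have := IsCompactOperator.sub h k
  unfold SC
  rw [ContinuousLinearMap.comp_sub]
  exact this

theorem SC.mul_right (h : C.SC T) (U : C.X →L[ℂ] C.X) : C.SC (T * U) :=
  IsCompactOperator.comp_clm h U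

theorem sc_zero : C.SC 0 := by
  unfold SC
  rw [ContinuousLinearMap.comp_zero]
  exact isCompactOperator_zero

open ContinuousLinearMap in
theorem sc_cone {T' : (C.cone F l).X →L[ℂ] (C.cone F l).X} {A B B' : C.X →L[ℂ] C.X}
    (hA : C.SC A) (hB : C.SC B) (hB' : C.SC B')
    (k : ∀ ξ : C.X × C.X, T' ξ = (A ξ.1 + B ξ.2, B' ξ.2)) : (C.cone F l).SC T' := by
  have a := (((IsCompactOperator.comp_clm hA (fst ℂ C.X C.X)).add
    (IsCompactOperator.comp_clm hB (snd ℂ C.X C.X))).clm_comp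
      ((inl ℂ C.Λ C.Λ).compLeftContinuous ℂ V)).add
    ((IsCompactOperator.comp_clm hB' (snd ℂ C.X C.X)).clm_comp
      ((inr ℂ C.Λ C.Λ).compLeftContinuous ℂ V))
  refine (congrArg IsCompactOperator (funext fun (ξ : C.X × C.X) =>
    ContinuousMap.ext fun x => ?_)).mp a
  change (C.π (A ξ.1) x + C.π (B ξ.2) x, (0 : C.Λ)) + ((0 : C.Λ), C.π (B' ξ.2) x) =
    (C.cone F l).π (T' ξ) x
  rw [k, cone_π, map_add]
  exact Prod.ext (add_zero _) (zero_add _)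

namespace Ok

variable (h : C.Ok n F K₀ s)
include h

theorem sc_mul (hφ : Sm n φ) (k : C.SC T) : C.SC (C.mul φ * T) := by
  have a := IsCompactOperator.continuous_comp k
    (g := fun u : C(V, C.Λ) => (⟨φ, hφ.cont⟩ : C(V, ℂ)) • u) ?_
  · exact (congrArg IsCompactOperator (funext fun ξ =>
      ContinuousMap.ext fun x => (h.mulπ φ hφ (T ξ) x).symm)).mp a
  · obtain ⟨M, hM⟩ := (isCompact_range hφ.cont.norm).bddAbove
    refine (LipschitzWith.of_dist_le_mul (K := (max M 0).toNNReal) fun u v => ?_).continuous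
    rw [Real.coe_toNNReal _ (le_max_right _ _),
      ContinuousMap.dist_le (mul_nonneg (le_max_right _ _) dist_nonneg)]
    intro y
    change dist (φ y • u y) (φ y • v y) ≤ _
    rw [dist_smul₀]
    exact mul_le_mul ((hM ⟨y, rfl⟩).trans (le_max_left _ _)) (ContinuousMap.dist_apply_le_dist y)
      dist_nonneg (le_max_right _ _)

theorem fm_π (hd : Dat n F K₀) (τ : Cm p) (ξ : C.X) (x : V) :
    C.π (C.fm F l τ ξ) x = (τ l - F x l) • C.π ξ x := by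
  simp [fm_apply, h.mulπ _ (hd.sm l), sub_smul]

theorem fm_val (hd : Dat n F K₀) (τ : Cm p) (ξ : C.X) (i : L.ι) (x : V) :
    C.val (C.fm F l τ ξ) i x = (τ l - F x l) * C.val ξ i x := by
  rw [val, h.fm_π hd, map_smul, smul_eq_mul, val]

theorem Dt_fm (hd : Dat n F K₀) (τ τ' : Cm p) (ξ : C.X) :
    C.Dt τ (C.fm F l τ' ξ) = C.fm F l τ' (C.Dt τ ξ) := by
  rw [fm_apply, fm_apply, map_sub, map_smul, h.Dt_mulF hd]

theorem N_fm (hd : Dat n F K₀) (τ : Cm p) (ξ : C.X) : C.N (C.fm F l τ ξ) = C.fm F l τ (C.N ξ) := by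
  rw [fm_apply, fm_apply, map_sub, map_smul, h.mulN _ (hd.sm l)]

theorem loc_fm (hd : Dat n F K₀) (τ : Cm p) : Loc (C.fm F l τ) :=
  (loc_one.smul _).sub (h.loc_mul (hd.sm l))

theorem cone_Z (hd : Dat n F K₀) (ξ : C.X × C.X) :
    x ∈ (C.cone F l).Z ξ ↔ x ∈ C.Z ξ.1 ∧ x ∈ C.Z ξ.2 := by
  refine Iff.trans (eventually_congr (.of_forall fun y => ?_)) eventually_and
  rw [cone_D, cone_π_zero, cone_π_zero]
  simp only [map_sub, map_neg, ContinuousMap.sub_apply, ContinuousMap.neg_apply, neg_eq_zero,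
    h.mulπ _ (hd.sm l)]
  constructor
  · rintro ⟨⟨a, b⟩, c, d⟩
    exact ⟨⟨a, by simpa [b] using c⟩, b, d⟩
  · rintro ⟨⟨a, c⟩, b, d⟩
    exact ⟨⟨a, b⟩, by simp [b, c], d⟩

theorem cone_nrm (hd : Dat n F K₀) : ∃ M : ℝ, ∀ ξ : (C.cone F l).X,
    ‖ξ‖ ≤ M * (‖(C.cone F l).π ξ‖ + ‖(C.cone F l).π ((C.cone F l).D ξ)‖) := by
  obtain ⟨M, hM⟩ := h.nrm
  obtain ⟨A, hA⟩ := (isCompact_range (hd.sm l).cont.norm).bddAbove
  have f1 : ∀ ξ : C.X × C.X, ‖C.π ξ.1‖ ≤ ‖(C.cone F l).π ξ‖ := fun ξ =>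
    (ContinuousMap.norm_le _ (norm_nonneg _)).2 fun x => le_trans
      (by rw [cone_norm]; exact le_max_left _ _) (ContinuousMap.norm_coe_le_norm _ x)
  have f2 : ∀ ξ : C.X × C.X, ‖C.π ξ.2‖ ≤ ‖(C.cone F l).π ξ‖ := fun ξ =>
    (ContinuousMap.norm_le _ (norm_nonneg _)).2 fun x => le_trans
      (by rw [cone_norm]; exact le_max_right _ _) (ContinuousMap.norm_coe_le_norm _ x)
  refine ⟨max M 0 * (1 + max A 0), fun (ξ : C.X × C.X) => ?_⟩
  have a1 := f1 ξ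
  have a2 := f2 ξ
  have a3 : ‖C.π (C.D ξ.1 - C.mul (fun y => F y l) ξ.2)‖ ≤ _ := f1 ((C.cone F l).D ξ)
  have a4 : ‖C.π (-C.D ξ.2)‖ ≤ _ := f2 ((C.cone F l).D ξ)
  have a5 : ‖C.π (C.mul (fun y => F y l) ξ.2)‖ ≤ max A 0 * ‖C.π ξ.2‖ :=
    (ContinuousMap.norm_le _ (by positivity)).2 fun x => by
      rw [h.mulπ _ (hd.sm l), norm_smul]
      exact mul_le_mul ((hA ⟨x, rfl⟩).trans (le_max_left _ _)) (ContinuousMap.norm_coe_le_norm _ x)
        (norm_nonneg _) (le_max_right _ _)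
  rw [map_sub] at a3
  rw [map_neg, norm_neg] at a4
  have a6 := norm_le_norm_sub_add (C.π (C.D ξ.1)) (C.π (C.mul (fun y => F y l) ξ.2))
  have A0 := le_max_right A 0
  have b1 := norm_nonneg ((C.cone F l).π ξ)
  have b2 := norm_nonneg ((C.cone F l).π ((C.cone F l).D ξ))
  have b3 := mul_le_mul_of_nonneg_left a2 A0
  have key : ∀ η : C.X, ‖C.π η‖ + ‖C.π (C.D η)‖ ≤ (1 + max A 0) *
      (‖(C.cone F l).π ξ‖ + ‖(C.cone F l).π ((C.cone F l).D ξ)‖) → ‖η‖ ≤ max M 0 * (1 + max A 0) *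
      (‖(C.cone F l).π ξ‖ + ‖(C.cone F l).π ((C.cone F l).D ξ)‖) := fun η k => by
    rw [mul_assoc]
    exact (hM η).trans (mul_le_mul (le_max_left _ _) k (by positivity) (le_max_right _ _))
  exact max_le (key _ (by nlinarith [mul_nonneg A0 b2])) (key _ (by
    nlinarith [mul_nonneg A0 b2, mul_nonneg A0 b1]))

theorem cone (hd : Dat n F K₀) : (C.cone F l).Ok n F K₀ (insert l s) where
  fam := ⟨fun τ (ξ : C.X × C.X) => show (C.cone F l).Dt τ ((C.cone F l).Dt τ ξ) = 0 by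
      rw [cone_Dt, cone_Dt]
      exact Prod.ext (show _ = (0 : C.X) by simp [h.dtdt, h.Dt_fm hd])
        (show _ = (0 : C.X) by simp [h.dtdt]),
    fun τ (ξ : C.X × C.X) => show (C.cone F l).N ((C.cone F l).Dt τ ξ) =
        (C.cone F l).Dt τ ((C.cone F l).N ξ) + (C.cone F l).Dt τ ξ by
      rw [cone_N C F l ξ, cone_Dt, cone_Dt, cone_N]
      refine Prod.ext ?_ ?_
      · change C.N (C.Dt τ ξ.1 + C.fm F l τ ξ.2) =
          C.Dt τ (C.N ξ.1) + C.fm F l τ (C.N ξ.2 - ξ.2) + (C.Dt τ ξ.1 + C.fm F l τ ξ.2)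
        rw [map_add, h.N_Dt, h.N_fm hd, map_sub]
        abel
      · change C.N (-C.Dt τ ξ.2) - -C.Dt τ ξ.2 = -C.Dt τ (C.N ξ.2 - ξ.2) + -C.Dt τ ξ.2
        rw [map_neg, h.N_Dt, map_sub]
        abel⟩
  nrm := h.cone_nrm hd
  pwE τ := pw_cone (h.pwE τ) (pw_one.smul (τ l)) pw_zero (h.pwE τ).neg fun ξ =>
    (cone_E C F l ξ τ).trans (Prod.ext rfl (zero_add _).symm)
  pwN := pw_cone h.pwN pw_zero pw_zero (h.pwN.add pw_one.neg) fun ξ =>
    Prod.ext (add_zero _).symm ((sub_eq_add_neg _ _).trans (zero_add _).symm)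
  dep τ τ' k := ContinuousLinearMap.ext fun (ξ : C.X × C.X) => by
    rw [cone_E, cone_E, h.dep τ τ' fun a b => k a (Finset.mem_insert_of_mem b),
      k l (Finset.mem_insert_self _ _)]
  low := by
    obtain ⟨q₀, k⟩ := h.low
    refine ⟨q₀ - 1, fun q hq (ξ : C.X × C.X) a => Prod.ext (k q (by omega) _ (congrArg Prod.fst a))
      (k (q + 1) (by omega) _ ?_)⟩
    have : C.N ξ.2 - ξ.2 = (q : ℂ) • ξ.2 := congrArg Prod.snd a
    rw [eq_add_of_sub_eq this, Int.cast_add, Int.cast_one, add_smul, one_smul]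
  supp (ξ : C.X × C.X) x a := (cone_π_zero ξ).2 ⟨h.supp _ x a, h.supp _ x a⟩
  mulπ φ a (ξ : C.X × C.X) x := by
    rw [cone_mul, cone_π, cone_π, h.mulπ φ a, h.mulπ φ a]
    rfl
  mulm φ ψ a b ξ := Prod.ext (h.mulm φ ψ a b _) (h.mulm φ ψ a b _)
  mula φ ψ a b ξ := Prod.ext (h.mula φ ψ a b _) (h.mula φ ψ a b _)
  mulc c ξ := Prod.ext (h.mulc c _) (h.mulc c _)
  mulN φ a (ξ : C.X × C.X) := Prod.ext (h.mulN φ a _)
    (show C.N (C.mul φ ξ.2) - C.mul φ ξ.2 = C.mul φ (C.N ξ.2 - ξ.2) by rw [h.mulN φ a, map_sub])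
  mulE φ a τ (ξ : C.X × C.X) := by
    rw [cone_mul, cone_E, cone_E, cone_mul]
    simp only [h.mulE φ a, map_add, map_smul, map_neg]
    rfl
  cm φ a := pw_cone (h.cm φ a) pw_zero pw_zero (h.cm φ a).neg fun ξ => Prod.ext
    (show C.D (C.mul φ ξ.1) - C.mul (fun y => F y l) (C.mul φ ξ.2) -
        C.mul φ (C.D ξ.1 - C.mul (fun y => F y l) ξ.2) =
        C.D (C.mul φ ξ.1) - C.mul φ (C.D ξ.1) + 0 by
      rw [map_sub, h.mul_comm a (hd.sm l)]
      abel)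
    (show -C.D (C.mul φ ξ.2) - C.mul φ (-C.D ξ.2) = 0 + -(C.D (C.mul φ ξ.2) - C.mul φ (C.D ξ.2)) by
      rw [map_neg]
      abel)
  cm0 φ a (ξ : C.X × C.X) x b := by
    rw [cone_mul, cone_D, cone_D, cone_mul, cone_π, cone_π]
    simp only [map_sub, map_neg, ContinuousMap.sub_apply, ContinuousMap.neg_apply, h.cm0 φ a _ x b,
      h.mul_comm a (hd.sm l)]
    rfl
  chg (ξ : C.X × C.X) i j x a b := by rw [cone_val, cone_val, h.chg _ i j x a b]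
  evd (ξ : C.X × C.X) i x := by
    rw [cone_Dt, cone_val, val_add, h.evd, h.fm_val hd, sub_self, zero_mul, add_zero]
  evb i x a := by
    obtain ⟨M, k⟩ := h.evb i x a
    refine ⟨M, k.mono fun y b => le_trans ?_ b⟩
    exact ContinuousLinearMap.opNorm_le_bound _ (norm_nonneg _) fun (v : C.Λ × C.Λ) =>
      ((C.ev i y).le_opNorm v.1).trans (mul_le_mul_of_nonneg_left (norm_fst_le v) (norm_nonneg _))
  wey (ξ : ℕ → C.X × C.X) a i x b S c d e := by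
    refine h.wey (fun k => (ξ k).1) a i x b S c (by simpa only [cone_val] using d) ?_
    have := (uniformContinuous_fst (α := C.Λ) (β := C.Λ)).comp_tendstoUniformlyOn e
    refine this.congr (.of_forall fun k y _ => ?_)
    change ((C.cone F l).π ((C.cone F l).Dt (F y) (ξ k)) y).1 = _
    rw [cone_Dt, cone_π]
    simp [h.fm_π hd]
  lift O a t b φ c d := by
    obtain ⟨ξ, e1, e2, e3, e4⟩ := h.lift O a t b φ c d
    refine ⟨(ξ, 0), ?_, fun τ => ?_, fun i x k => ?_, fun x k => ?_⟩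
    · rw [cone_N]
      exact Prod.ext e1 (show _ = (0 : C.X) by simp)
    · rw [cone_E]
      exact Prod.ext (show _ = (0 : C.X) by simp [e2]) (show _ = (0 : C.X) by simp)
    · rw [cone_val, e3 i x k]
    · rw [cone_D, cone_π_zero]
      simp [e4 x k]

theorem cone_par (hd : Dat n F K₀) (k : C.Par n K₀) : (C.cone F l).Par n K₀ := fun K a b => by
  obtain ⟨σ, P, c1, c2, c3, c4, c5⟩ := k K a b
  refine ⟨σ, P.prodMap (-P), c1, c2, fun (ξ : C.X × C.X) => Prod.ext (c3 _) ?_,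
    sc_cone c4 sc_zero c4.neg fun ξ => Prod.ext (add_zero _).symm rfl,
    sc_cone c5 ((c4.mul_right (C.mul fun y => F y l)).sub (h.sc_mul (hd.sm l) c4)) c5 fun ξ =>
      Prod.ext ?_ ?_⟩
  · change C.N (-P ξ.2) - -P ξ.2 = -P (C.N ξ.2 - ξ.2) - -P ξ.2
    rw [map_neg, c3, map_sub]
  · change C.mul σ ξ.1 - (C.D (P ξ.1) - C.mul (fun y => F y l) (-P ξ.2) +
      P (C.D ξ.1 - C.mul (fun y => F y l) ξ.2)) = C.mul σ ξ.1 - (C.D (P ξ.1) + P (C.D ξ.1)) +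
      (P (C.mul (fun y => F y l) ξ.2) - C.mul (fun y => F y l) (P ξ.2))
    rw [map_neg, map_sub]
    abel
  · change C.mul σ ξ.2 - (-C.D (-P ξ.2) + -P (-C.D ξ.2)) = C.mul σ ξ.2 - (C.D (P ξ.2) + P (C.D ξ.2))
    rw [map_neg, map_neg, neg_neg, neg_neg]

theorem cone_hom (hd : Dat n F K₀) (k : C.Hom n F s) : (C.cone F l).Hom n F (insert l s) := by
  intro l' hl
  rcases Finset.mem_insert.1 hl with rfl | hl
  · refine ⟨(ContinuousLinearMap.inr ℂ C.X C.X).comp (ContinuousLinearMap.fst ℂ C.X C.X),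
      pw_cone pw_zero pw_zero pw_one pw_zero fun ξ => Prod.ext (add_zero _).symm (add_zero _).symm,
      fun _ => rfl, fun (ξ : C.X × C.X) => Prod.ext ((map_zero C.N).trans (sub_zero _).symm) rfl,
      fun φ _ (ξ : C.X × C.X) => Prod.ext (map_zero (C.mul φ)).symm rfl,
      fun τ (ξ : C.X × C.X) => ?_⟩
    refine (congrArg₂ (fun a b : (C.cone F l').X => a + b) (cone_Dt τ _)
      (congrArg _ (cone_Dt τ ξ))).trans (Prod.ext ?_ ?_)
    · change C.Dt τ 0 + C.fm F l' τ ξ.1 + 0 = C.fm F l' τ ξ.1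
      simp
    · change -C.Dt τ ξ.1 + (C.Dt τ ξ.1 + C.fm F l' τ ξ.2) = C.fm F l' τ ξ.2
      simp
  · obtain ⟨e, a1, a2, a3, a4, a5⟩ := k l' hl
    refine ⟨e.prodMap (-e), pw_cone a1 pw_zero pw_zero a1.neg fun ξ =>
      Prod.ext (add_zero _).symm (zero_add _).symm, fun (ξ : C.X × C.X) => Prod.ext (a2 _) ?_,
      fun (ξ : C.X × C.X) => Prod.ext (a3 _) ?_, fun φ b (ξ : C.X × C.X) => Prod.ext (a4 φ b _) ?_,
      fun τ (ξ : C.X × C.X) => ?_⟩
    · change -e (-e ξ.2) = 0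
      rw [map_neg, neg_neg, a2]
    · change C.N (-e ξ.2) - -e ξ.2 = -e (C.N ξ.2 - ξ.2) - -e ξ.2
      rw [map_neg, a3, map_sub]
    · change -e (C.mul φ ξ.2) = C.mul φ (-e ξ.2)
      rw [map_neg, a4 φ b]
    · refine (congrArg₂ (fun a b : (C.cone F l).X => a + b) (cone_Dt τ _)
        (congrArg _ (cone_Dt τ ξ))).trans (Prod.ext ?_ ?_)
      · change C.Dt τ (e ξ.1) + C.fm F l τ (-e ξ.2) + e (C.Dt τ ξ.1 + C.fm F l τ ξ.2) =
          τ l' • ξ.1 - C.mul (fun y => F y l') ξ.1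
        rw [← a5, map_add, map_neg, fm_apply, fm_apply, map_sub, map_smul, a4 _ (hd.sm l)]
        abel
      · change -C.Dt τ (-e ξ.2) + -e (-C.Dt τ ξ.2) = τ l' • ξ.2 - C.mul (fun y => F y l') ξ.2
        rw [← a5, map_neg, map_neg, neg_neg, neg_neg]

end Ok

end Cx

theorem cone : CONE := fun _ _ _ _ _ _ _ _ _ _ _ _ _ hd _ _ _ h =>
  ⟨h.cone hd, h.cone_par hd, h.cone_hom hd⟩

end Vale.Agent.P281Z.Gr
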