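import Vale.Agent.P281Z.Gr.Rel
import Vale.Agent.P281Z.Gr.Clo

/-!
# P281Z, block GR: limits of boundaries near a fibre are boundaries
-/

open scoped Manifold ContDiff Topology
open Set Filter Metric
open Vale.Agent.P272.K Vale.Agent.P285.H281.FD
open Vale.Agent.P277Z (Hol)

noncomputable section

namespace Vale.Agent.P281Z.Gr

namespace Cr

/-- an analytic family of contractions of a subcomplex -/
theorem homot {p : ℕ} {X : Type} [NormedAddCommGroup X] [NormedSpace ℂ X] [CompleteSpace X]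
    {D h : X →L[ℂ] X} {E : Cm p →L[ℂ] X →L[ℂ] X} {C : Submodule ℂ X}
    (h1 : ∀ τ ξ, (D + E τ) ((D + E τ) ξ) = 0) (h2 : IsClosed (C : Set X))
    (h3 : ∀ τ, ∀ ξ ∈ C, (D + E τ) ξ ∈ C) (h4 : ∀ ξ ∈ C, h ξ ∈ C)
    (h6 : ∀ ξ ∈ C, D (h ξ) + h (D ξ) = ξ) : ∃ H : Cm p → X →L[ℂ] X, AnalyticAt ℂ H 0 ∧
      ∀ᶠ τ in 𝓝 0, ∀ ξ ∈ C, H τ ξ ∈ C ∧ (D + E τ) (H τ ξ) + H τ ((D + E τ) ξ) = ξ := by
  let t : Cm p → X →L[ℂ] X := fun τ => -(E τ * h + h * E τ)
  have k2 : AnalyticAt ℂ t 0 := (((E.analyticAt _).fun_mul analyticAt_const).fun_add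
    (analyticAt_const.fun_mul (E.analyticAt _))).fun_neg
  have k3 : t 0 = 0 := by simp [t]
  have k4 : ∀ τ, ∀ ξ ∈ C, E τ ξ ∈ C := fun τ ξ a => by
    simpa using C.sub_mem (h3 τ ξ a) (h3 0 ξ a)
  have k6 : AnalyticAt ℂ (fun τ => Ring.inverse (1 - t τ)) 0 :=
    (analyticAt_inverse (𝕜 := ℂ) (1 : (X →L[ℂ] X)ˣ)).comp_of_eq (analyticAt_const.fun_sub k2)
      (by simp [k3])
  refine ⟨fun τ => Ring.inverse (1 - t τ) * h, k6.fun_mul analyticAt_const, ?_⟩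
  filter_upwards [k2.continuousAt.norm.eventually_lt (continuousAt_const (y := 1)) (by simp [k3])]
    with τ a
  have b3 : ∀ ξ ∈ C, Ring.inverse (1 - t τ) ξ ∈ C := fun ξ c =>
    h2.mem_of_tendsto ((hasSum_geom_series_inverse _ a).mapL (ContinuousLinearMap.apply ℂ X ξ))
      (.of_forall fun s => C.sum_mem fun k hk => by
        clear hk
        induction k with
        | zero => exact c
        | succ k ih =>
          rw [pow_succ']
          exact C.neg_mem (C.add_mem (k4 _ _ (h4 _ ih)) (h4 _ (k4 _ _ ih))))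
  have b4 : IsUnit (1 - t τ) := (Units.oneSub _ a).isUnit
  have b5 : ∀ ξ ∈ C, (1 - t τ) ξ = (D + E τ) (h ξ) + h ((D + E τ) ξ) := fun ξ c => by
    show ξ - -(E τ (h ξ) + h (E τ ξ)) = D (h ξ) + E τ (h ξ) + h (D ξ + E τ ξ)
    rw [map_add]
    nth_rw 1 [← h6 ξ c]
    abel
  have b6 : ∀ ξ, (1 - t τ) (Ring.inverse (1 - t τ) ξ) = ξ := fun ξ =>
    congrArg (· ξ) (Ring.mul_inverse_cancel _ b4)
  have b7 : ∀ ξ, Ring.inverse (1 - t τ) ((1 - t τ) ξ) = ξ := fun ξ =>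
    congrArg (· ξ) (Ring.inverse_mul_cancel _ b4)
  refine fun ξ c => ⟨b3 _ (h4 ξ c), ?_⟩
  have b8 := congrArg (D + E τ) (b6 (h ξ))
  have b9 := b3 _ (h4 ξ c)
  rw [b5 _ b9, map_add, h1, zero_add] at b8
  show (D + E τ) (Ring.inverse (1 - t τ) (h ξ)) + Ring.inverse (1 - t τ) (h ((D + E τ) ξ)) = ξ
  rw [← b7 ((D + E τ) _), b5 _ (h3 _ _ b9), h1, map_zero, add_zero, b8, ← map_add, ← b5 ξ c, b7]

variable {n p : ℕ} {V : Type} [TopologicalSpace V] [T2Space V] [CompactSpace V]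
  [ChartedSpace (Cm n) V] [IsManifold 𝓘(ℂ, Cm n) ω V] {L : Bd V} {F : V → Cm p} {K₀ : Set V}

/-- sections of class `C^∞` -/
def Vc (C : Cx p L) (ξ : C.X) : Prop := C.N ξ = 0 ∧ ∀ τ, C.E τ ξ = 0

/-- they are determined by their values -/
def Vac (C : Cx p L) : Prop := ∀ ξ, Vc C ξ → ∀ i x, x ∈ L.U i → C.val ξ i x = 0 → C.π ξ x = 0

omit [T2Space V] [IsManifold 𝓘(ℂ, Cm n) ω V] in
theorem vac0 {C : Cx p L} {A : Type} [AddCommGroup A] [Module ℂ A] {P : Pre L C.Λ A}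
    {ι : A →ₗ[ℂ] C.X} (c : Cp n C P ι) (h : P.Ok n K₀) : Vac C := fun ξ a i y hy e2 => by
  obtain ⟨M, hM⟩ := h.vac i y hy
  have e := c.le (f := fun ξ => ‖C.π ξ y‖)
    (g := fun ξ => M * (‖P.N' (C.π ξ y)‖ + ‖P.ev i y (C.π ξ y)‖)) (by fun_prop) (by fun_prop)
    (fun u => by simp only [c.π, hM]) ξ
  rw [c.val] at e2
  simp only [← c.πN h, a.1, e2, map_zero, ContinuousMap.zero_apply, norm_zero, add_zero,
    mul_zero] at e
  exact norm_le_zero_iff.1 e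

theorem exists_cx (hL : IsLB n L) (hd : Dat n F K₀) :
    ∃ C : Cx p L, C.Good n F K₀ .univ ∧ Vac C := by
  induction (Finset.univ : Finset (Fin p)) using Finset.induction_on with
  | empty =>
    obtain ⟨T, P, hP⟩ := ops n V L hL K₀ hd.cpt
    have h := mok n V L hL T K₀ P hd.cpt hP
    have c := P.cp (p := p) h
    exact ⟨P.cx p, c.good hL h (mwl n V L hL T K₀ P hd.cpt hP).1 (mwl n V L hL T K₀ P hd.cpt hP).2
      (mdg_of bump glb dg n V L hL T K₀ P hd.cpt hP)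
      (mlh_of bump glb flat cpt n V L hL T K₀ P hd.cpt hP) F, vac0 c h⟩
  | insert l s hl ih =>
    obtain ⟨C, hC, hV⟩ := ih
    obtain ⟨a, b, c⟩ := cone n V L hL p F K₀ C hd s l hl hC.ok
    refine ⟨_, ⟨a, b hC.par, c hC.hom, fun x hx k =>
      loc_of bump div n V L hL p F K₀ C hd s l hl hC.ok x hx k (hC.loc x hx k)⟩,
      fun ξ d i x hx e => ?_⟩
    have e0 : ∀ τ, C.E τ ξ.1 + τ l • ξ.2 = 0 := fun τ =>
      congrArg Prod.fst ((C.cone_E F l ξ τ).symm.trans (d.2 _))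
    have e1 : ξ.2 = 0 := by
      have := e0 (Pi.single l 1)
      rw [hC.ok.dep _ 0 fun l' hl' => Pi.single_eq_of_ne (ne_of_mem_of_not_mem hl' hl) 1] at this
      simpa using this
    have e2 := hV ξ.1 ⟨congrArg Prod.fst d.1, fun τ => by simpa [e1] using e0 τ⟩ i x hx
      ((C.cone_val F l ξ i x).symm.trans e)
    refine (C.cone_π F l ξ x).trans ?_
    rw [e2, e1, map_zero]
    rfl

variable {C : Cx p L} {s : Finset (Fin p)}

omit [T2Space V] [IsManifold 𝓘(ℂ, Cm n) ω V] in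
open Dv in
/-- the local form of `HOL` -/
theorem holx (hd : Dat n F K₀) (h : C.Ok n F K₀ s) {v : Cm p → C.X} {i : L.ι} {x : V}
    (hi : x ∈ L.U i) (hv : AnalyticAt ℂ v (F x))
    (h0 : ∀ᶠ y in 𝓝 x, C.π (C.Dt (F y) (v (F y))) y = 0) :
    Hol n (fun y => C.val (v (F y)) i y) x := by
  obtain ⟨pw, r, hp⟩ := hv
  obtain ⟨r', r0, r1⟩ := ENNReal.lt_iff_exists_nnreal_btwn.1 hp.r_pos
  obtain ⟨M, hM⟩ := h.evb i x hi
  have hF : Continuous F := continuous_pi fun l => (hd.sm l).cont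
  choose ξ h1 h2 using fun k => rl_sum (Finset.range k) fun j => rl_ml h hd (pw j) (F x)
  have hc : Continuous fun y => ‖C.Dt (F y)‖ := (continuous_const.add (C.E.continuous.comp hF)).norm
  let S := {y | F y ∈ ball (F x) r' ∧ ‖C.ev i y‖ ≤ M ∧ ‖C.Dt (F y)‖ < ‖C.Dt (F x)‖ + 1 ∧
    C.π (C.Dt (F y) (v (F y))) y = 0}
  have hS : S ∈ 𝓝 x := (hF.continuousAt.eventually (ball_mem_nhds _ (by exact_mod_cast r0))).and
    (hM.and ((hc.continuousAt.eventually_lt_const (lt_add_one _)).and h0))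
  have hu : TendstoUniformlyOn (fun k y => pw.partialSum k (F y - F x)) (fun y => v (F y)) atTop S :=
    ((hp.tendstoUniformlyOn' r1).comp F).mono fun y hy => hy.1
  have hπ : ∀ η y, ‖C.π η y‖ ≤ ‖C.π‖ * ‖η‖ := fun η y =>
    ((C.π η).norm_coe_le_norm y).trans (C.π.le_opNorm η)
  refine h.wey ξ _ i x hi S hS ?_ ?_
  · refine (unif (fun y => C.ev i y ∘L ContinuousMap.evalCLM ℂ y ∘L C.π) (M := M * ‖C.π‖) hu
      fun y hy η => ?_).congr (.of_forall fun k y _ => congrArg (C.ev i y) (h1 k y).symm)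
    refine ((C.ev i y).le_opNorm _).trans ?_
    rw [mul_assoc]
    exact mul_le_mul hy.2.1 (hπ η y) (norm_nonneg _) ((norm_nonneg _).trans hy.2.1)
  · refine ((unif (fun y => ContinuousMap.evalCLM ℂ y ∘L C.π ∘L C.Dt (F y))
      (M := ‖C.π‖ * (‖C.Dt (F x)‖ + 1)) hu fun y hy η => ?_).congr
        (.of_forall fun k y _ => (h2 k y _).symm)).congr_right fun y hy => hy.2.2.2
    refine (hπ _ y).trans ?_
    rw [mul_assoc]
    exact mul_le_mul_of_nonneg_left (((C.Dt (F y)).le_opNorm η).trans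
      (mul_le_mul_of_nonneg_right hy.2.2.1.le (norm_nonneg _))) (norm_nonneg _)

/-- limits of boundaries -/
theorem bdry (hL : IsLB n L) (hd : Dat n F K₀) (h : C.Good n F K₀ .univ)
    (h0 : ∀ x ∈ K₀, F x = 0 → x ∈ interior K₀) {W : Set V} (hW : IsOpen W)
    (hK : K₀ ∩ F ⁻¹' {0} ⊆ W) {v ξ : ℕ → C.X} {w : C.X} (hv : Tendsto v atTop (𝓝 w))
    (h1 : ∀ k τ, W ⊆ C.Z (v k - C.Dt τ (ξ k))) :
    ∃ η : Cm p → C.X, AnalyticAt ℂ η 0 ∧ ∀ᶠ τ in 𝓝 0, W ⊆ C.Z (w - C.Dt τ (η τ)) := by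
  have o := h.ok
  obtain ⟨M, c1, c2⟩ := (shf n V L hL p F K₀ C hd _ o).2.2 _ hW
  obtain ⟨e, -, e2, e3⟩ := Is.prim o hd (kill n V L hL p F K₀ C hd o h.hom 0) hW hK
  have c3 : ∀ τ, ∀ η ∈ M, C.Dt τ η ∈ M := fun σ η a =>
    (c2 _).2 (((c2 _).1 a).trans (o.loc_Dt σ η))
  obtain ⟨H, d1, d2⟩ := homot (D := C.D) (E := C.E) o.dtdt c1 c3
    (fun η a => (c2 _).2 (((c2 _).1 a).trans (e2 η))) fun η a => by
      simpa only [Cx.Dt_zero] using e3 η ((c2 _).1 a)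
  obtain ⟨P, hP, hP'⟩ := parx n V L hL p F K₀ C hd h h0
  have k1 : AnalyticAt ℂ C.Dt 0 := analyticAt_const.add (C.E.analyticAt 0)
  have k2 : ∀ k τ, C.Dt τ (v k - C.Dt τ (ξ k)) = C.Dt τ (v k) := fun k τ => by
    rw [map_sub, o.dtdt, sub_zero]
  have k3 : ∀ τ, C.Dt τ w ∈ M := fun τ => c1.mem_of_tendsto (((C.Dt τ).continuous.tendsto w).comp hv)
    (.of_forall fun k => show C.Dt τ (v k) ∈ M from k2 k τ ▸ c3 τ _ ((c2 _).2 (h1 k τ)))
  obtain ⟨η, a, b⟩ := clo (T := fun τ => 1 - H τ * C.Dt τ) (v := w) o.fam hP hP'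
    (analyticAt_const.fun_sub (d1.fun_mul k1)) (mem_closure_of_tendsto hv (.of_forall fun k =>
      ⟨fun τ => ξ k + H τ (v k - C.Dt τ (ξ k)), analyticAt_const.fun_add (Fn.an_apply d1
        (analyticAt_const.fun_sub (Fn.an_apply k1 analyticAt_const))), d2.mono fun τ b => by
          have : C.Dt τ _ + H τ (C.Dt τ _) = _ := (b _ ((c2 _).2 (h1 k τ))).2
          show v k - H τ (C.Dt τ (v k)) = C.Dt τ _
          rw [map_add, ← k2 k τ, eq_sub_of_add_eq this]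
          abel⟩))
    (d2.mono fun τ b => by
      have := (b _ (k3 τ)).2
      show C.Dt τ (w - H τ (C.Dt τ w)) = 0
      rw [show (C.D + C.E τ) (C.Dt τ w) = 0 from o.dtdt τ w, map_zero, add_zero] at this
      exact (map_sub _ _ _).trans (sub_eq_zero.2 this.symm))
  refine ⟨η, a, (b.and d2).mono fun τ b => (c2 _).1 ?_⟩
  rw [show C.Dt τ (η τ) = w - H τ (C.Dt τ w) from b.1.symm, sub_sub_cancel]
  exact (b.2 _ (k3 τ)).1

/-- partitions of unity -/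
theorem pou {I : Type} [Fintype I] {U : I → Set V} (hU : ∀ i, IsOpen (U i)) {K : Set V}
    (hK : IsCompact K) (h : ∀ x ∈ K, ∃ i, x ∈ U i) : ∃ ρ : I → V → ℂ, (∀ i, Sm n (ρ i)) ∧
      (∀ i, tsupport (ρ i) ⊆ U i) ∧ ∀ x ∈ K, ∀ᶠ y in 𝓝 x, ∑ i, ρ i y = 1 := by
  letI := LinearOrder.lift' _ (Fintype.equivFin I).injective
  obtain ⟨K', a1, a2, a3⟩ := hK.finite_compact_cover .univ U (fun i _ => hU i) fun x hx => by
    simpa using h x hx
  choose φ b1 b2 b3 using fun i => exists_bump n (a1 i) (hU i) (a2 i)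
  refine ⟨fun i y => φ i y * ∏ j ∈ .univ with j < i, (1 - φ j y), fun i => (b1 i).mul
    (sm_prod _ fun j _ => (sm_const 1).sub (b1 j)), fun i => (tsupport_mul_subset_left).trans (b3 i),
    fun x hx => ?_⟩
  obtain ⟨i, -, hi⟩ := mem_iUnion₂.1 (a3.le hx)
  filter_upwards [b2 i x hi] with y hy
  have := Finset.prod_one_sub_ordered .univ fun i => φ i y
  rw [Finset.prod_eq_zero (Finset.mem_univ i) (by rw [hy, sub_self])] at this
  exact (sub_eq_zero.1 this.symm).symm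

end Cr

end Vale.Agent.P281Z.Gr
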