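import Vale.Agent.P281Z.Gr.CrcA

/-!
# P281Z, block GR: from cocycles to forms
-/

open scoped Manifold ContDiff Topology
open Set Filter Metric
open Vale.Agent.P272.K Vale.Agent.P285.H281.FD
open Vale.Agent.P277Z (Hol)

noncomputable section

namespace Vale.Agent.P281Z.Gr

namespace Cr

variable {n p : ℕ} {V : Type} [TopologicalSpace V] [CompactSpace V] [ChartedSpace (Cm n) V]
  {L : Bd V} {F : V → Cm p} {K₀ : Set V} {C : Cx p L} {s : Finset (Fin p)} {φ : V → ℂ} {x : V}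
  {ξ : C.X} {I : Type} [Fintype I] {ρ : I → V → ℂ}

variable (C) in
/-- the product with `∂̄ φ` -/
def dm (φ : V → ℂ) : C.X →L[ℂ] C.X := C.D * C.mul φ - C.mul φ * C.D

theorem dm_apply (ξ : C.X) : dm C φ ξ = C.D (C.mul φ ξ) - C.mul φ (C.D ξ) := rfl

variable (C ρ) in
/-- the form of a cocycle -/
def Ph (b : I → I → C.X) : C.X := ∑ i, ∑ j, C.mul (ρ j) (dm C (ρ i) (b i j))

theorem Ph_sub (b b' : I → I → C.X) :
    Ph C ρ b - Ph C ρ b' = Ph C ρ fun i j => b i j - b' i j := by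
  simp only [Ph, map_sub, Finset.sum_sub_distrib]

theorem nul_pw {T : C.X →L[ℂ] C.X} (h : C.Pw T) {β : ℕ → C.X}
    (k : Tendsto (fun k => C.π (β k)) atTop (𝓝 0)) :
    Tendsto (fun k => C.π (T (β k))) atTop (𝓝 0) := by
  obtain ⟨M, h0, h⟩ := h.nonneg
  refine squeeze_zero_norm (fun k => (ContinuousMap.norm_le _ (by positivity)).2 fun x =>
    (h _ x).trans (mul_le_mul_of_nonneg_left (ContinuousMap.norm_coe_le_norm _ x) h0)) ?_
  simpa using k.norm.const_mul M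

variable (h : C.Ok n F K₀ s)
include h

theorem pw_mul (hφ : Sm n φ) : C.Pw (C.mul φ) := ⟨‖(⟨φ, hφ.cont⟩ : C(V, ℂ))‖, fun ξ x => by
  rw [h.mulπ φ hφ, norm_smul]
  exact mul_le_mul_of_nonneg_right ((⟨φ, hφ.cont⟩ : C(V, ℂ)).norm_coe_le_norm x) (norm_nonneg _)⟩

theorem π_D_mul (hφ : Sm n φ) (ξ : C.X) (x : V) :
    C.π (C.D (C.mul φ ξ)) x = C.π (dm C φ ξ) x + φ x • C.π (C.D ξ) x := by
  simp [dm_apply, h.mulπ φ hφ]

theorem dm_hol (hφ : Sm n φ) (k : Hol n φ x) (ξ : C.X) : C.π (dm C φ ξ) x = 0 := by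
  simp [dm_apply, h.cm0 φ hφ ξ x k]

theorem dm_off (hφ : Sm n φ) (k : x ∉ tsupport φ) (ξ : C.X) : C.π (dm C φ ξ) x = 0 :=
  dm_hol h hφ (hol_of_const (notMem_tsupport_iff_eventuallyEq.1 k)) ξ

theorem dm_zero (hφ : Sm n φ) (k : x ∈ tsupport φ → C.π ξ x = 0) : C.π (dm C φ ξ) x = 0 :=
  (em _).elim (fun a => Cx.Pw.zero (h.cm φ hφ) (k a)) fun a => dm_off h hφ a ξ

theorem D_dm (ξ : C.X) : C.D (dm C φ ξ) = -dm C φ (C.D ξ) := by simp [dm_apply, h.dd]

omit [Fintype I] in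
theorem mul_sum (hρ : ∀ i, Sm n (ρ i)) (ξ : C.X) (t : Finset I) :
    C.mul (fun y => ∑ i ∈ t, ρ i y) ξ = ∑ i ∈ t, C.mul (ρ i) ξ := by
  classical
  induction t using Finset.induction_on with
  | empty => simp [h.mulc]
  | insert i t hi ih =>
    simp only [Finset.sum_insert hi]
    rw [h.mula _ _ (hρ i) (sm_sum _ fun i _ => hρ i), ih]

theorem dm_sum (hρ : ∀ i, Sm n (ρ i)) (k : ∀ᶠ y in 𝓝 x, ∑ i, ρ i y = 1) (ξ : C.X) :
    C.π (∑ i, dm C (ρ i) ξ) x = 0 := by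
  rw [← dm_hol h (sm_sum _ fun i _ => hρ i) (hol_of_const k) ξ]
  simp only [dm_apply, mul_sum h hρ, map_sum, Finset.sum_sub_distrib]

theorem E_D (k : ∀ τ, C.E τ ξ = 0) (τ : Cm p) : C.E τ (C.D ξ) = 0 := by
  simpa [Cx.Dt_apply, k, h.dd] using h.dtdt τ ξ

theorem π_D_Ph (hρ : ∀ i, Sm n (ρ i)) {b : I → I → C.X}
    (k : ∀ i j, x ∈ tsupport (ρ i) → x ∈ tsupport (ρ j) → C.π (C.D (b i j)) x = 0) :
    C.π (C.D (Ph C ρ b)) x = ∑ i, ∑ j, C.π (dm C (ρ j) (dm C (ρ i) (b i j))) x := by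
  simp only [Ph, map_sum, ContinuousMap.sum_apply, π_D_mul h (hρ _), D_dm h]
  refine Finset.sum_congr rfl fun i _ => Finset.sum_congr rfl fun j _ => add_eq_left.2 ?_
  by_cases a : x ∈ tsupport (ρ j)
  · rw [map_neg, ContinuousMap.neg_apply, dm_zero h (hρ i) fun c => k i j c a, neg_zero, smul_zero]
  · rw [image_eq_zero_of_notMem_tsupport a, zero_smul]

/-- the form of a coboundary is a boundary -/
theorem cech (hρ : ∀ i, Sm n (ρ i)) {a : I → C.X} {b : I → I → C.X}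
    (k0 : ∀ᶠ y in 𝓝 x, ∑ i, ρ i y = 1)
    (k1 : ∀ i j, x ∈ tsupport (ρ i) → x ∈ tsupport (ρ j) →
      C.π (b i j - (a i - a j)) x = 0 ∧ C.π (C.D (b i j)) x = 0)
    (k2 : ∀ i, x ∈ tsupport (ρ i) → C.π (C.D (a i)) x = 0) :
    C.π (Ph C ρ b - C.D (∑ i, C.mul (ρ i) (a i))) x = 0 ∧
      C.π (C.D (Ph C ρ b - C.D (∑ i, C.mul (ρ i) (a i)))) x = 0 := by
  have e0 : ∀ i j, x ∈ tsupport (ρ j) → C.π (dm C (ρ i) (b i j) -
      (dm C (ρ i) (a i) - dm C (ρ i) (a j))) x = 0 := fun i j c => by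
    simpa only [map_sub (dm C _)] using dm_zero h (hρ i) fun d => (k1 i j d c).1
  have e1 := dm_sum h hρ k0
  constructor
  · have e2 : ∀ i j, ρ j x • C.π (dm C (ρ i) (b i j)) x =
        ρ j x • C.π (dm C (ρ i) (a i)) x - ρ j x • C.π (dm C (ρ i) (a j)) x := fun i j => by
      by_cases c : x ∈ tsupport (ρ j)
      · have := e0 i j c
        simp only [map_sub, ContinuousMap.sub_apply, sub_eq_zero] at this
        rw [this, smul_sub]
      · simp [image_eq_zero_of_notMem_tsupport c]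
    have e3 : ∀ i, ρ i x • C.π (C.D (a i)) x = 0 := fun i => by
      by_cases c : x ∈ tsupport (ρ i)
      · rw [k2 i c, smul_zero]
      · rw [image_eq_zero_of_notMem_tsupport c, zero_smul]
    simp only [map_sum, ContinuousMap.sum_apply] at e1
    simp only [Ph, map_sub, map_sum, ContinuousMap.sub_apply, ContinuousMap.sum_apply,
      π_D_mul h (hρ _), h.mulπ _ (hρ _), e2, e3, add_zero, Finset.sum_sub_distrib,
      ← Finset.sum_smul, k0.self_of_nhds, one_smul]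
    rw [Finset.sum_comm]
    simp [← Finset.smul_sum, e1]
  · have e2 : ∀ i j, C.π (dm C (ρ j) (dm C (ρ i) (b i j))) x =
        C.π (dm C (ρ j) (dm C (ρ i) (a i))) x - C.π (dm C (ρ j) (dm C (ρ i) (a j))) x :=
      fun i j => by
        simpa only [map_sub, ContinuousMap.sub_apply, sub_eq_zero] using
          dm_zero h (hρ j) (e0 i j)
    have e3 := fun j => dm_zero h (hρ j) fun _ => e1 (a j)
    simp only [map_sum, ContinuousMap.sum_apply] at e1 e3
    rw [map_sub, h.dd, sub_zero, π_D_Ph h hρ fun i j c d => (k1 i j c d).2]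
    simp only [e2, Finset.sum_sub_distrib, e1]
    rw [Finset.sum_comm]
    simp [e3]

theorem nul_Ph (hρ : ∀ i, Sm n (ρ i)) {β : ℕ → I → I → C.X}
    (k1 : ∀ i j, Tendsto (fun k => C.π (β k i j)) atTop (𝓝 0))
    (k2 : ∀ k i j x, x ∈ tsupport (ρ i) → x ∈ tsupport (ρ j) → C.π (C.D (β k i j)) x = 0) :
    Tendsto (fun k => Ph C ρ (β k)) atTop (𝓝 0) := by
  obtain ⟨M, hM⟩ := h.nrm
  have e1 : Tendsto (fun k => C.π (Ph C ρ (β k))) atTop (𝓝 0) := by
    simpa [Ph] using tendsto_finsetSum _ fun i _ => tendsto_finsetSum _ fun j _ =>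
      nul_pw (pw_mul h (hρ j)) (nul_pw (T := dm C (ρ i)) (h.cm _ (hρ i)) (k1 i j))
  have e2 : Tendsto (fun k => C.π (C.D (Ph C ρ (β k)))) atTop (𝓝 0) := by
    have := tendsto_finsetSum Finset.univ fun i _ => tendsto_finsetSum Finset.univ fun j _ =>
      nul_pw (T := dm C (ρ j)) (h.cm _ (hρ j)) (nul_pw (T := dm C (ρ i)) (h.cm _ (hρ i)) (k1 i j))
    simp only [Finset.sum_const_zero] at this
    refine this.congr fun k => ContinuousMap.ext fun x => ?_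
    simp only [π_D_Ph h hρ fun i j => k2 k i j x, ContinuousMap.sum_apply]
  refine squeeze_zero_norm (fun k => hM _) ?_
  simpa using (e1.norm.add e2.norm).const_mul M

variable [T2Space V] [IsManifold 𝓘(ℂ, Cm n) ω V]

/-- locally uniform convergence of the values implies convergence -/
theorem conv (hL : IsLB n L) (hV : Vac C) {β : ℕ → C.X} (h1 : ∀ k, Vc C (β k)) (hφ : Sm n φ)
    {O : Set V} (hO : IsOpen O) (h2 : tsupport φ ⊆ O ∩ interior K₀) {r : ℕ → L.ι → V → ℂ}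
    (h3 : ∀ k a x, x ∈ L.U a → C.val (β k) a x = φ x * r k a x)
    (h4 : ∀ a, TendstoLocallyUniformlyOn (fun k => r k a) 0 atTop (O ∩ L.U a)) :
    Tendsto (fun k => C.π (β k)) atTop (𝓝 0) := by
  rw [ContinuousMap.tendsto_iff_tendstoUniformly,
    ← tendstoLocallyUniformly_iff_tendstoUniformly_of_compactSpace,
    Metric.tendstoLocallyUniformly_iff]
  intro ε hε x
  by_cases a : x ∈ tsupport φ
  · obtain ⟨i, hi⟩ := hL.cover x
    obtain ⟨ζ, b1, b2, -, b3⟩ := h.lift_at hL (h2 a).2 hi (P277Z.hol_const 1 x)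
    set M := ‖(⟨φ, hφ.cont⟩ : C(V, ℂ))‖ * ‖C.π ζ‖
    have hM : 0 ≤ M := by positivity
    obtain ⟨t, c1, c2⟩ := Metric.tendstoLocallyUniformlyOn_iff.1 (h4 i) (ε / (M + 1))
      (by positivity) x ⟨(h2 a).1, hi⟩
    rw [(hO.inter (hL.isOpen i)).nhdsWithin_eq ⟨(h2 a).1, hi⟩] at c1
    refine ⟨_, inter_mem c1 (b3.and ((hL.isOpen i).mem_nhds hi)), c2.mono fun k d y hy => ?_⟩
    have e := hV (β k - C.val (β k) i y • ζ) ⟨by simp [(h1 k).1, b1], fun τ => by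
      simp [(h1 k).2, b2]⟩ i y hy.2.2 (by
        rw [Cx.val_sub, Cx.val_smul, hy.2.1 i hy.2.2, g_self hL hy.2.2]; simp)
    have e2 := d y hy.1
    simp only [map_sub, map_smul, ContinuousMap.sub_apply, ContinuousMap.smul_apply,
      sub_eq_zero] at e
    simp only [ContinuousMap.coe_zero, Pi.zero_apply, dist_zero_left] at e2 ⊢
    rw [lt_div_iff₀ (by positivity)] at e2
    rw [e, h3 k i y hy.2.2, norm_smul, norm_mul, mul_right_comm]
    have e3 : ‖φ y‖ * ‖C.π ζ y‖ ≤ M := mul_le_mul ((⟨φ, hφ.cont⟩ : C(V, ℂ)).norm_coe_le_norm y)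
      ((C.π ζ).norm_coe_le_norm y) (norm_nonneg _) (norm_nonneg _)
    nlinarith [norm_nonneg (r k i y)]
  · refine ⟨_, (isClosed_tsupport φ).isOpen_compl.mem_nhds a, .of_forall fun k y hy => ?_⟩
    obtain ⟨i, hi⟩ := hL.cover y
    rw [hV _ (h1 k) i y hi (by rw [h3 k i y hi, image_eq_zero_of_notMem_tsupport hy, zero_mul])]
    simpa using hε

end Cr

end Vale.Agent.P281Z.Gr
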