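import Vale.Agent.P281Z.Spec
import Vale.Agent.P284.H205.K.Wd

/-!
# P281Z, block GR: direct images of line bundles (definitions, statements)
-/

open scoped Manifold ContDiff Topology Matrix ComplexConjugate
open Set Filter Metric
open Vale.Agent.P272.K Vale.Agent.P285.H281.FD
open Vale.Agent.P277Z (Hol)
open Vale.Agent.P277Z.Slc (Ind LEq Snc)
open Vale.Agent.P284.H608.K (dbV)
open Vale.Agent.P277.HD (pull)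

noncomputable section

namespace Vale.Agent.P281Z.Gr

/-! ### Families of complexes of Banach spaces -/

/-- there are `r` elements of `Z` which are independent modulo `B` -/
def Rk {X : Type} [AddCommGroup X] [Module ℂ X] (Z B : Set X) (r : ℕ) : Prop :=
  ∃ z : Fin r → X, (∀ j, z j ∈ Z) ∧ ∀ c : Fin r → ℂ, ∑ j, c j • z j ∈ B → c = 0

section abs

variable {p : ℕ} {X : Type} [NormedAddCommGroup X] [NormedSpace ℂ X]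

/-- `D + E τ` is a differential of degree one for the grading operator `N` -/
structure Fam (D N : X →L[ℂ] X) (E : Cm p →L[ℂ] X →L[ℂ] X) : Prop where
  sq : ∀ τ ξ, (D + E τ) ((D + E τ) ξ) = 0
  deg : ∀ τ ξ, N ((D + E τ) ξ) = (D + E τ) (N ξ) + (D + E τ) ξ

/-- cycles of degree zero -/
def Zc (D N : X →L[ℂ] X) : Set X := {ξ | N ξ = 0 ∧ D ξ = 0}

/-- boundaries of degree zero -/
def Bc (D N : X →L[ℂ] X) : Set X := {ξ | ∃ η, N η = -η ∧ ξ = D η}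

/-- the reduction to a finite complex `A`, `B` -/
structure Red (D N : X →L[ℂ] X) (E : Cm p →L[ℂ] X →L[ℂ] X) (ε : ℝ) {a a' b : ℕ}
    (i : Cm p → (Fin a → ℂ) →L[ℂ] X) (q : Cm p → X →L[ℂ] (Fin a → ℂ))
    (A : Cm p → Matrix (Fin a) (Fin a') ℂ) (B : Cm p → Matrix (Fin b) (Fin a) ℂ) : Prop where
  pos : 0 < ε
  ani : AnalyticOnNhd ℂ i (ball 0 ε)
  anq : AnalyticOnNhd ℂ q (ball 0 ε)
  anA : ∀ j k, AnalyticOnNhd ℂ (fun τ => A τ j k) (ball 0 ε)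
  anB : ∀ j k, AnalyticOnNhd ℂ (fun τ => B τ j k) (ball 0 ε)
  ba : ∀ τ ∈ ball (0 : Cm p) ε, B τ * A τ = 0
  cyc : ∀ τ ∈ ball (0 : Cm p) ε, ∀ k, B τ *ᵥ k = 0 → i τ k ∈ Zc (D + E τ) N
  ret : ∀ τ ∈ ball (0 : Cm p) ε, ∀ ξ ∈ Zc (D + E τ) N,
    B τ *ᵥ q τ ξ = 0 ∧ ξ - i τ (q τ ξ) ∈ Bc (D + E τ) N
  bd : ∀ τ ∈ ball (0 : Cm p) ε, ∀ k, i τ k ∈ Bc (D + E τ) N ↔ ∃ k', k = A τ *ᵥ k'

/-- generators `v` of the cohomology in degree zero; `μ` cuts out the jump locus -/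
structure Gen (Z B : Cm p → Set X) (ε : ℝ) {k m : ℕ} (ρ : ℕ) (v : Fin k → Cm p → X)
    (μ : Fin m → Cm p → ℂ) : Prop where
  pos : 0 < ε
  anv : ∀ j, AnalyticOnNhd ℂ (v j) (ball 0 ε)
  anμ : ∀ l, AnalyticOnNhd ℂ (μ l) (ball 0 ε)
  ne : ∃ l, ∃ τ ∈ ball (0 : Cm p) ε, μ l τ ≠ 0
  cyc : ∀ τ ∈ ball (0 : Cm p) ε, ∀ j, v j τ ∈ Z τ
  gen : ∀ τ ∈ ball (0 : Cm p) ε, ∀ z : Cm p → X, AnalyticAt ℂ z τ → (∀ᶠ σ in 𝓝 τ, z σ ∈ Z σ) →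
    ∃ c : Fin k → Cm p → ℂ, (∀ j, AnalyticAt ℂ (c j) τ) ∧
      ∀ᶠ σ in 𝓝 τ, z σ - ∑ j, c j σ • v j σ ∈ B σ
  span : ∀ τ ∈ ball (0 : Cm p) ε, (∃ l, μ l τ ≠ 0) → ∀ ξ ∈ Z τ,
    ∃ c : Fin k → ℂ, ξ - ∑ j, c j • v j τ ∈ B τ
  rk : ∀ τ ∈ ball (0 : Cm p) ε, (∃ l, μ l τ ≠ 0) → Rk (Z τ) (B τ) ρ ∧ ¬ Rk (Z τ) (B τ) (ρ + 1)
  jump : ∀ τ ∈ ball (0 : Cm p) ε, (∀ l, μ l τ = 0) → Rk (Z τ) (B τ) (ρ + 1)

end abs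

/-- **HPL**: Riesz theory and the perturbation lemma -/
def HPL : Prop :=
  ∀ (p : ℕ) (X : Type) [NormedAddCommGroup X] [NormedSpace ℂ X] [CompleteSpace X]
    (D N P : X →L[ℂ] X) (E : Cm p →L[ℂ] X →L[ℂ] X), Fam D N E →
    IsCompactOperator (1 - (D * P + P * D) : X →L[ℂ] X) → (∀ ξ, N (P ξ) = P (N ξ) - P ξ) →
    ∃ (ε : ℝ) (a a' b : ℕ) (i : Cm p → (Fin a → ℂ) →L[ℂ] X) (q : Cm p → X →L[ℂ] (Fin a → ℂ))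
      (A : Cm p → Matrix (Fin a) (Fin a') ℂ) (B : Cm p → Matrix (Fin b) (Fin a) ℂ),
      Red D N E ε i q A B

/-- **LIN**: finite complexes -/
def LIN : Prop :=
  ∀ (p a a' b : ℕ) (ε₀ : ℝ) (A : Cm p → Matrix (Fin a) (Fin a') ℂ)
    (B : Cm p → Matrix (Fin b) (Fin a) ℂ), 0 < ε₀ →
    (∀ j k, AnalyticOnNhd ℂ (fun τ => A τ j k) (ball 0 ε₀)) →
    (∀ j k, AnalyticOnNhd ℂ (fun τ => B τ j k) (ball 0 ε₀)) →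
    (∀ τ ∈ ball (0 : Cm p) ε₀, B τ * A τ = 0) →
    ∃ (ε : ℝ) (k m ρ : ℕ) (v : Fin k → Cm p → Fin a → ℂ) (μ : Fin m → Cm p → ℂ), ε ≤ ε₀ ∧
      Gen (fun τ => {z | B τ *ᵥ z = 0}) (fun τ => {z | ∃ w, z = A τ *ᵥ w}) ε ρ v μ

/-- **FIN** -/
def FIN : Prop :=
  ∀ (p : ℕ) (X : Type) [NormedAddCommGroup X] [NormedSpace ℂ X] [CompleteSpace X]
    (D N P : X →L[ℂ] X) (E : Cm p →L[ℂ] X →L[ℂ] X), Fam D N E →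
    IsCompactOperator (1 - (D * P + P * D) : X →L[ℂ] X) → (∀ ξ, N (P ξ) = P (N ξ) - P ξ) →
    ∀ ε₀, 0 < ε₀ → ∃ (ε : ℝ) (k m ρ : ℕ) (v : Fin k → Cm p → X) (μ : Fin m → Cm p → ℂ), ε ≤ ε₀ ∧
      Gen (fun τ => Zc (D + E τ) N) (fun τ => Bc (D + E τ) N) ε ρ v μ

/-- **PAR**: analytic primitives in an acyclic subcomplex -/
def PAR : Prop :=
  ∀ (p : ℕ) (X : Type) [NormedAddCommGroup X] [NormedSpace ℂ X] [CompleteSpace X]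
    (D N h : X →L[ℂ] X) (E : Cm p →L[ℂ] X →L[ℂ] X) (C : Submodule ℂ X) (τ₀ : Cm p), Fam D N E →
    IsClosed (C : Set X) → (∀ τ, ∀ ξ ∈ C, (D + E τ) ξ ∈ C) → (∀ ξ ∈ C, h ξ ∈ C) →
    (∀ ξ, N (h ξ) = h (N ξ) - h ξ) → (∀ ξ ∈ C, (D + E τ₀) (h ξ) + h ((D + E τ₀) ξ) = ξ) →
    ∀ g ∈ C, N g = g → (∀ τ, (D + E τ) g = 0) → ∃ w : Cm p → X, AnalyticAt ℂ w τ₀ ∧
      ∀ᶠ τ in 𝓝 τ₀, w τ ∈ C ∧ N (w τ) = 0 ∧ (D + E τ) (w τ) = g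

/-- **RKF**: the relations between generators -/
def RKF : Prop :=
  ∀ (X : Type) [AddCommGroup X] [Module ℂ X] (Z B : Submodule ℂ X) (k ρ : ℕ) (s : Fin k → X),
    (∀ j, s j ∈ Z) → (∀ z ∈ Z, ∃ c : Fin k → ℂ, z - ∑ j, c j • s j ∈ B) → Rk (Z : Set X) B ρ →
    ¬ Rk (Z : Set X) B (ρ + 1) →
    Module.finrank ℂ (B.comap (Fintype.linearCombination ℂ s)) + ρ = k

/-! ### Gluing -/

/-- a graded complex with supports and cut-offs; `Z ξ` is the set near which `ξ` vanishes -/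
structure Shf {T M : Type} [TopologicalSpace T] [AddCommGroup M] (G : ℤ → AddSubgroup M)
    (D : M →+ M) (Z : M → Set T) : Prop where
  opn : ∀ ξ, IsOpen (Z ξ)
  zero : Z 0 = univ
  sub : ∀ ξ η, Z ξ ∩ Z η ⊆ Z (ξ - η)
  dZ : ∀ ξ, Z ξ ⊆ Z (D ξ)
  dd : ∀ ξ, D (D ξ) = 0
  deg : ∀ q, ∀ ξ ∈ G q, D ξ ∈ G (q + 1)
  low : ∃ q₀, ∀ q < q₀, ∀ ξ ∈ G q, ξ = 0
  cut : ∀ K W, IsCompact K → IsOpen W → K ⊆ W → ∃ c : M →+ M, (∀ q, ∀ ξ ∈ G q, c ξ ∈ G q) ∧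
    ∀ ξ, Z ξ ⊆ Z (c ξ) ∧ K ⊆ Z (ξ - c ξ) ∧ Wᶜ ⊆ Z (c ξ)

/-- **GLUE** -/
def GLUE : Prop :=
  ∀ (T M : Type) [TopologicalSpace T] [T2Space T] [CompactSpace T] [AddCommGroup M]
    (G : ℤ → AddSubgroup M) (D : M →+ M) (Z : M → Set T) (K : Set T), Shf G D Z → IsCompact K →
    (∀ q < 0, ∀ x ∈ K, ∀ ξ ∈ G q, x ∈ Z (D ξ) → ∃ η ∈ G (q - 1), x ∈ Z (ξ - D η)) →
    (∀ ξ ∈ G 0, (∀ x ∈ K, ∃ η ∈ G (-1), x ∈ Z (ξ - D η)) → ∃ η ∈ G (-1), K ⊆ Z (ξ - D η)) ∧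
    ∀ Q : M → T → Prop, (∀ ξ x, Q ξ x → ∀ᶠ y in 𝓝 x, Q ξ y) →
      (∀ ξ ξ' η x, Q ξ x → x ∈ Z (ξ - ξ' - D η) → Q ξ' x) →
      (∀ x ∈ K, ∀ ξ ∈ G 0, ∀ ξ' ∈ G 0, Q ξ x → Q ξ' x → ∃ η ∈ G (-1), x ∈ Z (ξ - ξ' - D η)) →
      (∀ x ∈ K, ∃ ξ ∈ G 0, Q ξ x) → ∃ ξ ∈ G 0, ∀ x ∈ K, Q ξ x

/-! ### Sections -/

section sec

variable (n : ℕ) {V : Type} [TopologicalSpace V] [ChartedSpace (Cm n) V]

/-- smooth functions -/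
def Sm (φ : V → ℂ) : Prop :=
  ∀ x (e : Chart n V), At e x → ContDiffAt ℝ ∞ (fun z => φ (e.symm z)) (e x)

/-- `s` is a holomorphic section of `L` over `O` -/
structure SecOn (L : Bd V) (O : Set V) (s : L.ι → V → ℂ) : Prop where
  hol : ∀ x ∈ O, ∀ i, x ∈ L.U i → Hol n (s i) x
  chg : ∀ x ∈ O, ∀ i j, x ∈ L.U i → x ∈ L.U j → s i x = L.g i j x * s j x

/-- `a` is on `S`, near `x`, the restriction of a holomorphic function -/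
def HolS (S : Set V) (a : V → ℂ) (x : V) : Prop :=
  ∃ b, Hol n b x ∧ ∀ᶠ y in 𝓝 x, y ∈ S → a y = b y

/-- holomorphic sections of the restriction of `L` to `S` -/
def FSec (L : Bd V) (S : Set V) : Set (L.ι → V → ℂ) :=
  {s | ∀ x ∈ S, (∀ i, x ∈ L.U i → HolS n S (s i) x) ∧
    ∀ i j, x ∈ L.U i → x ∈ L.U j → s i x = L.g i j x * s j x}

end sec

/-- families which vanish on `S` -/
def Van {V : Type} (L : Bd V) (S : Set V) : Set (L.ι → V → ℂ) :=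
  {s | ∀ x ∈ S, ∀ i, x ∈ L.U i → s i x = 0}

/-- a statement on line bundles on compact manifolds -/
def ForL (P : ∀ (n : ℕ) (V : Type) [TopologicalSpace V] [CompactSpace V] [ChartedSpace (Cm n) V],
    Bd V → Prop) : Prop :=
  ∀ (n : ℕ) (V : Type) [TopologicalSpace V] [T2Space V] [CompactSpace V] [ChartedSpace (Cm n) V]
    [IsManifold 𝓘(ℂ, Cm n) ω V] (L : Bd V), IsLB n L → P n V L

/-- the local form of the direct image theorem -/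
structure Out (n : ℕ) {p : ℕ} {V : Type} [TopologicalSpace V] [ChartedSpace (Cm n) V] (L : Bd V)
    (O : Set V) (F : V → Cm p) (ε : ℝ) {k m : ℕ} (ρ : ℕ) (s : Fin k → L.ι → V → ℂ)
    (μ : Fin m → Cm p → ℂ) : Prop where
  pos : 0 < ε
  anμ : ∀ l, AnalyticOnNhd ℂ (μ l) (ball 0 ε)
  ne : ∃ l, ∃ τ ∈ ball (0 : Cm p) ε, μ l τ ≠ 0
  sec : ∀ j, SecOn n L (O ∩ F ⁻¹' ball 0 ε) (s j)
  gen : ∀ τ ∈ ball (0 : Cm p) ε, ∀ r, 0 < r → ∀ t, SecOn n L (O ∩ F ⁻¹' ball τ r) t →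
    ∃ c : Fin k → Cm p → ℂ, (∀ j, AnalyticAt ℂ (c j) τ) ∧
      ∀ᶠ σ in 𝓝 τ, t - ∑ j, c j σ • s j ∈ Van L (O ∩ F ⁻¹' {σ})
  fib : ∀ τ ∈ ball (0 : Cm p) ε, (∀ x ∈ O, F x = τ → Ind n (fun l y => F y l) x) →
    ((∃ l, μ l τ ≠ 0) → (∀ t ∈ FSec n L (O ∩ F ⁻¹' {τ}),
        ∃ c : Fin k → ℂ, t - ∑ j, c j • s j ∈ Van L (O ∩ F ⁻¹' {τ})) ∧
      Rk (FSec n L (O ∩ F ⁻¹' {τ})) (Van L (O ∩ F ⁻¹' {τ})) ρ ∧
      ¬ Rk (FSec n L (O ∩ F ⁻¹' {τ})) (Van L (O ∩ F ⁻¹' {τ})) (ρ + 1)) ∧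
    ((∀ l, μ l τ = 0) → Rk (FSec n L (O ∩ F ⁻¹' {τ})) (Van L (O ∩ F ⁻¹' {τ})) (ρ + 1))

/-- **GR0** -/
def GR0 : Prop := ForL fun n V _ _ _ L => ∀ (p : ℕ) (O : Set V) (F : V → Cm p) (R : ℝ), IsOpen O →
  (∀ x ∈ O, ∀ l, Hol n (fun y => F y l) x) → 0 < R → IsCompact (O ∩ F ⁻¹' closedBall 0 R) →
  ∃ (ε : ℝ) (k m ρ : ℕ) (s : Fin k → L.ι → V → ℂ) (μ : Fin m → Cm p → ℂ), ε ≤ R ∧
    Out n L O F ε ρ s μ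

/-! ### The complexes -/

/-- a family of complexes of Banach spaces whose elements have values at the points of `V` -/
structure Cx (p : ℕ) {V : Type} [TopologicalSpace V] [CompactSpace V] (L : Bd V) : Type 1 where
  X : Type
  [gX : NormedAddCommGroup X]
  [sX : NormedSpace ℂ X]
  [cX : CompleteSpace X]
  Λ : Type
  [gΛ : NormedAddCommGroup Λ]
  [sΛ : NormedSpace ℂ Λ]
  π : X →L[ℂ] C(V, Λ)
  D : X →L[ℂ] X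
  N : X →L[ℂ] X
  E : Cm p →L[ℂ] X →L[ℂ] X
  mul : (V → ℂ) → X →L[ℂ] X
  ev : L.ι → V → Λ →L[ℂ] ℂ

attribute [instance] Cx.gX Cx.sX Cx.cX Cx.gΛ Cx.sΛ

namespace Cx

variable {p : ℕ} {V : Type} [TopologicalSpace V] [CompactSpace V] {L : Bd V} (C : Cx p L)

/-- the differential -/
def Dt (τ : Cm p) : C.X →L[ℂ] C.X := C.D + C.E τ

/-- the points near which `ξ` vanishes -/
def Z (ξ : C.X) : Set V := {x | ∀ᶠ y in 𝓝 x, C.π ξ y = 0 ∧ C.π (C.D ξ) y = 0}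

/-- the scalar component -/
def val (ξ : C.X) (i : L.ι) (x : V) : ℂ := C.ev i x (C.π ξ x)

/-- operators of order zero -/
def Pw (T : C.X →L[ℂ] C.X) : Prop := ∃ M : ℝ, ∀ ξ x, ‖C.π (T ξ) x‖ ≤ M * ‖C.π ξ x‖

/-- operators which are compact for the sup norm -/
def SC (T : C.X →L[ℂ] C.X) : Prop := IsCompactOperator (C.π ∘L T)

open ContinuousLinearMap in
/-- the cone of the multiplication by `τ l - F l` -/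
def cone (F : V → Cm p) (l : Fin p) : Cx p L where
  X := C.X × C.X
  Λ := C.Λ × C.Λ
  π := (inl ℂ C.Λ C.Λ).compLeftContinuous ℂ V ∘L C.π ∘L fst ℂ C.X C.X +
    (inr ℂ C.Λ C.Λ).compLeftContinuous ℂ V ∘L C.π ∘L snd ℂ C.X C.X
  D := (C.D ∘L fst ℂ C.X C.X - C.mul (fun y => F y l) ∘L snd ℂ C.X C.X).prod
    (-(C.D ∘L snd ℂ C.X C.X))
  N := C.N.prodMap (C.N - 1)
  E := (compL ℂ (C.X × C.X) C.X (C.X × C.X) (inl ℂ C.X C.X)) ∘L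
      ((compL ℂ (C.X × C.X) C.X C.X).flip (fst ℂ C.X C.X) ∘L C.E +
        (proj l : Cm p →L[ℂ] ℂ).smulRight (snd ℂ C.X C.X)) -
    (compL ℂ (C.X × C.X) C.X (C.X × C.X) (inr ℂ C.X C.X)) ∘L
      (compL ℂ (C.X × C.X) C.X C.X).flip (snd ℂ C.X C.X) ∘L C.E
  mul φ := (C.mul φ).prodMap (C.mul φ)
  ev i x := C.ev i x ∘L fst ℂ C.Λ C.Λ

section
variable (F : V → Cm p) (l : Fin p) (ξ : C.X × C.X)

theorem cone_π (x : V) : (C.cone F l).π ξ x = (C.π ξ.1 x, C.π ξ.2 x) :=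
  Prod.ext (add_zero _) (zero_add _)

theorem cone_D : (C.cone F l).D ξ = (C.D ξ.1 - C.mul (fun y => F y l) ξ.2, -C.D ξ.2) := rfl

theorem cone_N : (C.cone F l).N ξ = (C.N ξ.1, C.N ξ.2 - ξ.2) := rfl

theorem cone_E (τ : Cm p) : (C.cone F l).E τ ξ = (C.E τ ξ.1 + τ l • ξ.2, -C.E τ ξ.2) :=
  Prod.ext (sub_zero _) (zero_sub _)

theorem cone_mul (φ : V → ℂ) : (C.cone F l).mul φ ξ = (C.mul φ ξ.1, C.mul φ ξ.2) := rfl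

theorem cone_val (i : L.ι) (x : V) : (C.cone F l).val ξ i x = C.val ξ.1 i x :=
  congrArg (C.ev i x) (add_zero _)

end

variable (n : ℕ) [ChartedSpace (Cm n) V] (F : V → Cm p) (K₀ : Set V) (s : Finset (Fin p))

/-- the formal properties -/
structure Ok : Prop where
  fam : Fam C.D C.N C.E
  nrm : ∃ M : ℝ, ∀ ξ, ‖ξ‖ ≤ M * (‖C.π ξ‖ + ‖C.π (C.D ξ)‖)
  pwE : ∀ τ, C.Pw (C.E τ)
  pwN : C.Pw C.N
  dep : ∀ τ τ' : Cm p, (∀ l ∈ s, τ l = τ' l) → C.E τ = C.E τ'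
  low : ∃ q₀ : ℤ, ∀ q < q₀, ∀ ξ, C.N ξ = (q : ℂ) • ξ → ξ = 0
  supp : ∀ ξ, ∀ x ∉ K₀, C.π ξ x = 0
  mulπ : ∀ φ, Sm n φ → ∀ ξ x, C.π (C.mul φ ξ) x = φ x • C.π ξ x
  mulm : ∀ φ ψ, Sm n φ → Sm n ψ → ∀ ξ, C.mul (fun x => φ x * ψ x) ξ = C.mul φ (C.mul ψ ξ)
  mula : ∀ φ ψ, Sm n φ → Sm n ψ → ∀ ξ, C.mul (fun x => φ x + ψ x) ξ = C.mul φ ξ + C.mul ψ ξ
  mulc : ∀ (c : ℂ) ξ, C.mul (fun _ => c) ξ = c • ξ
  mulN : ∀ φ, Sm n φ → ∀ ξ, C.N (C.mul φ ξ) = C.mul φ (C.N ξ)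
  mulE : ∀ φ, Sm n φ → ∀ τ ξ, C.E τ (C.mul φ ξ) = C.mul φ (C.E τ ξ)
  cm : ∀ φ, Sm n φ → C.Pw (C.D * C.mul φ - C.mul φ * C.D)
  cm0 : ∀ φ, Sm n φ → ∀ ξ x, Hol n φ x → C.π (C.D (C.mul φ ξ)) x = C.π (C.mul φ (C.D ξ)) x
  chg : ∀ ξ i j x, x ∈ L.U i → x ∈ L.U j → C.val ξ i x = L.g i j x * C.val ξ j x
  evd : ∀ ξ i x, C.val (C.Dt (F x) ξ) i x = 0
  evb : ∀ i x, x ∈ L.U i → ∃ M : ℝ, ∀ᶠ y in 𝓝 x, ‖C.ev i y‖ ≤ M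
  wey : ∀ (ξ : ℕ → C.X) (a : V → ℂ) i x, x ∈ L.U i → ∀ S ∈ 𝓝 x,
    TendstoUniformlyOn (fun k y => C.val (ξ k) i y) a atTop S →
    TendstoUniformlyOn (fun k y => C.π (C.Dt (F y) (ξ k)) y) (fun _ => 0) atTop S → Hol n a x
  lift : ∀ O, IsOpen O → ∀ t, SecOn n L O t → ∀ φ, Sm n φ → tsupport φ ⊆ O ∩ interior K₀ →
    ∃ ξ, C.N ξ = 0 ∧ (∀ τ, C.E τ ξ = 0) ∧ (∀ i x, x ∈ L.U i → C.val ξ i x = φ x * t i x) ∧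
      ∀ x, Hol n φ x → C.π (C.D ξ) x = 0

/-- the parametrix -/
def Par : Prop :=
  ∀ K, IsCompact K → K ⊆ interior K₀ → ∃ (σ : V → ℂ) (P : C.X →L[ℂ] C.X), Sm n σ ∧
    (∀ x ∈ K, ∀ᶠ y in 𝓝 x, σ y = 1) ∧ (∀ ξ, C.N (P ξ) = P (C.N ξ) - P ξ) ∧ C.SC P ∧
    C.SC (C.mul σ - (C.D * P + P * C.D))

/-- the Koszul homotopies -/
def Hom : Prop :=
  ∀ l ∈ s, ∃ e : C.X →L[ℂ] C.X, C.Pw e ∧ (∀ ξ, e (e ξ) = 0) ∧ (∀ ξ, C.N (e ξ) = e (C.N ξ) - e ξ) ∧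
    (∀ φ, Sm n φ → ∀ ξ, e (C.mul φ ξ) = C.mul φ (e ξ)) ∧
    ∀ τ ξ, C.Dt τ (e ξ) + e (C.Dt τ ξ) = τ l • ξ - C.mul (fun y => F y l) ξ

/-- the local cohomology at `x` -/
structure LocAt (x : V) : Prop where
  ex : ∀ (q : ℤ) ξ, q ≠ 0 → C.N ξ = (q : ℂ) • ξ → x ∈ C.Z (C.Dt (F x) ξ) →
    ∃ η, C.N η = ((q : ℂ) - 1) • η ∧ x ∈ C.Z (ξ - C.Dt (F x) η)
  hol : ∀ ξ i, x ∈ L.U i → C.N ξ = 0 → x ∈ C.Z (C.Dt (F x) ξ) →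
    HolS n {y | ∀ l ∈ s, F y l = F x l} (C.val ξ i) x
  inj : ∀ ξ i, x ∈ L.U i → C.N ξ = 0 → x ∈ C.Z (C.Dt (F x) ξ) →
    (∀ᶠ y in 𝓝 x, (∀ l ∈ s, F y l = F x l) → C.val ξ i y = 0) →
    ∃ η, C.N η = -η ∧ x ∈ C.Z (ξ - C.Dt (F x) η)

/-- all the properties -/
structure Good : Prop where
  ok : C.Ok n F K₀ s
  par : C.Par n K₀
  hom : C.Hom n F s
  loc : ∀ x ∈ interior K₀, Ind n (fun l y => F y l) x → C.LocAt n F s x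

end Cx

/-- `F` is smooth, and holomorphic near the compact set `K₀` -/
structure Dat (n : ℕ) {p : ℕ} {V : Type} [TopologicalSpace V] [ChartedSpace (Cm n) V]
    (F : V → Cm p) (K₀ : Set V) : Prop where
  cpt : IsCompact K₀
  sm : ∀ l, Sm n fun y => F y l
  hol : ∀ x ∈ K₀, ∀ l, Hol n (fun y => F y l) x

/-- a statement on complexes -/
def ForC (P : ∀ (n p : ℕ) (V : Type) [TopologicalSpace V] [CompactSpace V] [ChartedSpace (Cm n) V]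
    (L : Bd V), (V → Cm p) → Set V → Cx p L → Prop) : Prop :=
  ForL fun n V _ _ _ L => ∀ (p : ℕ) (F : V → Cm p) (K₀ : Set V) (C : Cx p L), Dat n F K₀ →
    P n p V L F K₀ C

/-- **BUMP** -/
def BUMP : Prop := ForL fun n V _ _ _ _ => ∀ K W : Set V, IsCompact K → IsOpen W → K ⊆ W →
  ∃ φ : V → ℂ, Sm n φ ∧ (∀ x ∈ K, ∀ᶠ y in 𝓝 x, φ y = 1) ∧ tsupport φ ⊆ W

/-- **CONE** -/
def CONE : Prop := ForC fun n _ _ _ _ _ _ F K₀ C => ∀ s l, l ∉ s → C.Ok n F K₀ s →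
  (C.cone F l).Ok n F K₀ (insert l s) ∧ (C.Par n K₀ → (C.cone F l).Par n K₀) ∧
    (C.Hom n F s → (C.cone F l).Hom n F (insert l s))

/-- **DIV** -/
def DIV : Prop := ForL fun n V _ _ _ _ => ∀ (p : ℕ) (F : V → Cm p) (x : V) (s : Finset (Fin p)) l,
  l ∉ s → Ind n (fun l y => F y l) x → ∀ b, Hol n b x →
    ((∀ᶠ y in 𝓝 x, (∀ l' ∈ s, F y l' = F x l') → F y l = F x l → b y = 0) →
      ∃ b', Hol n b' x ∧ ∀ᶠ y in 𝓝 x, (∀ l' ∈ s, F y l' = F x l') → b y = (F x l - F y l) * b' y) ∧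
    ((∀ᶠ y in 𝓝 x, (∀ l' ∈ s, F y l' = F x l') → (F x l - F y l) * b y = 0) →
      ∀ᶠ y in 𝓝 x, (∀ l' ∈ s, F y l' = F x l') → b y = 0)

/-- **LOC** -/
def LOC : Prop := ForC fun n _ _ _ _ _ _ F K₀ C => ∀ s l, l ∉ s → C.Ok n F K₀ s →
  ∀ x ∈ interior K₀, Ind n (fun l y => F y l) x → C.LocAt n F s x →
    (C.cone F l).LocAt n F (insert l s) x

/-- **SHF**: the calculus of supports -/
def SHF : Prop := ForC fun n _ _ _ _ _ _ F K₀ C => ∀ s, C.Ok n F K₀ s →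
  (∀ τ, Shf (fun q : ℤ => (LinearMap.ker (C.N - (q : ℂ) • 1 : C.X →L[ℂ] C.X).toLinearMap).toAddSubgroup)
    (C.Dt τ).toLinearMap.toAddMonoidHom C.Z) ∧ (∀ ξ, K₀ ⊆ C.Z ξ → ξ = 0) ∧
  ∀ W, IsOpen W → ∃ M : Submodule ℂ C.X, IsClosed (M : Set C.X) ∧ ∀ ξ, ξ ∈ M ↔ W ⊆ C.Z ξ

/-- **KILL**: the complex is acyclic off the fibre -/
def KILL : Prop := ForC fun n _ V _ _ _ _ F K₀ C => C.Ok n F K₀ .univ → C.Hom n F .univ →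
  ∀ τ (S : Set V), IsCompact S → (∀ x ∈ S, F x ≠ τ) → ∃ h : C.X →L[ℂ] C.X,
    (∀ ξ, C.N (h ξ) = h (C.N ξ) - h ξ) ∧
      ∀ ξ, C.Z ξ ⊆ C.Z (h ξ) ∧ S ⊆ C.Z (ξ - C.Dt τ (h ξ) - h (C.Dt τ ξ))

/-- **PARX**: the parametrix with a compact remainder -/
def PARX : Prop := ForC fun n _ _ _ _ _ _ F K₀ C => C.Good n F K₀ .univ →
  (∀ x ∈ K₀, F x = 0 → x ∈ interior K₀) → ∃ P : C.X →L[ℂ] C.X,
    IsCompactOperator (1 - (C.D * P + P * C.D) : C.X →L[ℂ] C.X) ∧ ∀ ξ, C.N (P ξ) = P (C.N ξ) - P ξ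

/-- **HOL**: analytic families of cycles give holomorphic sections -/
def HOL : Prop := ForC fun n p _ _ _ _ L F K₀ C => ∀ s, C.Ok n F K₀ s → ∀ (v : Cm p → C.X) i,
  ∀ x ∈ interior K₀, x ∈ L.U i → AnalyticAt ℂ v (F x) → (∀ᶠ τ in 𝓝 (F x), C.Dt τ (v τ) = 0) →
    Hol n (fun y => C.val (v (F y)) i y) x

/-- **ISO**: base change at regular values -/
def ISO : Prop := ForC fun n _ _ _ _ _ L F K₀ C => C.Good n F K₀ .univ → ∀ τ,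
  (∀ x ∈ K₀, F x = τ → x ∈ interior K₀ ∧ Ind n (fun l y => F y l) x) →
  (∀ ξ ∈ Zc (C.Dt τ) C.N, C.val ξ ∈ FSec n L (K₀ ∩ F ⁻¹' {τ})) ∧
  (∀ ξ ∈ Zc (C.Dt τ) C.N, C.val ξ ∈ Van L (K₀ ∩ F ⁻¹' {τ}) → ξ ∈ Bc (C.Dt τ) C.N) ∧
  ∀ t ∈ FSec n L (K₀ ∩ F ⁻¹' {τ}), ∃ ξ ∈ Zc (C.Dt τ) C.N, t - C.val ξ ∈ Van L (K₀ ∩ F ⁻¹' {τ})

/-- **FAM**: sections give analytic families of cycles -/
def FAM : Prop := ForC fun n p _ _ _ _ L F K₀ C => C.Good n F K₀ .univ → ∀ τ,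
  (∀ x ∈ K₀, F x = τ → x ∈ interior K₀) → ∀ O, IsOpen O → K₀ ∩ F ⁻¹' {τ} ⊆ O → ∀ t,
    SecOn n L O t → ∃ z : Cm p → C.X, AnalyticAt ℂ z τ ∧
      ∀ᶠ σ in 𝓝 τ, z σ ∈ Zc (C.Dt σ) C.N ∧ t - C.val (z σ) ∈ Van L (K₀ ∩ F ⁻¹' {σ})

/-- **CX0**: the Dolbeault complex -/
def CX0 : Prop := ForL fun n V _ _ _ L => ∀ (p : ℕ) (F : V → Cm p) (K₀ : Set V), Dat n F K₀ →
  ∃ C : Cx p L, C.Good n F K₀ ∅

end Vale.Agent.P281Z.Gr
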