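import Vale.Agent.P281Z.Gr.Defs
import Vale.Agent.P299.H954.IX.Loc

/-!
# P281Z, block GR: the Dolbeault complex (definitions, statements)
-/

open scoped Manifold ContDiff Topology Matrix BoundedContinuousFunction
open Set Filter Metric
open Vale.Agent.P272.K Vale.Agent.P285.H281.FD Vale.Agent.P299.IX Vale.Agent.P299.IX.Fock
open Vale.Agent.P277Z (Hol)

noncomputable section

namespace Vale.Agent.P281Z.Gr

/-! ### Flat space: `eps l` stands for `dz̄_l` -/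

/-- the operator `∂̄` -/
def db {n : ℕ} (u : Cm n → Fk n) (z : Cm n) : Fk n := ∑ l, eps l *ᵥ DVb l u z

/-- the degree -/
def Nm (n : ℕ) : FM n := dgl fun p => (p : ℂ)

/-- the homotopy `B` between the identity and the smoothing operator `S` -/
structure Flat {n : ℕ} (δ : ℝ) (B S S₂ : (Cm n →ᵇ Fk n) →L[ℂ] (Cm n →ᵇ Fk n)) : Prop where
  loc : ∀ g z, (∀ y ∈ closedBall z δ, g y = 0) → B g z = 0 ∧ S g z = 0
  eqc : ∀ ε, 0 < ε → ∃ η, 0 < η ∧ ∀ g z z', dist z z' < η →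
    ‖B g z - B g z'‖ ≤ ε * ‖g‖ ∧ ‖S g z - S g z'‖ ≤ ε * ‖g‖
  deg : ∀ g g' : Cm n →ᵇ Fk n, (∀ z, g' z = Nm n *ᵥ g z) →
    ∀ z, Nm n *ᵥ B g z = B g' z - B g z ∧ Nm n *ᵥ S g z = S g' z
  smS : ∀ g, ContDiff ℝ ∞ (S g) ∧ ∀ z, db (S g) z = S₂ g z
  hom : ∀ g g' : Cm n →ᵇ Fk n, ContDiff ℝ ∞ g → HasCompactSupport g → (∀ z, g' z = db g z) →
    ContDiff ℝ ∞ (B g) ∧ ∀ z, db (B g) z + B g' z = g z - S g z ∧ S₂ g z = S g' z

/-- **FLAT** -/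
def FLAT : Prop := ∀ (n : ℕ) (δ : ℝ), 0 < δ → ∃ B S S₂, Flat (n := n) δ B S S₂

/-- **DG**: the Dolbeault lemma -/
def DG : Prop :=
  ∀ (n q : ℕ) (u : Cm n → Fk n) (z : Cm n), 0 < q →
    (∀ᶠ y in 𝓝 z, ContDiffAt ℝ ∞ u y ∧ Nm n *ᵥ u y = (q : ℂ) • u y ∧ db u y = 0) →
    ∃ w : Cm n → Fk n, ∀ᶠ y in 𝓝 z,
      ContDiffAt ℝ ∞ w y ∧ Nm n *ᵥ w y = ((q : ℂ) - 1) • w y ∧ db w y = u y

/-- **CPT**: equicontinuity gives compactness -/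
def CPT : Prop :=
  ∀ (V Y Λ : Type) [TopologicalSpace V] [CompactSpace V] [NormedAddCommGroup Y] [NormedSpace ℂ Y]
    [NormedAddCommGroup Λ] [NormedSpace ℂ Λ] [FiniteDimensional ℂ Λ] (T : Y →L[ℂ] C(V, Λ)),
    (∀ x ε, 0 < ε → ∀ᶠ y in 𝓝 x, ∀ v, ‖T v y - T v x‖ ≤ ε * ‖v‖) → IsCompactOperator T

/-! ### Complexes before the completion -/

/-- a complex `A` of continuous functions -/
structure Pre {V : Type} [TopologicalSpace V] (L : Bd V) (Λ : Type) [NormedAddCommGroup Λ]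
    [NormedSpace ℂ Λ] (A : Type) [AddCommGroup A] [Module ℂ A] where
  j : A →ₗ[ℂ] C(V, Λ)
  d : A →ₗ[ℂ] A
  N : A →ₗ[ℂ] A
  mul : (V → ℂ) → A →ₗ[ℂ] A
  N' : Λ →L[ℂ] Λ
  ev : L.ι → V → Λ →L[ℂ] ℂ

namespace Pre

variable {V : Type} [TopologicalSpace V] [CompactSpace V] {L : Bd V} {Λ : Type}
  [NormedAddCommGroup Λ] [NormedSpace ℂ Λ] {A : Type} [AddCommGroup A] [Module ℂ A]
  (P : Pre L Λ A) (n : ℕ) [ChartedSpace (Cm n) V] (K₀ : Set V)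

/-- the formal properties -/
structure Ok : Prop where
  inj : Function.Injective P.j
  dd : ∀ u, P.d (P.d u) = 0
  dN : ∀ u, P.N (P.d u) = P.d (P.N u) + P.d u
  jN : ∀ u x, P.j (P.N u) x = P.N' (P.j u x)
  low : ∀ q : ℤ, q < 0 → ∀ v, P.N' v = (q : ℂ) • v → v = 0
  supp : ∀ u, ∀ x ∉ K₀, P.j u x = 0
  mulj : ∀ φ, Sm n φ → ∀ u x, P.j (P.mul φ u) x = φ x • P.j u x
  cm : ∀ φ, Sm n φ → ∃ M : ℝ, ∀ u x,
    ‖P.j (P.d (P.mul φ u)) x - φ x • P.j (P.d u) x‖ ≤ M * ‖P.j u x‖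
  cm0 : ∀ φ, Sm n φ → ∀ u x, Hol n φ x → P.j (P.d (P.mul φ u)) x = φ x • P.j (P.d u) x
  chg : ∀ u i i' x, x ∈ L.U i → x ∈ L.U i' →
    P.ev i x (P.j u x) = L.g i i' x * P.ev i' x (P.j u x)
  evd : ∀ u i x, P.ev i x (P.j (P.d u) x) = 0
  evb : ∀ i x, x ∈ L.U i → ∃ M : ℝ, ∀ᶠ y in 𝓝 x, ‖P.ev i y‖ ≤ M
  vac : ∀ i x, x ∈ L.U i → ∃ M : ℝ, ∀ u,
    ‖P.j u x‖ ≤ M * (‖P.N' (P.j u x)‖ + ‖P.ev i x (P.j u x)‖)

/-- the Weyl lemma -/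
def Wey : Prop :=
  ∀ (u : ℕ → A) (a : V → ℂ) i x, x ∈ L.U i → ∀ S ∈ 𝓝 x,
    TendstoUniformlyOn (fun k y => P.ev i y (P.j (u k) y)) a atTop S →
    TendstoUniformlyOn (fun k y => P.j (P.d (u k)) y) (fun _ => 0) atTop S → Hol n a x

/-- sections give elements of degree zero -/
def Lift : Prop :=
  ∀ O, IsOpen O → ∀ t, SecOn n L O t → ∀ φ, Sm n φ → tsupport φ ⊆ O ∩ interior K₀ →
    ∃ u, P.N u = 0 ∧ (∀ i x, x ∈ L.U i → P.ev i x (P.j u x) = φ x * t i x) ∧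
      ∀ x, Hol n φ x → P.j (P.d u) x = 0

/-- local exactness -/
def Dg : Prop :=
  ∀ x ∈ interior K₀, ∀ q : ℕ, 0 < q → ∀ u, P.N u = (q : ℂ) • u →
    (∀ᶠ y in 𝓝 x, P.j (P.d u) y = 0) →
    ∃ w, P.N w = ((q : ℂ) - 1) • w ∧ ∀ᶠ y in 𝓝 x, P.j (P.d w) y = P.j u y

/-- a local homotopy -/
structure Lh (x : V) (W : Set V) (φ : V → ℂ) (H S S₂ R : C(V, Λ) →L[ℂ] C(V, Λ)) : Prop where
  sm : Sm n φ
  one : ∀ᶠ y in 𝓝 x, φ y = 1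
  cH : IsCompactOperator H
  cS : IsCompactOperator S
  cR : IsCompactOperator R
  hom : ∀ u, ∃ a, P.j a = H (P.j u) ∧
    P.j (P.d a) + H (P.j (P.d u)) = P.j (P.mul φ u) - S (P.j u) - R (P.j u)
  smo : ∀ v, ∃ a, P.j a = S v ∧ P.j (P.d a) = S₂ v
  deg : ∀ v v' : C(V, Λ), (∀ y, v' y = P.N' (v y)) →
    ∀ y, P.N' (H v y) = H v' y - H v y ∧ P.N' (S v y) = S v' y
  loc : ∀ v : C(V, Λ), (∀ y ∈ W, v y = 0) → H v = 0 ∧ S v = 0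
  near : ∀ᶠ y in 𝓝 x, (∀ v, R v y = 0) ∧ ∀ u, S₂ (P.j u) y = S (P.j (P.d u)) y

/-- local homotopies exist -/
def LH : Prop := ∀ x ∈ interior K₀, ∀ W ∈ 𝓝 x, ∃ φ H S S₂ R, P.Lh n x W φ H S S₂ R

end Pre

/-- **PRE**: the completion -/
def PRE : Prop := ForL fun n V _ _ _ L => ∀ (p : ℕ) (F : V → Cm p) (K₀ : Set V) (Λ : Type)
  [NormedAddCommGroup Λ] [NormedSpace ℂ Λ] [CompleteSpace Λ] (A : Type) [AddCommGroup A]
  [Module ℂ A] (P : Pre L Λ A), P.Ok n K₀ → P.Wey n → P.Lift n K₀ → P.Dg K₀ → P.LH n K₀ →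
    ∃ C : Cx p L, C.Good n F K₀ ∅

/-! ### Forms on a manifold -/

section man

variable {n : ℕ} {V : Type} [TopologicalSpace V]

/-- frames: a chart and a trivialisation -/
abbrev Fr (n : ℕ) (L : Bd V) : Type := Chart n V × L.ι

/-- the change of frame -/
def Tr (L : Bd V) (a b : Fr n L) (x : V) : FM n := L.g a.2 b.2 x • lam (jacM a.1 b.1 x)ᴴ

variable [ChartedSpace (Cm n) V]

/-- the frame `a` is defined at `x` -/
def Va {L : Bd V} (a : Fr n L) (x : V) : Prop := At a.1 x ∧ x ∈ L.U a.2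

variable (n) in
/-- smooth forms of type `(0, *)` with values in `L` and supports in `K₀` -/
def Af (L : Bd V) (K₀ : Set V) : Submodule ℂ (Fr n L → V → Fk n) where
  carrier := {u | (∀ a x, Va a x → ContDiffAt ℝ ∞ (fun z => u a (a.1.symm z)) (a.1 x)) ∧
    (∀ a b x, Va a x → Va b x → u a x = Tr L a b x *ᵥ u b x) ∧
    ∀ a x, ¬ Va a x ∨ x ∉ K₀ → u a x = 0}
  add_mem' := by
    rintro u v ⟨h1, h2, h3⟩ ⟨k1, k2, k3⟩
    refine ⟨fun a x h => (h1 a x h).add (k1 a x h), fun a b x h h' => ?_, fun a x h => ?_⟩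
    · rw [Pi.add_apply, Pi.add_apply, Pi.add_apply, Pi.add_apply, Matrix.mulVec_add,
        ← h2 a b x h h', ← k2 a b x h h']
    · rw [Pi.add_apply, Pi.add_apply, h3 a x h, k3 a x h, add_zero]
  zero_mem' := ⟨fun _ _ _ => contDiffAt_const, fun _ _ _ _ _ => (Matrix.mulVec_zero _).symm,
    fun _ _ _ => rfl⟩
  smul_mem' := by
    rintro c u ⟨h1, h2, h3⟩
    refine ⟨fun a x h => (h1 a x h).const_smul c, fun a b x h h' => ?_, fun a x h => ?_⟩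
    · rw [Pi.smul_apply, Pi.smul_apply, Pi.smul_apply, Pi.smul_apply, Matrix.mulVec_smul,
        ← h2 a b x h h']
    · rw [Pi.smul_apply, Pi.smul_apply, h3 a x h, smul_zero]

variable (n) in
/-- finitely many frames with a partition of unity -/
structure Atl (L : Bd V) where
  m : ℕ
  f : Fin m → Fr n L
  χ : Fin m → V → ℂ
  ψ : Fin m → V → ℂ
  smχ : ∀ γ, Sm n (χ γ)
  smψ : ∀ γ, Sm n (ψ γ)
  vaχ : ∀ γ, ∀ x ∈ tsupport (χ γ), Va (f γ) x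
  vaψ : ∀ γ, ∀ x ∈ tsupport (ψ γ), Va (f γ) x
  sum : ∀ x, ∑ γ, ψ γ x * χ γ x = 1

/-- `P` is the Dolbeault complex -/
structure Mod {L : Bd V} (T : Atl n L) (K₀ : Set V)
    (P : Pre L (Fin T.m → Fk n) (Af n L K₀)) : Prop where
  j : ∀ u x γ, P.j u x γ = T.χ γ x • u.1 (T.f γ) x
  d : ∀ u a x, Va a x → (P.d u).1 a x = db (fun z => u.1 a (a.1.symm z)) (a.1 x)
  N : ∀ u a x, (P.N u).1 a x = Nm n *ᵥ u.1 a x
  mul : ∀ φ, Sm n φ → ∀ u a x, (P.mul φ u).1 a x = φ x • u.1 a x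
  N' : ∀ v γ, P.N' v γ = Nm n *ᵥ v γ
  ev : ∀ i x v, P.ev i x v = ∑ γ, T.ψ γ x * L.g i (T.f γ).2 x * v γ ∅

end man

/-- a statement on the Dolbeault complex -/
def ForD (Q : ∀ (n : ℕ) (V : Type) [TopologicalSpace V] [CompactSpace V] [ChartedSpace (Cm n) V]
    (L : Bd V) (m : ℕ) (K₀ : Set V), Pre L (Fin m → Fk n) (Af n L K₀) → Prop) : Prop :=
  ForL fun n V _ _ _ L => ∀ (T : Atl n L) (K₀ : Set V) (P : Pre L (Fin T.m → Fk n) (Af n L K₀)),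
    IsCompact K₀ → Mod T K₀ P → Q n V L T.m K₀ P

/-- **GLB**: a form with compact support in a frame -/
def GLB : Prop := ForL fun n V _ _ _ L => ∀ (K₀ K : Set V) (a : Fr n L) (g : Cm n → Fk n),
  IsCompact K → K ⊆ K₀ → (∀ x ∈ K, Va a x) → (∀ x ∈ K, ContDiffAt ℝ ∞ g (a.1 x)) →
  (∀ x, Va a x → x ∉ K → g (a.1 x) = 0) →
    ∃ u : Af n L K₀, (∀ x, Va a x → u.1 a x = g (a.1 x)) ∧ ∀ b, ∀ x ∉ K, u.1 b x = 0

/-- **OPS** -/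
def OPS : Prop := ForL fun n V _ _ _ L => ∀ K₀ : Set V, IsCompact K₀ →
  ∃ (T : Atl n L) (P : Pre L (Fin T.m → Fk n) (Af n L K₀)), Mod T K₀ P

/-- **MOK** -/
def MOK : Prop := ForD fun n _ _ _ _ _ _ K₀ P => P.Ok n K₀

/-- **MWL** -/
def MWL : Prop := ForD fun n _ _ _ _ _ _ K₀ P => P.Wey n ∧ P.Lift n K₀

/-- **MDG** -/
def MDG : Prop := ForD fun _ _ _ _ _ _ _ K₀ P => P.Dg K₀

/-- **MLH** -/
def MLH : Prop := ForD fun n _ _ _ _ _ _ K₀ P => P.LH n K₀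

theorem cx0_of (h1 : PRE) (h2 : OPS) (h3 : MOK) (h4 : MWL) (h5 : MDG) (h6 : MLH) : CX0 := by
  intro n V _ _ _ _ _ L hL p F K₀ hD
  obtain ⟨T, P, hP⟩ := h2 n V L hL K₀ hD.cpt
  exact h1 n V L hL p F K₀ _ _ P (h3 n V L hL T K₀ P hD.cpt hP) (h4 n V L hL T K₀ P hD.cpt hP).1
    (h4 n V L hL T K₀ P hD.cpt hP).2 (h5 n V L hL T K₀ P hD.cpt hP) (h6 n V L hL T K₀ P hD.cpt hP)

end Vale.Agent.P281Z.Gr
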