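import Vale.Agent.P281Z.Gr.Defs2
import Mathlib.Analysis.Calculus.ContDiff.Convolution
import Mathlib.MeasureTheory.Function.LpSpace.ContinuousCompMeasurePreserving

/-!
# P281Z, block GR: convolution operators on bounded continuous functions
-/

set_option linter.unusedSectionVars false

open scoped ContDiff Topology BoundedContinuousFunction Convolution
open Set Filter Metric MeasureTheory
open Vale.Agent.P272.K

noncomputable section

namespace Vale.Agent.P281Z.Gr.Fl

variable {n : ℕ} {F F' : Type} [NormedAddCommGroup F] [NormedSpace ℂ F] [CompleteSpace F]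
  [NormedAddCommGroup F'] [NormedSpace ℂ F'] [CompleteSpace F'] {k : Cm n → ℂ}

/-- the convolution -/
def cv (k : Cm n → ℂ) (g : Cm n → F) (z : Cm n) : F := ∫ w, k w • g (z - w)

theorem int_bc {α : Type} [TopologicalSpace α] [MeasurableSpace α] [OpensMeasurableSpace α]
    [SecondCountableTopology α] {μ : Measure α} {k : α → ℂ} (hk : Integrable k μ)
    (g : Cm n →ᵇ F) {a : α → Cm n} (ha : Continuous a) : Integrable (fun w => k w • g (a w)) μ :=
  (hk.norm.mul_const ‖g‖).mono' (hk.1.smul (g.continuous.comp ha).aestronglyMeasurable)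
    (.of_forall fun w => by
      rw [norm_smul]
      exact mul_le_mul_of_nonneg_left (g.norm_coe_le_norm _) (norm_nonneg _))

theorem norm_int_le (hk : Integrable k) (g : Cm n →ᵇ F) (a : Cm n → Cm n) :
    ‖∫ w, k w • g (a w)‖ ≤ (∫ w, ‖k w‖) * ‖g‖ := by
  rw [← integral_mul_const]
  refine norm_integral_le_of_norm_le (hk.norm.mul_const _) (.of_forall fun w => ?_)
  rw [norm_smul]
  exact mul_le_mul_of_nonneg_left (g.norm_coe_le_norm _) (norm_nonneg _)

/-- translations are continuous in `L¹` -/
theorem tr_cont (hk : Integrable k) : Continuous fun h : Cm n => ∫ w, ‖k w - k (w + h)‖ := by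
  let c : C(Cm n, C(Cm n, Cm n)) := ContinuousMap.curry ⟨fun p => p.2 + p.1, by fun_prop⟩
  have hm : ∀ h, MeasurePreserving (c h) volume volume := measurePreserving_add_right volume
  have h1 := (continuous_const (y := hk.toL1 k)).compMeasurePreservingLp c.continuous hm
    ENNReal.one_ne_top
  refine ((continuous_const (y := hk.toL1 k)).sub h1).norm.congr fun h => ?_
  rw [L1.norm_eq_integral_norm]
  refine integral_congr_ae ?_
  filter_upwards [Lp.coeFn_sub (hk.toL1 k) (Lp.compMeasurePreserving _ (hm h) (hk.toL1 k)),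
    Lp.coeFn_compMeasurePreserving (hk.toL1 k) (hm h), hk.coeFn_toL1,
    (hm h).quasiMeasurePreserving.ae_eq_comp hk.coeFn_toL1] with w a b c d
  rw [Pi.sub_apply, b, c, d] at a
  exact congrArg norm a

theorem cv_eqc (hk : Integrable k) {ε : ℝ} (hε : 0 < ε) :
    ∀ᶠ η in 𝓝[>] (0 : ℝ), ∀ (g : Cm n →ᵇ F) z z', dist z z' < η →
      ‖cv k g z - cv k g z'‖ ≤ ε * ‖g‖ := by
  obtain ⟨η, h1, h2⟩ := Metric.continuousAt_iff.1 ((tr_cont hk).continuousAt (x := 0)) ε hε
  filter_upwards [Ioo_mem_nhdsGT h1] with η' h3 g z z' h4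
  have h5 := h2 (x := z' - z) (by rw [dist_zero_right, ← dist_eq_norm, dist_comm]; exact h4.trans h3.2)
  have h6 : cv k g z' = ∫ w, k (w + (z' - z)) • g (z - w) := by
    rw [cv, ← integral_add_right_eq_self _ (z' - z)]
    congr 1
    funext w
    congr 2
    abel
  have h7 := hk.comp_add_right (z' - z)
  rw [h6, cv, ← integral_sub (int_bc hk g (by fun_prop)) (int_bc h7 g (by fun_prop))]
  simp only [← sub_smul]
  refine (norm_int_le (hk.sub h7) g _).trans (mul_le_mul_of_nonneg_right ?_ (norm_nonneg _))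
  simpa using (le_abs_self _).trans h5.le

/-- the convolution operator -/
def cvL (hk : Integrable k) : (Cm n →ᵇ F) →L[ℂ] (Cm n →ᵇ F) :=
  LinearMap.mkContinuous
    { toFun := fun g => BoundedContinuousFunction.ofNormedAddCommGroup (cv k g)
        (Metric.continuous_iff.2 fun z ε hε => by
          obtain ⟨η, h1, h2⟩ := ((cv_eqc (F := F) hk (div_pos hε (by positivity :
            0 < ‖g‖ + 1))).and self_mem_nhdsWithin).exists
          refine ⟨η, h2, fun z' a => ?_⟩
          rw [dist_eq_norm]
          refine (h1 g z' z a).trans_lt ?_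
          rw [div_mul_eq_mul_div, div_lt_iff₀ (by positivity)]
          exact mul_lt_mul_of_pos_left (lt_add_one _) hε)
        ((∫ w, ‖k w‖) * ‖g‖) fun _ => norm_int_le hk g _
      map_add' := fun g g' => BoundedContinuousFunction.ext fun z => by
        show ∫ w, k w • (g (z - w) + g' (z - w)) = cv k g z + cv k g' z
        simp only [smul_add]
        exact integral_add (int_bc hk g (by fun_prop)) (int_bc hk g' (by fun_prop))
      map_smul' := fun c g => BoundedContinuousFunction.ext fun z => by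
        show ∫ w, k w • (c • g (z - w)) = c • cv k g z
        simp only [cv, smul_comm _ c, integral_smul] }
    (∫ w, ‖k w‖) fun g => BoundedContinuousFunction.norm_ofNormedAddCommGroup_le _
      (mul_nonneg (integral_nonneg fun _ => norm_nonneg _) (norm_nonneg _)) fun _ =>
        norm_int_le hk g _

theorem cvL_coe (hk : Integrable k) (g : Cm n →ᵇ F) : ⇑(cvL hk g) = cv k g := rfl

theorem cv_map (hk : Integrable k) (A : F →L[ℂ] F') (g : Cm n →ᵇ F) (z : Cm n) :
    A (cv k g z) = cv k (fun y => A (g y)) z := by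
  rw [cv, ← A.integral_comp_comm (int_bc hk g (by fun_prop))]
  simp only [map_smul, cv]

theorem cv_loc {δ : ℝ} (h0 : ∀ w ∉ closedBall (0 : Cm n) δ, k w = 0) {g : Cm n → F} {z : Cm n}
    (hg : ∀ y ∈ closedBall z δ, g y = 0) : cv k g z = 0 := by
  refine integral_eq_zero_of_ae (.of_forall fun w => ?_)
  by_cases h : w ∈ closedBall (0 : Cm n) δ
  · simp only [hg (z - w) (by simpa [dist_eq_norm] using h), smul_zero, Pi.zero_apply]
  · simp only [h0 w h, zero_smul, Pi.zero_apply]

theorem cv_eq (g : Cm n → F) : cv k g = k ⋆[ContinuousLinearMap.lsmul ℝ ℂ, volume] g := rfl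

theorem fderiv_conv {E E' : Type} [NormedAddCommGroup E] [NormedSpace ℝ E] [NormedAddCommGroup E']
    [NormedSpace ℝ E'] (L : E →L[ℝ] E' →L[ℝ] F) {f : Cm n → E} {g : Cm n → E'}
    (hf : LocallyIntegrable f) (hg : ContDiff ℝ 1 g) (hc : HasCompactSupport g) (z v : Cm n) :
    fderiv ℝ (f ⋆[L, volume] g) z v = (f ⋆[L, volume] fun y => fderiv ℝ g y v) z := by
  rw [(hc.hasFDerivAt_convolution_right L hf hg z).fderiv,
    convolution_precompR_apply L hf (hc.fderiv ℝ) (hg.continuous_fderiv one_ne_zero)]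

theorem cv_right (hk : Integrable k) {g : Cm n → F} (hg : ContDiff ℝ ∞ g)
    (hc : HasCompactSupport g) : ContDiff ℝ ∞ (cv k g) ∧
      ∀ z v, fderiv ℝ (cv k g) z v = cv k (fun y => fderiv ℝ g y v) z :=
  ⟨cv_eq (k := k) g ▸ hc.contDiff_convolution_right _ hk.locallyIntegrable hg,
    fderiv_conv (.lsmul ℝ ℂ) hk.locallyIntegrable (hg.of_le (by norm_cast)) hc⟩

theorem cv_left (hk : ContDiff ℝ ∞ k) (hc : HasCompactSupport k) {g : Cm n → F}
    (hg : Continuous g) : ContDiff ℝ ∞ (cv k g) ∧
      ∀ z v, fderiv ℝ (cv k g) z v = cv (fun y => fderiv ℝ k y v) g z := by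
  refine ⟨cv_eq (k := k) g ▸ hc.contDiff_convolution_left _ hk hg.locallyIntegrable,
    fun z v => ?_⟩
  rw [cv_eq, cv_eq, ← convolution_flip, ← convolution_flip (g := g)]
  exact fderiv_conv _ hg.locallyIntegrable (hk.of_le (by norm_cast)) hc z v

/-- the average of the dilatations of a kernel -/
theorem exists_ker {δ : ℝ} (hk : Continuous k) (hi : Integrable k)
    (h0 : ∀ w ∉ closedBall (0 : Cm n) δ, k w = 0) :
    ∃ K : Cm n → ℂ, Integrable K ∧ (∀ w ∉ closedBall (0 : Cm n) δ, K w = 0) ∧
      ∀ (g : Cm n →ᵇ F) z, cv K g z = ∫ s in Ioc (0 : ℝ) 1, ∫ w, k w • g (z - s • w) := by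
  let d := Module.finrank ℝ (Cm n)
  let G : ℝ × Cm n → ℂ := fun p => (p.1 ^ d)⁻¹ • k (p.1⁻¹ • p.2)
  have h1 : Measurable G := (measurable_fst.pow_const d).inv.smul
    (hk.measurable.comp (measurable_fst.inv.smul measurable_snd))
  have h2 : ∀ s ∈ Ioc (0 : ℝ) 1, (s ^ d)⁻¹ * |s ^ d| = 1 := fun s a => by
    rw [abs_of_pos (pow_pos a.1 d), inv_mul_cancel₀ (pow_pos a.1 d).ne']
  have h3 : Integrable G ((volume.restrict (Ioc (0 : ℝ) 1)).prod volume) := by
    refine (integrable_prod_iff h1.aestronglyMeasurable).2 ⟨?_, ?_⟩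
    · filter_upwards [ae_restrict_mem measurableSet_Ioc] with s a
      exact (hi.comp_smul (inv_ne_zero a.1.ne')).smul (s ^ d)⁻¹
    · refine (integrable_const (∫ w, ‖k w‖)).congr ?_
      filter_upwards [ae_restrict_mem measurableSet_Ioc] with s a
      simp only [G, norm_smul, integral_const_mul]
      rw [Measure.integral_comp_inv_smul volume (fun w => ‖k w‖), smul_eq_mul, ← mul_assoc,
        Real.norm_of_nonneg (inv_pos.2 (pow_pos a.1 d)).le, h2 s a, one_mul]
  refine ⟨fun y => ∫ s in Ioc (0 : ℝ) 1, G (s, y), h3.integral_prod_right, fun y hy => ?_,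
    fun g z => ?_⟩
  · refine setIntegral_eq_zero_of_forall_eq_zero fun s a => ?_
    refine smul_eq_zero_of_right _ (h0 _ fun b => hy ?_)
    rw [mem_closedBall_zero_iff] at b ⊢
    rw [norm_smul, Real.norm_of_nonneg (inv_pos.2 a.1).le] at b
    exact (le_mul_of_one_le_left (norm_nonneg _) (one_le_inv₀ a.1 |>.2 a.2)).trans b
  · have h4 := int_bc h3 g (a := fun p => z - p.2) (by fun_prop)
    simp only [cv, ← integral_smul_const]
    rw [← integral_integral_swap (f := fun s y => G (s, y) • g (z - y)) h4]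
    refine setIntegral_congr_fun measurableSet_Ioc fun s a => ?_
    have h5 := Measure.integral_comp_inv_smul volume (fun w => k w • g (z - s • w)) s
    simp only [smul_inv_smul₀ a.1.ne'] at h5
    simp only [G, smul_assoc, integral_smul]
    rw [h5, smul_smul, h2 s a, one_smul]

/-- rotations preserve the volume -/
theorem int_rot {E : Type} [NormedAddCommGroup E] [NormedSpace ℝ E] {u : ℂ} (hu : ‖u‖ = 1)
    (f : Cm n → E) : ∫ w, f (u • w) = ∫ w, f w := by
  have h : MeasurePreserving (fun w : Cm n => u • w) :=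
    volume_preserving_pi fun _ => (rotation ⟨u, mem_sphere_zero_iff_norm.2 hu⟩).measurePreserving
  exact h.integral_comp (Homeomorph.smulOfNeZero u (by
    rintro rfl
    simp at hu)).measurableEmbedding f

theorem int_prod {f : ℝ × Cm n → F} (hf : Continuous f) {K : Set (Cm n)} (hK : IsCompact K)
    (h0 : ∀ p : ℝ × Cm n, p.2 ∉ K → f p = 0) :
    Integrable f ((volume.restrict (Ioc (0 : ℝ) 1)).prod volume) := by
  rw [Measure.restrict_prod_eq_prod_univ]
  exact (hf.continuousOn.integrableOn_compact ((isCompact_Icc (a := 0) (b := 1)).prod hK)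
    ).of_forall_sdiff_eq_zero (measurableSet_Ioc.prod MeasurableSet.univ) fun p a =>
      h0 p fun b => a.2 ⟨Ioc_subset_Icc_self a.1.1, b⟩

/-- integration along a path of dilatations -/
theorem path (hk : Continuous k) (hc : HasCompactSupport k) {g : Cm n → F} (hg : ContDiff ℝ 1 g)
    {t t' : ℝ → ℂ} (ht : ∀ s, HasDerivAt t (t' s) s) (ht' : Continuous t') (z : Cm n) :
    ∫ w, k w • (g (z - t 0 • w) - g (z - t 1 • w)) =
      ∫ s in Ioc (0 : ℝ) 1, ∫ w, k w • fderiv ℝ g (z - t s • w) (t' s • w) := by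
  have h1 : Continuous t := continuous_iff_continuousAt.2 fun s => (ht s).continuousAt
  have h2 := hg.continuous_fderiv one_ne_zero
  have h3 : Continuous fun p : ℝ × Cm n => fderiv ℝ g (z - t p.1 • p.2) (t' p.1 • p.2) := by
    fun_prop
  rw [integral_integral_swap (int_prod ((hk.comp continuous_snd).smul h3) hc fun p a =>
    smul_eq_zero_of_left (image_eq_zero_of_notMem_tsupport a) _)]
  congr 1
  funext w
  rw [integral_smul, ← intervalIntegral.integral_of_le zero_le_one,
    intervalIntegral.integral_eq_sub_of_hasDerivAt (f := fun s => -g (z - t s • w))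
      (fun s _ => ?_) (Continuous.intervalIntegrable (by fun_prop) _ _)]
  · congr 1
    abel
  · have h4 := ((hg.differentiable one_ne_zero _).hasFDerivAt.comp_hasDerivAt s
      (((ht s).smul_const w).const_sub z)).neg
    rwa [map_neg, neg_neg] at h4

end Vale.Agent.P281Z.Gr.Fl
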