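import Vale.Agent.P281Z.Gr.Defs
import Vale.Agent.P267.H285.Riesz

/-!
# P281Z, block GR: Riesz theory and the perturbation lemma
-/

open scoped Topology Matrix
open Set Filter Metric
open Vale.Agent.P272.K

noncomputable section

namespace Vale.Agent.P281Z.Gr

namespace Hp

section ring

variable {R : Type} [Ring R] {D E N P Q S h U : R}

/-- a contraction -/
structure Ctr (D N Q h : R) : Prop where
  dd : D * D = 0
  hom : D * h + h * D = 1 - Q
  hq : h * Q = 0
  qh : Q * h = 0
  hh : h * h = 0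
  qq : Q * Q = Q
  dq : D * Q = Q * D
  nq : N * Q = Q * N
  nh : N * h = h * N - h

theorem exists_ctr (dd : D * D = 0) (nd : N * D = D * N + D) (np : N * P = P * N - P)
    (qq : Q * Q = Q) (st : S * (D * P + P * D) = 1 - Q) (qs : Q * S = 0) (dq : D * Q = Q * D)
    (ds : D * S = S * D) (nq : N * Q = Q * N) (ns : N * S = S * N) : ∃ h, Ctr D N Q h := by
  obtain ⟨k, a, b, c, d⟩ : ∃ k : R, D * k + k * D = 1 - Q ∧ k * Q = 0 ∧ Q * k = 0 ∧
      N * k = k * N - k := by
    refine ⟨S * P * (1 - Q), ?_, ?_, ?_, ?_⟩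
    · linear_combination (norm := noncomm_ring) st * (1 - Q) + ds * P * (1 - Q) + S * P * dq + qq
    · linear_combination (norm := noncomm_ring) -(S * P * qq)
    · linear_combination (norm := noncomm_ring) qs * P * (1 - Q)
    · linear_combination (norm := noncomm_ring) ns * P * (1 - Q) + S * np * (1 - Q) - S * P * nq
  have e1 : D * k * D = D - Q * D := by
    linear_combination (norm := noncomm_ring) a * D - k * dd
  have e2 : D * (k * D * k) = D * k := by
    linear_combination (norm := noncomm_ring) e1 * k + dq * k - D * c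
  have e3 : k * D * k * D = k * D := by
    linear_combination (norm := noncomm_ring) k * e1 - b * D
  have e4 : D * k * k = k * k * D := by
    linear_combination (norm := noncomm_ring) a * k - k * a - c + b
  refine ⟨k * D * k, dd, ?_, ?_, ?_, ?_, qq, dq, nq, ?_⟩
  · rw [e2, e3, a]
  · rw [mul_assoc, b, mul_zero]
  · linear_combination (norm := noncomm_ring) c * D * k
  · linear_combination (norm := noncomm_ring) k * e4 * D * k + k * k * k * dd * k
  · linear_combination (norm := noncomm_ring) d * D * k + k * nd * k + k * D * d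

/-- the perturbed data -/
structure Prt (D' N Q i q δ h' : R) : Prop where
  di : D' * i = i * δ
  qd : δ * q = q * D'
  qi : q * i = Q
  hom : D' * h' + h' * D' = 1 - i * q
  qδ : Q * δ = δ
  qq : Q * q = q
  δδ : δ * δ = 0
  ni : N * i = i * N
  nq : N * q = q * N
  nδ : N * δ = δ * N + δ
  nh : N * h' = h' * N - h'

theorem Ctr.prt (c : Ctr D N Q h) (nd : N * D = D * N + D) (sq : (D + E) * (D + E) = 0)
    (ne : N * (D + E) = (D + E) * N + (D + E)) (u1 : U * (1 + h * E) = 1)
    (u2 : (1 + h * E) * U = 1) :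
    Prt (D + E) N Q (U * Q) (Q * (1 - E * U * h)) (Q * (D + E) * U * Q) (U * h) := by
  obtain ⟨dd, a, hq, qh, hh, qq, dq, nq, nh⟩ := c
  have ne' : N * E = E * N + E := by linear_combination (norm := noncomm_ring) ne - nd
  have nu : N * U = U * N := by
    linear_combination (norm := noncomm_ring) -(u1 * N * U) + U * N * u2 - U * nh * E * U -
      U * h * ne' * U
  have qu : Q * U = Q := by linear_combination (norm := noncomm_ring) Q * u2 - qh * E * U
  have hu : h * U = h := by linear_combination (norm := noncomm_ring) h * u2 - hh * E * U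
  have e1 : D * h * (D + E) * U * Q = 0 := by
    linear_combination (norm := noncomm_ring) D * a * U * Q + D * u2 * Q - D * qu * Q -
      dd * h * U * Q - D * qq
  have di : (D + E) * (U * Q) = U * Q * (Q * (D + E) * U * Q) := by
    linear_combination (norm := noncomm_ring) -(u1 * (D + E) * U * Q) + U * e1 +
      U * h * sq * U * Q - U * a * (D + E) * U * Q - U * qq * (D + E) * U * Q
  have hom : (D + E) * (U * h) + U * h * (D + E) = 1 - U * Q * (Q * (1 - E * U * h)) := by
    have v : (1 + E * h) * (1 - E * U * h) = 1 := by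
      linear_combination (norm := noncomm_ring) -(E * u2 * h)
    have w : h * (1 - E * U * h) = U * h := by
      linear_combination (norm := noncomm_ring) -(u2 * h)
    have z : (1 + h * E) * (D + E) * h + h * (D + E) * (1 + E * h) =
        (1 + h * E) * (1 + E * h) - Q := by
      linear_combination (norm := noncomm_ring) a + h * sq * h - h * dd * h
    linear_combination (norm := noncomm_ring) U * z * (1 - E * U * h) -
      u1 * (D + E) * h * (1 - E * U * h) - (D + E) * w - U * h * (D + E) * v +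
      u1 * (1 + E * h) * (1 - E * U * h) + v + U * qq * (1 - E * U * h)
  have qi : Q * (1 - E * U * h) * (U * Q) = Q := by
    linear_combination (norm := noncomm_ring) qu * Q + qq - Q * E * U * hu * Q - Q * E * U * hq
  have δδ : Q * (D + E) * U * Q * (Q * (D + E) * U * Q) = 0 := by
    linear_combination (norm := noncomm_ring) Q * sq * U * Q - Q * (D + E) * di
  refine ⟨di, ?_, qi, hom, ?_, ?_, δδ, ?_, ?_, ?_, ?_⟩
  · have e2 : Q * (D + E) * U * h = Q * E * U * h := by
      linear_combination (norm := noncomm_ring) -(dq * U * h) + D * qu * h + D * qh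
    linear_combination (norm := noncomm_ring) Q * (D + E) * hom - Q * sq * U * h - e2 * (D + E)
  · linear_combination (norm := noncomm_ring) qq * (D + E) * U * Q
  · linear_combination (norm := noncomm_ring) qq * (1 - E * U * h)
  · linear_combination (norm := noncomm_ring) nu * Q + U * nq
  · linear_combination (norm := noncomm_ring) nq * (1 - E * U * h) - Q * ne' * U * h -
      Q * E * nu * h - Q * E * U * nh
  · linear_combination (norm := noncomm_ring) nq * (D + E) * U * Q + Q * ne * U * Q +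
      Q * (D + E) * nu * Q + Q * (D + E) * U * nq
  · linear_combination (norm := noncomm_ring) nu * h + U * nh

end ring

variable {X : Type} [NormedAddCommGroup X] [NormedSpace ℂ X]

/-- coordinates on a subspace of finite dimension -/
theorem coords (W : Submodule ℂ X) [FiniteDimensional ℂ W] :
    ∃ (a : ℕ) (ι : (Fin a → ℂ) →L[ℂ] X) (r : X →L[ℂ] (Fin a → ℂ)), (∀ k, ι k ∈ W) ∧
      (∀ k, r (ι k) = k) ∧ ∀ ξ ∈ W, ι (r ξ) = ξ := by
  obtain ⟨f, hf⟩ := Submodule.ClosedComplemented.of_finiteDimensional W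
  let e : W ≃L[ℂ] (Fin (Module.finrank ℂ W) → ℂ) := ContinuousLinearEquiv.ofFinrankEq (by simp)
  refine ⟨_, W.subtypeL ∘L e.symm.toContinuousLinearMap, e.toContinuousLinearMap ∘L f,
    fun k => (e.symm k).2, fun k => ?_, fun ξ hξ => ?_⟩
  · exact (congrArg e (hf (e.symm k))).trans (e.apply_symm_apply k)
  · exact congrArg Subtype.val ((e.symm_apply_apply _).trans (hf ⟨ξ, hξ⟩))

/-- the matrix of an operator -/
def mat {a b : ℕ} (r : X →L[ℂ] (Fin b → ℂ)) (T : X →L[ℂ] X) (ι : (Fin a → ℂ) →L[ℂ] X) :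
    Matrix (Fin b) (Fin a) ℂ := LinearMap.toMatrix' (r ∘L T ∘L ι).toLinearMap

theorem mat_mulVec {a b : ℕ} (r : X →L[ℂ] (Fin b → ℂ)) (T : X →L[ℂ] X) (ι : (Fin a → ℂ) →L[ℂ] X)
    (k : Fin a → ℂ) : mat r T ι *ᵥ k = r (T (ι k)) := LinearMap.toMatrix'_mulVec _ k

theorem an_mat {p a b : ℕ} (r : X →L[ℂ] (Fin b → ℂ)) {T : Cm p → X →L[ℂ] X}
    (ι : (Fin a → ℂ) →L[ℂ] X) {τ : Cm p} (h : AnalyticAt ℂ T τ) (j : Fin b) (k : Fin a) :
    AnalyticAt ℂ (fun τ => mat r (T τ) ι j k) τ := by
  simp only [mat, LinearMap.toMatrix'_apply]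
  exact ((ContinuousLinearMap.proj j ∘L r ∘L
    ContinuousLinearMap.apply ℂ X (ι (Pi.single k 1))).analyticAt _).comp h

end Hp

open Hp in
theorem hpl : HPL := by
  intro p X _ _ _ D N P E hF hK hP
  have sq : ∀ τ, (D + E τ) * (D + E τ) = 0 := fun τ => ContinuousLinearMap.ext (hF.sq τ)
  have ne : ∀ τ, N * (D + E τ) = (D + E τ) * N + (D + E τ) := fun τ =>
    ContinuousLinearMap.ext (hF.deg τ)
  have dd : D * D = 0 := by simpa using sq 0
  have nd : N * D = D * N + D := by simpa using ne 0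
  have np : N * P = P * N - P := ContinuousLinearMap.ext hP
  obtain ⟨n, Q, S, hR, hfd⟩ := P267.H285.exists_riesz _ hK
  rw [sub_sub_cancel] at hR
  have hD : D * (D * P + P * D) = (D * P + P * D) * D := by
    linear_combination (norm := noncomm_ring) dd * P - P * dd
  have hN : N * (D * P + P * D) = (D * P + P * D) * N := by
    linear_combination (norm := noncomm_ring) nd * P + D * np + np * D + P * nd
  obtain ⟨h, c⟩ := exists_ctr (Q := Q) (S := S) dd nd np (ContinuousLinearMap.ext hR.idem)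
    (ContinuousLinearMap.ext hR.ST) (ContinuousLinearMap.ext hR.PiS)
    (ContinuousLinearMap.ext (hR.intertwine_Pi hR (L := D) (DFunLike.congr_fun hD)))
    (ContinuousLinearMap.ext (hR.intertwine_S hR (L := D) (DFunLike.congr_fun hD)))
    (ContinuousLinearMap.ext (hR.intertwine_Pi hR (L := N) (DFunLike.congr_fun hN)))
    (ContinuousLinearMap.ext (hR.intertwine_S hR (L := N) (DFunLike.congr_fun hN)))
  have hE : ∀ τ, AnalyticAt ℂ (fun τ => E τ) τ := E.analyticAt
  have h1 : ∀ τ, AnalyticAt ℂ (fun τ => 1 + h * E τ) τ := fun τ =>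
    analyticAt_const.add (analyticAt_const.mul (hE τ))
  obtain ⟨ε, hε, hb⟩ := Metric.eventually_nhds_iff_ball.1 ((h1 0).continuousAt.eventually
    (Units.isOpen.mem_nhds (show IsUnit (1 + h * E 0) by simp)))
  set U : Cm p → X →L[ℂ] X := fun τ => Ring.inverse (1 + h * E τ)
  have hU : ∀ τ ∈ ball (0 : Cm p) ε, AnalyticAt ℂ U τ := fun τ hτ =>
    (analyticOnNhd_inverse _ (hb τ hτ)).comp (f := fun τ => 1 + h * E τ) (h1 τ)
  have hδ : ∀ τ ∈ ball (0 : Cm p) ε, AnalyticAt ℂ (fun τ => Q * (D + E τ) * U τ * Q) τ :=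
    fun τ hτ => ((analyticAt_const.mul (analyticAt_const.add (hE τ))).mul (hU τ hτ)).mul
      analyticAt_const
  have hp := fun τ (hτ : τ ∈ ball (0 : Cm p) ε) => c.prt (U := U τ) nd (sq τ) (ne τ)
    (Ring.inverse_mul_cancel _ (hb τ hτ)) (Ring.mul_inverse_cancel _ (hb τ hτ))
  obtain ⟨a, ι₀, r₀, m₀, l₀, s₀⟩ := coords (LinearMap.range Q.toLinearMap ⊓ LinearMap.ker N.toLinearMap)
  obtain ⟨a', ι₁, r₁, m₁, -, s₁⟩ :=
    coords (LinearMap.range Q.toLinearMap ⊓ LinearMap.ker (N + 1 : X →L[ℂ] X).toLinearMap)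
  obtain ⟨b, ι, r, -, -, s⟩ := coords (LinearMap.range Q.toLinearMap)
  have n₀ : ∀ k, N (ι₀ k) = 0 := fun k => (m₀ k).2
  have n₁ : ∀ k, N (ι₁ k) = -ι₁ k := fun k => eq_neg_of_add_eq_zero_left (m₁ k).2
  have q₀ : ∀ k, Q (ι₀ k) = ι₀ k := fun k => by
    obtain ⟨x, hx⟩ := (m₀ k).1
    rw [← hx]
    exact hR.idem x
  refine ⟨ε, a, a', b, fun τ => (U τ * Q) ∘L ι₀, fun τ => r₀ ∘L (Q * (1 - E τ * U τ * h)),
    fun τ => mat r₀ (Q * (D + E τ) * U τ * Q) ι₁, fun τ => mat r (Q * (D + E τ) * U τ * Q) ι₀,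
    hε, fun τ hτ => (((ContinuousLinearMap.compL ℂ _ X X).flip ι₀).analyticAt _).comp
      ((hU τ hτ).mul analyticAt_const),
    fun τ hτ => ((ContinuousLinearMap.compL ℂ X X _ r₀).analyticAt _).comp (analyticAt_const.mul
      (analyticAt_const.sub (((hE τ).mul (hU τ hτ)).mul analyticAt_const))),
    fun j k τ hτ => an_mat r₀ ι₁ (hδ τ hτ) j k, fun j k τ hτ => an_mat r ι₀ (hδ τ hτ) j k,
    ?_, ?_, ?_, ?_⟩
  all_goals
    intro τ hτ
    have H := hp τ hτ
    generalize Q * (D + E τ) * U τ * Q = δ at H ⊢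
    generalize Q * (1 - E τ * U τ * h) = q at H ⊢
    generalize U τ * Q = i at H ⊢
    generalize U τ * h = h' at H ⊢
    generalize D + E τ = D' at H ⊢
    have di : ∀ x, D' (i x) = i (δ x) := DFunLike.congr_fun H.di
    have qd : ∀ x, δ (q x) = q (D' x) := DFunLike.congr_fun H.qd
    have ni : ∀ x, N (i x) = i (N x) := DFunLike.congr_fun H.ni
    have nq : ∀ x, N (q x) = q (N x) := DFunLike.congr_fun H.nq
    have mδ : ∀ x, δ x ∈ LinearMap.range Q.toLinearMap := fun x => ⟨_, DFunLike.congr_fun H.qδ x⟩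
    have mq : ∀ x, q x ∈ LinearMap.range Q.toLinearMap := fun x => ⟨_, DFunLike.congr_fun H.qq x⟩
    have t₁ : ∀ k, ι₀ (r₀ (δ (ι₁ k))) = δ (ι₁ k) := fun k => s₀ _ ⟨mδ _,
      (DFunLike.congr_fun H.nδ _).trans (show δ (N _) + δ _ = 0 by rw [n₁, map_neg, neg_add_cancel])⟩
  · refine Matrix.ext_iff_mulVec.2 fun k => ?_
    rw [← Matrix.mulVec_mulVec, mat_mulVec, mat_mulVec, t₁, Matrix.zero_mulVec]
    exact (congrArg r (DFunLike.congr_fun H.δδ _)).trans (map_zero r)
  · intro k hk
    rw [mat_mulVec] at hk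
    refine ⟨(ni (ι₀ k)).trans ?_, (di (ι₀ k)).trans ?_⟩
    · rw [n₀, map_zero]
    · rw [← s _ (mδ _), hk, map_zero, map_zero]
  · intro ξ hξ
    have h2 : ι₀ (r₀ (q ξ)) = q ξ := s₀ _ ⟨mq _, (nq _).trans (by rw [hξ.1, map_zero])⟩
    refine ⟨(mat_mulVec _ _ _ _).trans ?_, h' ξ, ?_, ?_⟩
    · exact (congrArg (fun x => r (δ x)) h2).trans (by rw [qd, hξ.2, map_zero, map_zero])
    · exact (DFunLike.congr_fun H.nh ξ).trans
        (show h' (N ξ) - h' ξ = _ by rw [hξ.1, map_zero, zero_sub])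
    · have h3 : D' (h' ξ) + h' (D' ξ) = ξ - i (q ξ) := DFunLike.congr_fun H.hom ξ
      rw [hξ.2, map_zero, add_zero] at h3
      exact (congrArg (fun x => ξ - i x) h2).trans h3.symm
  · refine fun k => ⟨fun ⟨η, h2, h3⟩ => ⟨r₁ (q η), ?_⟩, fun ⟨k', hk⟩ => ⟨i (ι₁ k'), ?_, ?_⟩⟩
    · have h4 : q (i (ι₀ k)) = Q (ι₀ k) := DFunLike.congr_fun H.qi _
      rw [mat_mulVec, s₁ _ ⟨mq _, show N _ + q η = 0 by rw [nq, h2, map_neg, neg_add_cancel]⟩, qd,
        ← h3]
      exact ((congrArg r₀ (h4.trans (q₀ k))).trans (l₀ k)).symm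
    · rw [ni, n₁, map_neg]
    · rw [di, ← t₁, ← mat_mulVec, ← hk]
      rfl

end Vale.Agent.P281Z.Gr
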