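import Vale.Agent.P281Z.Gr.MlhA

/-!
# P281Z, block GR: local homotopies for the Dolbeault complex
-/

open scoped Manifold ContDiff Topology Matrix BoundedContinuousFunction
open Set Filter Metric
open Vale.Agent.P272.K Vale.Agent.P285.H281.FD Vale.Agent.P299.IX Vale.Agent.P299.IX.Fock
open Vale.Agent.P277Z.Slc (at_chartAt tendsto_symm)

set_option linter.unusedSectionVars false

noncomputable section

namespace Vale.Agent.P281Z.Gr

namespace Mlh

variable {n : ℕ} {V : Type} [TopologicalSpace V] [T2Space V] [CompactSpace V]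
  [ChartedSpace (Cm n) V] [IsManifold 𝓘(ℂ, Cm n) ω V] {L : Bd V} {a : Fr n L} {T : Atl n L}
  {K₀ : Set V} {P : Pre L (Fin T.m → Fk n) (Af n L K₀)} {c : Cm n} {r : ℝ}

theorem exists_loc (hL : IsLB n L) (T : Atl n L)
    (h : ∀ z ∈ closedBall c r, z ∈ a.1.target ∧ Va a (a.1.symm z)) (M : Cm n → FM n)
    (hM : ∀ w, Continuous fun z => M z *ᵥ w) (h0 : ∀ z ∉ closedBall c r, M z = 0) :
    ∃ A : C(V, Fin T.m → Fk n) →L[ℂ] (Cm n →ᵇ Fk n),
      ∀ v z, A v z = M z *ᵥ rc T a (a.1.symm z) (v (a.1.symm z)) := by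
  obtain ⟨A, hA, -⟩ := mkB (Z := ℂ) a.1.symm (fun z => (M z).mulVecLin ∘ₗ rc T a (a.1.symm z))
    (isCompact_closedBall c r) isClosed_closedBall
    (fun z hz => by rw [h0 z hz, Matrix.mulVecLin_zero, LinearMap.zero_comp])
    (fun z hz => a.1.continuousAt_symm (h z hz).1) fun z hz w => by
      have h1 := (rc_cont (T := T) hL (h z hz).2 w).comp (a.1.continuousAt_symm (h z hz).1)
      have h2 : Continuous fun z => LinearMap.toContinuousLinearMap (M z).mulVecLin :=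
        continuous_clm_apply.2 hM
      exact h2.continuousAt.clm_apply h1
  exact ⟨A.comp (ContinuousMap.linearIsometryBoundedOfCompact V _
    ℂ).toContinuousLinearEquiv.toContinuousLinearMap, fun v z => hA _ z⟩

theorem exists_glob (hC : CPT) (hL : IsLB n L) (T : Atl n L) {κ : V → ℂ} (hκ : Sm n κ)
    (h : ∀ y ∈ tsupport κ, Va a y) : ∃ G : (Cm n →ᵇ Fk n) →L[ℂ] C(V, Fin T.m → Fk n),
      (∀ g y, G g y = κ y • gb T a y (g (a.1 y))) ∧
      ∀ B : (Cm n →ᵇ Fk n) →L[ℂ] (Cm n →ᵇ Fk n), Eqc B → IsCompactOperator (G.comp B) := by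
  obtain ⟨A, hA, hB⟩ := mkB (Z := Cm n →ᵇ Fk n) a.1 (fun y => κ y • gb T a y)
    (isClosed_tsupport κ).isCompact (isClosed_tsupport κ)
    (fun y hy => by rw [image_eq_zero_of_notMem_tsupport hy, zero_smul])
    (fun y hy => a.1.continuousAt (h y hy).1.2)
    fun y hy w => hκ.cont.continuousAt.smul (gb_cont hL (h y hy) w)
  exact ⟨(ContinuousMap.linearIsometryBoundedOfCompact V _
    ℂ).symm.toContinuousLinearEquiv.toContinuousLinearMap.comp A, fun g y => hA g y,
    fun B k => hC V _ _ _ (hB B k)⟩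

/-- smooth forms with compact support in the chart -/
theorem glb (hG : GLB) (hL : IsLB n L) (hP : Mod T K₀ P)
    (h : ∀ z ∈ closedBall c r, z ∈ a.1.target ∧ Va a (a.1.symm z) ∧ a.1.symm z ∈ K₀) {κ : V → ℂ}
    (h1 : ∀ y ∈ a.1.symm '' closedBall c r, κ y = 1) (h2 : ∀ y, κ y ≠ 0 → y ∈ a.1.source)
    {g : Cm n → Fk n} (hg : ContDiff ℝ ∞ g) (h0 : ∀ z ∉ closedBall c r, g z = 0) :
    ∃ w, ∀ y, P.j w y = κ y • gb T a y (g (a.1 y)) ∧
      P.j (P.d w) y = κ y • gb T a y (db g (a.1 y)) := by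
  have hT : closedBall c r ⊆ a.1.target := fun z hz => (h z hz).1
  have hK : ∀ y ∈ a.1.symm '' closedBall c r, Va a y ∧ y ∈ K₀ := by
    rintro _ ⟨z, hz, rfl⟩
    exact (h z hz).2
  obtain ⟨w, w1, w2⟩ := hG n V L hL K₀ _ a g (cpt_img hT) (fun y hy => (hK y hy).2)
    (fun y hy => (hK y hy).1) (fun _ _ => hg.contDiffAt)
    fun y k hy => h0 _ fun k' => hy ((mem_ball_img hT).2 ⟨k.1.2, k'⟩)
  refine ⟨w, fun y => ?_⟩
  by_cases hy : y ∈ a.1.symm '' closedBall c r
  · rw [h1 y hy, one_smul, one_smul, ← w1 y (hK y hy).1, gb_j hP (hK y hy).1]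
    exact ⟨rfl, jd_eq hL hP (hK y hy).1 w1⟩
  · have e := jd_zero hP fun b => Eventually.mono
      ((cpt_img hT).isClosed.isOpen_compl.mem_nhds hy) fun z hz => w2 b z hz
    rw [e.1, e.2]
    by_cases k : κ y = 0
    · rw [k, zero_smul, zero_smul]
      exact ⟨rfl, rfl⟩
    · have k' : a.1 y ∉ closedBall c r := fun k' => hy ((mem_ball_img hT).2 ⟨h2 y k, k'⟩)
      rw [h0 _ k', db_congr (v := fun _ => 0) (Eventually.mono
        (isClosed_closedBall.isOpen_compl.mem_nhds k') h0), db_const, map_zero, smul_zero]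
      exact ⟨rfl, rfl⟩

theorem sm_of {E : Type} [NormedAddCommGroup E] [NormedSpace ℝ E] {f : Cm n → E} {K : Set (Cm n)}
    (hK : IsClosed K) (h0 : ∀ z ∉ K, f z = 0) (h : ∀ z ∈ K, ContDiffAt ℝ ∞ f z) :
    ContDiff ℝ ∞ f :=
  contDiff_iff_contDiffAt.2 fun z => (em (z ∈ K)).elim (h z) fun hz =>
    contDiffAt_const.congr_of_eventuallyEq (Eventually.mono (hK.isOpen_compl.mem_nhds hz) h0)

theorem eqc_of {B : (Cm n →ᵇ Fk n) →L[ℂ] (Cm n →ᵇ Fk n)} (h : ∀ ε, 0 < ε → ∃ η, 0 < η ∧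
    ∀ g z z', dist z z' < η → ‖B g z - B g z'‖ ≤ ε * ‖g‖) : Eqc B := fun z ε hε =>
  let ⟨_, h1, h2⟩ := h ε hε
  Eventually.mono (ball_mem_nhds z h1) fun z' hz g => h2 g z' z hz

end Mlh

open Mlh

/-- **MLH** -/
theorem mlh_of (hB : BUMP) (hG : GLB) (hF : FLAT) (hC : CPT) : MLH := by
  intro n V _ _ _ _ _ L hL T K₀ P _ hP x hx W hW
  obtain ⟨i, hi⟩ := hL.cover x
  set a : Fr n L := (chartAt (Cm n) x, i)
  have ha : Va a x := ⟨at_chartAt x, hi⟩
  obtain ⟨ρ, hρ, hS⟩ := nhds_basis_closedBall.eventually_iff.1 (ha.1.nhds_target.and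
    ((tendsto_symm ha.1).eventually ((va_near hL ha).and
      (Eventually.and (mem_interior_iff_mem_nhds.1 hx) hW))))
  obtain ⟨δ, rfl⟩ : ∃ δ, ρ = 5 * δ := ⟨ρ / 5, by ring⟩
  have hδ : 0 < δ := by linarith
  set c := a.1 x
  have hb : ∀ r ≤ 5 * δ, ∀ z ∈ closedBall c r, z ∈ a.1.target ∧ Va a (a.1.symm z) ∧
      a.1.symm z ∈ K₀ ∧ a.1.symm z ∈ W := fun r hr z hz => hS (closedBall_subset_closedBall hr hz)
  have bump : ∀ r r', r < r' → r' ≤ 5 * δ → ∃ φ : V → ℂ, Sm n φ ∧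
      (∀ y ∈ a.1.symm '' closedBall c r, ∀ᶠ y' in 𝓝 y, φ y' = 1) ∧
      tsupport φ ⊆ a.1.source ∩ a.1 ⁻¹' ball c r' := fun r r' h1 h2 => by
    have hT : closedBall c r ⊆ a.1.target := fun z hz => (hb r (by linarith) z hz).1
    exact hB n V L hL _ _ (cpt_img hT) (a.1.isOpen_inter_preimage isOpen_ball) fun y hy =>
      ⟨((mem_ball_img hT).1 hy).1, closedBall_subset_ball h1 ((mem_ball_img hT).1 hy).2⟩
  obtain ⟨φ, φ1, φ2, φ3⟩ := bump (2 * δ) (3 * δ) (by linarith) (by linarith)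
  obtain ⟨κ, κ1, κ2, κ3⟩ := bump (4 * δ) (5 * δ) (by linarith) le_rfl
  have h3 := hb (3 * δ) (by linarith)
  -- the cut-off in the chart
  set f : Cm n → ℂ := a.1.target.indicator fun z => φ (a.1.symm z)
  have f1 : ∀ z ∈ a.1.target, f =ᶠ[𝓝 z] fun z => φ (a.1.symm z) := fun z hz =>
    Eventually.mono (a.1.open_target.mem_nhds hz) fun z' h => indicator_of_mem h _
  have f2 : ∀ y ∈ a.1.source, f (a.1 y) = φ y := fun y hy =>
    (indicator_of_mem (a.1.map_source hy) _).trans (congrArg φ (a.1.left_inv hy))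
  have f0 : ∀ z ∉ closedBall c (3 * δ), f z = 0 := fun z hz => indicator_apply_eq_zero.2 fun h =>
    image_eq_zero_of_notMem_tsupport fun k => hz (ball_subset_closedBall
      (a.1.right_inv h ▸ (φ3 k).2 : z ∈ ball c (3 * δ)))
  have fs : ContDiff ℝ ∞ f := sm_of isClosed_closedBall f0 fun z hz =>
    (a.1.right_inv (h3 z hz).1 ▸ φ1 _ _ (h3 z hz).2.1.1 :
      ContDiffAt ℝ ∞ (fun z => φ (a.1.symm z)) z).congr_of_eventuallyEq (f1 z (h3 z hz).1)
  have d0 : ∀ z (k : ℂ), (∀ᶠ y in 𝓝 z, f y = k) → ∑ l, dzb l f z • eps l = 0 := fun z k h =>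
    Finset.sum_eq_zero fun l _ => by rw [C2.dzb_congr l h, C2.dzb_const, zero_smul]
  have d1 : ∀ z ∉ closedBall c (3 * δ), ∑ l, dzb l f z • eps l = 0 := fun z hz =>
    d0 z 0 (Eventually.mono (isClosed_closedBall.isOpen_compl.mem_nhds hz) f0)
  obtain ⟨A1, hA1⟩ := exists_loc hL T (fun z hz => ⟨(h3 z hz).1, (h3 z hz).2.1⟩)
    (fun z => f z • 1) (fun w => by
      simp only [Matrix.smul_mulVec]
      exact fs.continuous.smul continuous_const) fun z hz => by rw [f0 z hz, zero_smul]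
  obtain ⟨A2, hA2⟩ := exists_loc hL T (fun z hz => ⟨(h3 z hz).1, (h3 z hz).2.1⟩)
    (fun z => ∑ l, dzb l f z • eps l) (fun w => by
      simp only [Matrix.sum_mulVec, Matrix.smul_mulVec]
      exact continuous_finsetSum _ fun l _ => (continuous_iff_continuousAt.2 fun z =>
        (C2.contDiffAt_dzb (m := ∞) l fs.contDiffAt le_rfl).continuousAt).smul continuous_const) d1
  simp only [Matrix.smul_mulVec, Matrix.one_mulVec] at hA1
  have κv : ∀ y ∈ tsupport κ, Va a y := fun y hy =>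
    a.1.left_inv (κ3 hy).1 ▸ (hb _ le_rfl _ (ball_subset_closedBall (κ3 hy).2)).2.1
  obtain ⟨G, hG1, hG2⟩ := exists_glob hC hL T κ1 κv
  obtain ⟨B, S, S₂, hf⟩ := hF n δ hδ
  have z1 : ∀ v, ∀ z ∉ closedBall c (3 * δ), A1 v z = 0 := fun v z hz => by
    rw [hA1, f0 z hz, zero_smul]
  have z4 : ∀ v, ∀ z ∉ closedBall c (4 * δ), B (A1 v) z = 0 ∧ S (A1 v) z = 0 := fun v z hz =>
    hf.loc _ z fun y hy => z1 v y fun k => hz (mem_closedBall.2 (by
      linarith [dist_triangle_left z c y, mem_closedBall.1 hy, mem_closedBall.1 k]))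
  have gl : ∀ g : Cm n → Fk n, ContDiff ℝ ∞ g → (∀ z ∉ closedBall c (4 * δ), g z = 0) →
      ∃ w, ∀ y, P.j w y = κ y • gb T a y (g (a.1 y)) ∧
        P.j (P.d w) y = κ y • gb T a y (db g (a.1 y)) := fun g =>
    glb hG hL hP (fun z hz => let k := hb _ (by linarith) z hz; ⟨k.1, k.2.1, k.2.2.1⟩)
      (fun y hy => (κ2 y hy).self_of_nhds) fun y hy => (κ3 (subset_tsupport _ hy)).1
  -- the localisation of a smooth form
  have e1 : ∀ u z, A1 (P.j u) z = f z • u.1 a (a.1.symm z) := fun u z => by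
    by_cases hz : z ∈ closedBall c (3 * δ)
    · rw [hA1, rc_j hP (h3 z hz).2.1]
    · rw [hA1, f0 z hz, zero_smul, zero_smul]
  have us : ∀ u : Af n L K₀, ∀ z ∈ closedBall c (3 * δ),
      ContDiffAt ℝ ∞ (fun z => u.1 a (a.1.symm z)) z := fun u z hz =>
    a.1.right_inv (h3 z hz).1 ▸ u.2.1 a _ (h3 z hz).2.1
  have hom := fun u : Af n L K₀ => hf.hom (A1 (P.j u)) (A1 (P.j (P.d u)) + A2 (P.j u))
    (sm_of isClosed_closedBall (z1 _) fun z hz =>
      (fs.contDiffAt.smul (us u z hz)).congr_of_eventuallyEq (.of_forall (e1 u)))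
    (HasCompactSupport.intro (isCompact_closedBall _ _) (z1 _)) fun z => by
      rw [BoundedContinuousFunction.add_apply]
      by_cases hz : z ∈ closedBall c (3 * δ)
      · rw [db_congr (.of_forall (e1 u)), db_smul fs.contDiffAt (us u z hz), e1,
          hP.d _ _ _ (h3 z hz).2.1, a.1.right_inv (h3 z hz).1, hA2, rc_j hP (h3 z hz).2.1]
        simp only [Matrix.sum_mulVec, Matrix.smul_mulVec]
      · rw [z1 _ z hz, hA2, d1 z hz, Matrix.zero_mulVec, add_zero, db_congr (v := fun _ => 0)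
          (Eventually.mono (isClosed_closedBall.isOpen_compl.mem_nhds hz) (z1 _)), db_const]
  have cB := hG2 B (eqc_of fun ε hε => (hf.eqc ε hε).imp fun _ h =>
    ⟨h.1, fun g z z' k => (h.2 g z z' k).1⟩)
  have cS := hG2 S (eqc_of fun ε hε => (hf.eqc ε hε).imp fun _ h =>
    ⟨h.1, fun g z z' k => (h.2 g z z' k).2⟩)
  refine ⟨φ, (G.comp B).comp A1, (G.comp S).comp A1, (G.comp S₂).comp A1, (G.comp B).comp A2,
    φ1, φ2 x ⟨c, mem_closedBall_self (by linarith), ha.1.left_inv⟩, cB.comp_clm A1,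
    cS.comp_clm A1, cB.comp_clm A2, fun u => ?_, fun v => ?_, fun v v' hv y => ?_,
    fun v hv => ?_, ?_⟩
  · obtain ⟨w, hw⟩ := gl _ (hom u).1 fun z hz => (z4 _ z hz).1
    refine ⟨w, ContinuousMap.ext fun y => (hw y).1.trans (hG1 _ y).symm,
      ContinuousMap.ext fun y => ?_⟩
    have e2 : P.j (P.mul φ u) y = κ y • gb T a y (A1 (P.j u) (a.1 y)) := by
      have e3 : P.j (P.mul φ u) y = φ y • P.j u y := funext fun γ => by
        rw [hP.j, hP.mul φ φ1, Pi.smul_apply, hP.j, smul_comm]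
      rw [e3, e1]
      by_cases k : φ y = 0
      · by_cases k' : κ y = 0
        · rw [k, k', zero_smul, zero_smul]
        · have hy := (κ3 (subset_tsupport _ k')).1
          rw [f2 y hy, k, zero_smul, zero_smul, map_zero, smul_zero]
      · have hy := φ3 (subset_tsupport _ k)
        have hv := (h3 _ (ball_subset_closedBall hy.2)).2.1
        rw [a.1.left_inv hy.1] at hv
        rw [f2 y hy.1, a.1.left_inv hy.1, map_smul, gb_j hP hv,
          (κ2 y ⟨a.1 y, closedBall_subset_closedBall (by linarith) (ball_subset_closedBall hy.2),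
            a.1.left_inv hy.1⟩).self_of_nhds, one_smul]
    have e4 := ((hom u).2 (a.1 y)).1
    rw [map_add, BoundedContinuousFunction.add_apply, ← add_assoc, ← eq_sub_iff_add_eq] at e4
    simp only [ContinuousMap.add_apply, ContinuousMap.sub_apply, ContinuousLinearMap.comp_apply,
      hG1, (hw y).2, e2]
    rw [← smul_add, ← map_add, e4, map_sub, map_sub, smul_sub, smul_sub]
  · obtain ⟨w, hw⟩ := gl _ (hf.smS (A1 v)).1 fun z hz => (z4 _ z hz).2
    exact ⟨w, ContinuousMap.ext fun y => (hw y).1.trans (hG1 _ y).symm, ContinuousMap.ext fun y =>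
      ((hw y).2.trans (by rw [(hf.smS _).2])).trans (hG1 (S₂ (A1 v)) y).symm⟩
  · have e2 := hf.deg (A1 v) (A1 v') (fun z => by
      rw [hA1, hA1, hv, rc_N hP, Matrix.mulVec_smul]) (a.1 y)
    simp only [ContinuousLinearMap.comp_apply, hG1, map_smul, gb_N hP, e2.1, e2.2, map_sub,
      smul_sub, and_self]
  · have e2 : A1 v = 0 := BoundedContinuousFunction.ext fun z => by
      by_cases hz : z ∈ closedBall c (3 * δ)
      · rw [hA1, hv _ (h3 z hz).2.2.2, map_zero, smul_zero]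
        rfl
      · exact z1 v z hz
    simp only [ContinuousLinearMap.comp_apply, e2, map_zero, and_self]
  · filter_upwards [(a.1.continuousAt ha.1.2).eventually (closedBall_mem_nhds c hδ)] with y hy
    have e2 : ∀ v, B (A2 v) (a.1 y) = 0 ∧ S (A2 v) (a.1 y) = 0 := fun v => hf.loc _ _ fun z hz => by
      have k : z ∈ closedBall c (2 * δ) := mem_closedBall.2 (by
        linarith [dist_triangle z (a.1 y) c, mem_closedBall.1 hz, mem_closedBall.1 hy])
      have k' := (hb _ (by linarith) z k).1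
      rw [hA2, d0 z 1, Matrix.zero_mulVec]
      filter_upwards [f1 z k', (a.1.continuousAt_symm k').eventually (φ2 _ ⟨z, k, rfl⟩)]
        with z' h1 h2 using h1.trans h2
    refine ⟨fun v => ?_, fun u => ?_⟩
    · simp only [ContinuousLinearMap.comp_apply, hG1, (e2 v).1, map_zero, smul_zero]
    · simp only [ContinuousLinearMap.comp_apply, hG1, ((hom u).2 (a.1 y)).2, map_add,
        BoundedContinuousFunction.add_apply, (e2 _).2, add_zero]

end Vale.Agent.P281Z.Gr
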