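import Vale.Agent.P281Z.Gr.Calc
import Vale.Agent.P281Z.Gr.Api

/-!
# P281Z, block GR: localisation operators, the local exactness of the Dolbeault complex
-/

open scoped Manifold ContDiff Topology Matrix BoundedContinuousFunction
open Set Filter Metric
open Vale.Agent.P272.K Vale.Agent.P285.H281.FD Vale.Agent.P299.IX Vale.Agent.P299.IX.Fock
open Vale.Agent.P277Z.Slc (at_chartAt tendsto_symm)

set_option linter.unusedSectionVars false

noncomputable section

namespace Vale.Agent.P281Z.Gr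

namespace Mlh

section fa

variable {X Y Z E F : Type} [TopologicalSpace X] [TopologicalSpace Y] [NormedAddCommGroup Z]
  [NormedSpace ℂ Z] [NormedAddCommGroup E] [NormedSpace ℂ E] [NormedAddCommGroup F]
  [NormedSpace ℂ F]

/-- equicontinuity -/
def Eqc (B : Z →L[ℂ] (Y →ᵇ E)) : Prop :=
  ∀ y ε, 0 < ε → ∀ᶠ y' in 𝓝 y, ∀ g, ‖B g y' - B g y‖ ≤ ε * ‖g‖

theorem eqc_iff (B : Z →L[ℂ] (Y →ᵇ E)) :
    Eqc B ↔ Continuous fun y => (BoundedContinuousFunction.evalCLM ℂ y).comp B := by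
  rw [continuous_iff_continuousAt]
  refine forall_congr' fun y => ⟨fun h => Metric.nhds_basis_closedBall.tendsto_right_iff.2
    fun ε hε => (h ε hε).mono fun y' hy => mem_closedBall_iff_norm.2
      (ContinuousLinearMap.opNorm_le_bound _ hε.le hy), fun h ε hε => ?_⟩
  filter_upwards [Metric.nhds_basis_closedBall.tendsto_right_iff.1 h ε hε] with y' hy g
  exact ContinuousLinearMap.le_of_opNorm_le _ (mem_closedBall_iff_norm.1 hy) g

theorem cont_of {G : Type} [TopologicalSpace G] [Zero G] {f : X → G} {K : Set X} (hK : IsClosed K)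
    (h0 : ∀ x ∉ K, f x = 0) (h : ∀ x ∈ K, ContinuousAt f x) : Continuous f :=
  continuous_iff_continuousAt.2 fun x => (em (x ∈ K)).elim (h x) fun hx =>
    continuousAt_const.congr (Eventually.mono (hK.isOpen_compl.mem_nhds hx)
      fun y hy => (h0 y hy).symm)

/-- weighted composition operators -/
theorem mkB [FiniteDimensional ℂ E] (σ : X → Y) (A : X → E →ₗ[ℂ] F) {K : Set X} (hK : IsCompact K)
    (hK' : IsClosed K) (h0 : ∀ x ∉ K, A x = 0) (hσ : ∀ x ∈ K, ContinuousAt σ x)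
    (hA : ∀ x ∈ K, ∀ w, ContinuousAt (fun y => A y w) x) :
    ∃ T : (Y →ᵇ E) →L[ℂ] (X →ᵇ F), (∀ v x, T v x = A x (v (σ x))) ∧
      ∀ B : Z →L[ℂ] (Y →ᵇ E), Eqc B → Eqc (T.comp B) := by
  have cA : ∀ x ∈ K, ContinuousAt (fun y => LinearMap.toContinuousLinearMap (A y)) x :=
    fun x hx => continuousAt_clm_apply.2 (hA x hx)
  obtain ⟨C, hC⟩ := hK.exists_bound_of_continuousOn fun x hx => (cA x hx).continuousWithinAt
  have bd : ∀ (v : Y →ᵇ E) x, ‖A x (v (σ x))‖ ≤ max C 0 * ‖v‖ := fun v x => by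
    by_cases hx : x ∈ K
    · exact ((LinearMap.toContinuousLinearMap (A x)).le_opNorm _).trans (mul_le_mul
        ((hC x hx).trans (le_max_left _ _)) (v.norm_coe_le_norm _) (norm_nonneg _) (le_max_right _ _))
    · rw [h0 x hx, LinearMap.zero_apply, norm_zero]
      positivity
  have ct : ∀ v : Y →ᵇ E, Continuous fun x => A x (v (σ x)) := fun v =>
    cont_of hK' (fun x hx => by rw [h0 x hx, LinearMap.zero_apply]) fun x hx =>
      (cA x hx).clm_apply (v.continuous.continuousAt.comp (hσ x hx))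
  refine ⟨LinearMap.mkContinuous
    { toFun := fun v => BoundedContinuousFunction.ofNormedAddCommGroup _ (ct v) _ (bd v)
      map_add' := fun v w => BoundedContinuousFunction.ext fun x => map_add (A x) _ _
      map_smul' := fun c v => BoundedContinuousFunction.ext fun x => map_smul (A x) c _ }
    (max C 0) fun v => BoundedContinuousFunction.norm_ofNormedAddCommGroup_le (ct v)
      (by positivity) (bd v), fun _ _ => rfl, fun B hB => (eqc_iff _).2 ?_⟩
  have e := (eqc_iff B).1 hB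
  refine (cont_of (f := fun x => (LinearMap.toContinuousLinearMap (A x)).comp
    ((BoundedContinuousFunction.evalCLM ℂ (σ x)).comp B)) hK' (fun x hx => ?_) fun x hx =>
      (cA x hx).clm_comp (e.continuousAt.comp (hσ x hx))).congr fun x => rfl
  rw [h0 x hx, map_zero, ContinuousLinearMap.zero_comp]

end fa

variable {n : ℕ} {V : Type} [TopologicalSpace V] [ChartedSpace (Cm n) V] {L : Bd V}
  {a b : Fr n L} {x y : V}

theorem Nm_Tr (w : Fk n) : Nm n *ᵥ (Tr L a b x *ᵥ w) = Tr L a b x *ᵥ (Nm n *ᵥ w) := by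
  simp only [Tr, Matrix.smul_mulVec, Matrix.mulVec_smul, Nm_lam]

theorem va_near (hL : IsLB n L) (h : Va a x) : ∀ᶠ y in 𝓝 x, Va a y :=
  (P277Z.Slc.At.near h.1).and ((hL.isOpen _).mem_nhds h.2)

/-- reconstruction of the component in the frame `a` -/
def rc (T : Atl n L) (a : Fr n L) (y : V) : (Fin T.m → Fk n) →ₗ[ℂ] Fk n :=
  ∑ γ, T.ψ γ y • (Tr L a (T.f γ) y).mulVecLin ∘ₗ LinearMap.proj γ

/-- the values which belong to a component in the frame `a` -/
def gb (T : Atl n L) (a : Fr n L) (y : V) : Fk n →ₗ[ℂ] (Fin T.m → Fk n) :=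
  LinearMap.pi fun γ => T.χ γ y • (Tr L (T.f γ) a y).mulVecLin

variable {T : Atl n L} {K₀ : Set V} {P : Pre L (Fin T.m → Fk n) (Af n L K₀)}

theorem rc_apply (v : Fin T.m → Fk n) :
    rc T a y v = ∑ γ, T.ψ γ y • (Tr L a (T.f γ) y *ᵥ v γ) := by
  simp [rc]

theorem gb_apply (w : Fk n) (γ : Fin T.m) : gb T a y w γ = T.χ γ y • (Tr L (T.f γ) a y *ᵥ w) := rfl

theorem rc_j (hP : Mod T K₀ P) (h : Va a y) (u : Af n L K₀) : rc T a y (P.j u y) = u.1 a y := by
  rw [rc_apply, ← one_smul ℂ (u.1 a y), ← T.sum y, Finset.sum_smul]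
  refine Finset.sum_congr rfl fun γ _ => ?_
  by_cases h0 : T.ψ γ y = 0
  · rw [h0, zero_mul, zero_smul, zero_smul]
  · rw [hP.j, Matrix.mulVec_smul, ← u.2.2.1 a _ y h (T.vaψ γ y (subset_tsupport _ h0)), mul_smul]

theorem gb_j (hP : Mod T K₀ P) (h : Va a y) (u : Af n L K₀) : gb T a y (u.1 a y) = P.j u y := by
  funext γ
  rw [gb_apply, hP.j]
  by_cases h0 : T.χ γ y = 0
  · rw [h0, zero_smul, zero_smul]
  · rw [← u.2.2.1 _ a y (T.vaχ γ y (subset_tsupport _ h0)) h]

theorem rc_N (hP : Mod T K₀ P) (v : Fin T.m → Fk n) :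
    rc T a y (P.N' v) = Nm n *ᵥ rc T a y v := by
  simp only [rc_apply, hP.N', Matrix.mulVec_sum, Matrix.mulVec_smul, Nm_Tr]

theorem gb_N (hP : Mod T K₀ P) (w : Fk n) : P.N' (gb T a y w) = gb T a y (Nm n *ᵥ w) := by
  funext γ
  rw [hP.N', gb_apply, gb_apply, Matrix.mulVec_smul, Nm_Tr]

theorem jd_zero (hP : Mod T K₀ P) {w : Af n L K₀} (h : ∀ b, ∀ᶠ z in 𝓝 y, w.1 b z = 0) :
    P.j w y = 0 ∧ P.j (P.d w) y = 0 := by
  refine ⟨funext fun γ => by rw [hP.j, (h _).self_of_nhds, smul_zero, Pi.zero_apply],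
    funext fun γ => ?_⟩
  rw [hP.j, Pi.zero_apply]
  by_cases hv : Va (T.f γ) y
  · rw [hP.d _ _ _ hv, db_congr (v := fun _ => 0) ((tendsto_symm hv.1).eventually (h _)), db_const,
      smul_zero]
  · rw [(P.d w).2.2.2 _ _ (Or.inl hv), smul_zero]

theorem jd_eq (hL : IsLB n L) (hP : Mod T K₀ P) (h : Va a y) {w : Af n L K₀} {g : Cm n → Fk n}
    (hw : ∀ x, Va a x → w.1 a x = g (a.1 x)) : P.j (P.d w) y = gb T a y (db g (a.1 y)) := by
  rw [← gb_j hP h, hP.d _ _ _ h]
  congr 1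
  refine db_congr ?_
  filter_upwards [(tendsto_symm h.1).eventually (va_near hL h), h.1.nhds_target] with z h1 h2
  rw [hw _ h1, a.1.right_inv h2]

theorem mem_ball_img {e : Chart n V} {c : Cm n} {r : ℝ} (h : closedBall c r ⊆ e.target) :
    y ∈ e.symm '' closedBall c r ↔ y ∈ e.source ∧ e y ∈ closedBall c r :=
  ⟨fun ⟨z, hz, e1⟩ => e1 ▸ ⟨e.map_target (h hz), by rwa [e.right_inv (h hz)]⟩,
    fun h1 => ⟨e y, h1.2, e.left_inv h1.1⟩⟩

theorem cpt_img {e : Chart n V} {c : Cm n} {r : ℝ} (h : closedBall c r ⊆ e.target) :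
    IsCompact (e.symm '' closedBall c r) :=
  (isCompact_closedBall c r).image_of_continuousOn (e.continuousOn_symm.mono h)

variable [IsManifold 𝓘(ℂ, Cm n) ω V]

theorem Tr_cont (hL : IsLB n L) (ha : Va a x) (hb : Va b x) (w : Fk n) :
    ContinuousAt (fun y => Tr L a b y *ᵥ w) x := by
  have h1 : ContDiffAt ℝ ∞ (fun z => Tr L a b (a.1.symm z) *ᵥ w) (a.1 x) := by
    simp only [Tr, Matrix.smul_mulVec]
    exact (((hL.holo _ _ _ x ha.1 ha.2 hb.2).restrict_scalars ℝ).of_le le_top).smul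
      (smooth_mulVec (MC_lam fun i p => C2.contDiffAt_conj
        (((jacM_holo ha.1 hb.1 p i).restrict_scalars ℝ).of_le le_top)) contDiffAt_const)
  refine (h1.continuousAt.comp (a.1.continuousAt ha.1.2)).congr ?_
  filter_upwards [a.1.eventually_left_inverse ha.1.2] with y hy
  simp only [Function.comp_apply, hy]

theorem smul_cont {χ : V → ℂ} (hχ : Sm n χ) {f : V → Fk n}
    (h : x ∈ tsupport χ → ContinuousAt f x) : ContinuousAt (fun y => χ y • f y) x := by
  by_cases hx : x ∈ tsupport χ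
  · exact hχ.cont.continuousAt.smul (h hx)
  · refine (continuousAt_const (y := (0 : Fk n))).congr ?_
    filter_upwards [notMem_tsupport_iff_eventuallyEq.1 hx] with y hy
    rw [hy, Pi.zero_apply, zero_smul]

theorem rc_cont (hL : IsLB n L) (h : Va a x) (v : Fin T.m → Fk n) :
    ContinuousAt (fun y => rc T a y v) x := by
  simp only [rc_apply]
  exact tendsto_finsetSum _ fun γ _ => smul_cont (T.smψ γ) fun hx => Tr_cont hL h (T.vaψ γ x hx) _

theorem gb_cont (hL : IsLB n L) (h : Va a x) (w : Fk n) :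
    ContinuousAt (fun y => gb T a y w) x :=
  continuousAt_pi.2 fun γ => smul_cont (T.smχ γ) fun hx => Tr_cont hL (T.vaχ γ x hx) h _

end Mlh

open Mlh

/-- **MDG** -/
theorem mdg_of (hB : BUMP) (hG : GLB) (hD : DG) : MDG := by
  intro n V _ _ _ _ _ L hL T K₀ P _ hP x hx q hq u hu hd
  obtain ⟨i, hi⟩ := hL.cover x
  set a : Fr n L := (chartAt (Cm n) x, i)
  have ha : Va a x := ⟨at_chartAt x, hi⟩
  have ev := (tendsto_symm ha.1).eventually (va_near hL ha)
  obtain ⟨w, hw⟩ := hD n q (fun z => u.1 a (a.1.symm z)) (a.1 x) hq (by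
    filter_upwards [ev, ha.1.nhds_target, (tendsto_symm ha.1).eventually hd] with z h1 h2 h3
    refine ⟨a.1.right_inv h2 ▸ u.2.1 a _ h1, ?_, ?_⟩
    · rw [← hP.N, hu]
      rfl
    · rw [← a.1.right_inv h2, ← hP.d _ _ _ h1, ← rc_j hP h1, h3, map_zero])
  obtain ⟨r, hr, hS⟩ := nhds_basis_closedBall.eventually_iff.1 (hw.and (ev.and
    (ha.1.nhds_target.and ((tendsto_symm ha.1).eventually (mem_interior_iff_mem_nhds.1 hx)))))
  have hT : closedBall (a.1 x) r ⊆ a.1.target := fun z hz => (hS hz).2.2.1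
  obtain ⟨φ, h1, h2, h3⟩ := hB n V L hL {x} _ isCompact_singleton
    (a.1.isOpen_inter_preimage isOpen_ball) (singleton_subset_iff.2 ⟨ha.1.2, mem_ball_self hr⟩)
  have hK : ∀ y ∈ a.1.symm '' closedBall (a.1 x) r, Va a y ∧ y ∈ K₀ := by
    rintro _ ⟨z, hz, rfl⟩
    exact ⟨(hS hz).2.1, (hS hz).2.2.2⟩
  obtain ⟨v, v1, v2⟩ := hG n V L hL K₀ _ a (fun z => φ (a.1.symm z) • w z) (cpt_img hT)
    (fun y hy => (hK y hy).2) (fun y hy => (hK y hy).1)
    (fun y hy => (h1 y _ (hK y hy).1.1).smul (hS ((mem_ball_img hT).1 hy).2).1.1)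
    (fun y h hy => by
      rw [h.1.left_inv, image_eq_zero_of_notMem_tsupport fun k => hy ((mem_ball_img hT).2
        ⟨(h3 k).1, ball_subset_closedBall (h3 k).2⟩), zero_smul])
  refine ⟨v, Subtype.ext (funext fun b => funext fun y => ?_), ?_⟩
  · rw [hP.N]
    change _ = ((q : ℂ) - 1) • v.1 b y
    by_cases hy : y ∈ a.1.symm '' closedBall (a.1 x) r
    · by_cases hb : Va b y
      · rw [v.2.2.1 b a y hb (hK y hy).1, Nm_Tr, v1 y (hK y hy).1, Matrix.mulVec_smul,
          (hS ((mem_ball_img hT).1 hy).2).1.2.1, smul_comm, Matrix.mulVec_smul]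
      · rw [v.2.2.2 b y (Or.inl hb), Matrix.mulVec_zero, smul_zero]
    · rw [v2 b y hy, Matrix.mulVec_zero, smul_zero]
  · filter_upwards [va_near hL ha, (h2 x rfl).eventually_nhds,
      (a.1.continuousAt ha.1.2).eventually hw] with y k1 k2 k3
    rw [jd_eq hL hP k1 (g := fun z => φ (a.1.symm z) • w z) v1, db_congr (v := w), k3.2.2,
      k1.1.left_inv, gb_j hP k1]
    filter_upwards [(tendsto_symm k1.1).eventually k2] with z hz
    rw [hz, one_smul]

end Vale.Agent.P281Z.Gr
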