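import Vale.Agent.P281Z.Gr.Defs2
import Vale.Agent.P281Z.Gr.Api
import Mathlib.Analysis.Normed.Operator.Extend

/-!
# P281Z, block GR, row PRE: properties which pass to a completion
-/

open scoped Manifold ContDiff Topology
open Set Filter Metric
open Vale.Agent.P272.K Vale.Agent.P285.H281.FD
open Vale.Agent.P277Z (Hol)

set_option linter.unusedSectionVars false

noncomputable section

namespace Vale.Agent.P281Z.Gr

theorem tu_congr {V E : Type} [NormedAddCommGroup E] {f g : ℕ → V → E} {a : V → E} {S : Set V}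
    (h : TendstoUniformlyOn f a atTop S) (M : ℝ)
    (hb : ∀ k, ∀ y ∈ S, ‖f k y - g k y‖ ≤ M * (1 / ((k : ℝ) + 1))) :
    TendstoUniformlyOn g a atTop S := by
  rw [Metric.tendstoUniformlyOn_iff] at h ⊢
  intro ε hε
  have h1 : Tendsto (fun k : ℕ => M * (1 / ((k : ℝ) + 1))) atTop (𝓝 0) := by
    simpa using (tendsto_one_div_add_atTop_nhds_zero_nat (𝕜 := ℝ)).const_mul M
  filter_upwards [h (ε / 2) (half_pos hε), h1.eventually_lt_const (half_pos hε)] with k h2 h3 y hy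
  have h4 := hb k y hy
  rw [← dist_eq_norm] at h4
  linarith [dist_triangle (a y) (f k y) (g k y), h2 y hy]

variable {n p : ℕ} {V : Type} [TopologicalSpace V] [CompactSpace V] [ChartedSpace (Cm n) V]
  {L : Bd V} {A : Type} [AddCommGroup A] [Module ℂ A] {K₀ : Set V}

namespace Pre.Ok

variable {Λ : Type} [NormedAddCommGroup Λ] [NormedSpace ℂ Λ] {P : Pre L Λ A} (h : P.Ok n K₀)
include h

theorem ext {u v : A} (k : ∀ x, P.j u x = P.j v x) : u = v := h.inj (ContinuousMap.ext k)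

theorem dN' (u : A) : P.d (P.N u) = P.N (P.d u) - P.d u := eq_sub_of_add_eq (h.dN u).symm

end Pre.Ok

variable (n) in
/-- `C` is a completion of `P` -/
structure Cp (C : Cx p L) (P : Pre L C.Λ A) (ι : A →ₗ[ℂ] C.X) : Prop where
  dense : DenseRange ι
  π : ∀ u, C.π (ι u) = P.j u
  D : ∀ u, C.D (ι u) = ι (P.d u)
  N : ∀ u, C.N (ι u) = ι (P.N u)
  mul : ∀ φ, Sm n φ → ∀ u, C.mul φ (ι u) = ι (P.mul φ u)
  E : C.E = 0
  ev : C.ev = P.ev
  nrm : ∀ ξ, ‖ξ‖ ≤ ‖C.π ξ‖ + ‖C.π (C.D ξ)‖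

namespace Cp

variable {C : Cx p L} {P : Pre L C.Λ A} {ι : A →ₗ[ℂ] C.X} (c : Cp n C P ι)
include c

theorem eqn {Y : Type} [TopologicalSpace Y] [T2Space Y] {f g : C.X → Y} (hf : Continuous f)
    (hg : Continuous g) (h : ∀ u, f (ι u) = g (ι u)) (ξ : C.X) : f ξ = g ξ :=
  c.dense.induction_on ξ (isClosed_eq hf hg) h

theorem le {f g : C.X → ℝ} (hf : Continuous f) (hg : Continuous g)
    (h : ∀ u, f (ι u) ≤ g (ι u)) (ξ : C.X) : f ξ ≤ g ξ :=
  c.dense.induction_on ξ (isClosed_le hf hg) h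

theorem Dt (τ : Cm p) : C.Dt τ = C.D := by
  rw [Cx.Dt, c.E]
  exact add_zero _

theorem val (ξ : C.X) (i : L.ι) (x : V) : C.val ξ i x = P.ev i x (C.π ξ x) := by
  rw [Cx.val, c.ev]

theorem πN (h : P.Ok n K₀) (ξ : C.X) (x : V) : C.π (C.N ξ) x = P.N' (C.π ξ x) :=
  c.eqn (f := fun ξ => C.π (C.N ξ) x) (g := fun ξ => P.N' (C.π ξ x)) (by fun_prop) (by fun_prop)
    (fun u => by simp only [c.N, c.π, h.jN]) ξ

theorem low (h : P.Ok n K₀) {q : ℤ} (hq : q < 0) {ξ : C.X} (k : C.N ξ = (q : ℂ) • ξ) :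
    C.π ξ = 0 := ContinuousMap.ext fun x => h.low q hq _ (by
  rw [← c.πN h, k, map_smul, ContinuousMap.smul_apply])

theorem mulπ (h : P.Ok n K₀) {φ : V → ℂ} (hφ : Sm n φ) (ξ : C.X) (x : V) :
    C.π (C.mul φ ξ) x = φ x • C.π ξ x :=
  c.eqn (f := fun ξ => C.π (C.mul φ ξ) x) (g := fun ξ => φ x • C.π ξ x) (by fun_prop)
    (by fun_prop) (fun u => by simp only [c.mul φ hφ, c.π, h.mulj φ hφ]) ξ

theorem wey (h : P.Ok n K₀) (hW : P.Wey n) (ξ : ℕ → C.X) (a : V → ℂ) (i : L.ι) (x : V)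
    (hx : x ∈ L.U i) (S : Set V) (hS : S ∈ 𝓝 x)
    (h1 : TendstoUniformlyOn (fun k y => C.val (ξ k) i y) a atTop S)
    (h2 : TendstoUniformlyOn (fun k y => C.π (C.D (ξ k)) y) (fun _ => 0) atTop S) :
    Hol n a x := by
  choose u hu using fun k : ℕ => c.dense.exists_dist_lt (ξ k) (Nat.one_div_pos_of_nat (n := k))
  obtain ⟨M, hM⟩ := h.evb i x hx
  have hb : ∀ (T : C.X →L[ℂ] C(V, C.Λ)) k y, ‖T (ξ k) y - T (ι (u k)) y‖ ≤
      ‖T‖ * (1 / ((k : ℝ) + 1)) := by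
    intro T k y
    rw [← ContinuousMap.sub_apply, ← map_sub]
    refine (ContinuousMap.norm_coe_le_norm _ y).trans ((T.le_opNorm _).trans ?_)
    rw [← dist_eq_norm]
    exact mul_le_mul_of_nonneg_left (hu k).le (norm_nonneg _)
  refine hW u a i x hx _ (inter_mem hS hM) (tu_congr (h1.mono inter_subset_left) (M * ‖C.π‖)
    fun k y hy => ?_) (tu_congr (h2.mono inter_subset_left) ‖C.π ∘L C.D‖ fun k y _ => ?_)
  · rw [c.val, ← map_sub, ← c.π, mul_assoc]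
    exact ((P.ev i y).le_opNorm _).trans
      (mul_le_mul hy.2 (hb C.π k y) (norm_nonneg _) ((norm_nonneg _).trans hy.2))
  · rw [← c.π, ← c.D]
    exact hb (C.π ∘L C.D) k y

theorem ok (h : P.Ok n K₀) (hW : P.Wey n) (hL : P.Lift n K₀) (F : V → Cm p) : C.Ok n F K₀ ∅ := by
  have hE : ∀ τ ξ, C.E τ ξ = 0 := fun τ ξ => by rw [c.E]; rfl
  have hND : ∀ ξ, C.N (C.D ξ) = C.D (C.N ξ) + C.D ξ :=
    c.eqn (by fun_prop) (by fun_prop) fun u => by simp only [c.N, c.D, h.dN, map_add]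
  refine ⟨⟨fun τ ξ => ?_, fun τ ξ => ?_⟩, ⟨1, fun ξ => by rw [one_mul]; exact c.nrm ξ⟩,
    fun τ => ⟨0, fun ξ x => by simp [hE]⟩, ⟨‖P.N'‖, fun ξ x => ?_⟩, fun τ τ' _ => by
      rw [c.E]; rfl, ⟨-1, fun q hq ξ k => ?_⟩, fun ξ x hx => ?_, fun φ hφ => c.mulπ h hφ,
    fun φ ψ hφ hψ => ?_, fun φ ψ hφ hψ => ?_, fun a => ?_, fun φ hφ => ?_,
    fun φ _ τ ξ => by rw [hE, hE, map_zero], fun φ hφ => ?_, fun φ hφ ξ x hx => ?_,
    fun ξ i j x hi hj => ?_, fun ξ i x => ?_, fun i x hx => by rw [c.ev]; exact h.evb i x hx,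
    fun ξ a i x hx S hS h1 h2 => ?_, fun O hO t ht φ hφ hs => ?_⟩
  · have h1 := c.Dt τ
    rw [Cx.Dt] at h1
    rw [h1]
    exact c.eqn (f := fun ξ => C.D (C.D ξ)) (g := fun _ => 0) (by fun_prop) (by fun_prop)
      (fun u => by simp only [c.D, h.dd, map_zero]) ξ
  · have h1 := c.Dt τ
    rw [Cx.Dt] at h1
    rw [h1]
    exact hND ξ
  · rw [c.πN h]
    exact P.N'.le_opNorm _
  · have h1 : C.π (C.D ξ) = 0 := c.low h (q := q + 1) (by omega) (by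
      rw [hND, k, map_smul, Int.cast_add, Int.cast_one, add_smul, one_smul])
    have h2 := c.nrm ξ
    rw [h1, c.low h (q := q) (by omega) k, norm_zero, add_zero] at h2
    exact norm_le_zero_iff.1 h2
  · exact c.eqn (f := fun ξ => C.π ξ x) (g := fun _ => 0) (by fun_prop) (by fun_prop)
      (fun u => by simp only [c.π, h.supp u x hx]) ξ
  · refine c.eqn (by fun_prop) (by fun_prop) fun u => ?_
    rw [c.mul _ (hφ.mul hψ), c.mul _ hψ, c.mul _ hφ]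
    exact congrArg ι (h.ext fun x => by
      rw [h.mulj _ (hφ.mul hψ), h.mulj _ hφ, h.mulj _ hψ, mul_smul])
  · refine c.eqn (by fun_prop) (by fun_prop) fun u => ?_
    rw [c.mul _ (hφ.add hψ), c.mul _ hψ, c.mul _ hφ, ← map_add]
    exact congrArg ι (h.ext fun x => by
      rw [h.mulj _ (hφ.add hψ), map_add, ContinuousMap.add_apply, h.mulj _ hφ, h.mulj _ hψ,
        add_smul])
  · refine c.eqn (by fun_prop) (by fun_prop) fun u => ?_
    rw [c.mul _ (sm_const a), ← map_smul]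
    exact congrArg ι (h.ext fun x => by
      rw [h.mulj _ (sm_const a), map_smul, ContinuousMap.smul_apply])
  · refine c.eqn (by fun_prop) (by fun_prop) fun u => ?_
    rw [c.mul _ hφ, c.N, c.N, c.mul _ hφ]
    exact congrArg ι (h.ext fun x => by rw [h.jN, h.mulj _ hφ, h.mulj _ hφ, h.jN, map_smul])
  · obtain ⟨M, hM⟩ := h.cm φ hφ
    refine ⟨M, fun ξ x => c.le (f := fun ξ => ‖C.π ((C.D * C.mul φ - C.mul φ * C.D) ξ) x‖)
      (g := fun ξ => M * ‖C.π ξ x‖) (by fun_prop) (by fun_prop) (fun u => ?_) ξ⟩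
    show ‖C.π (C.D (C.mul φ (ι u)) - C.mul φ (C.D (ι u))) x‖ ≤ M * ‖C.π (ι u) x‖
    rw [map_sub, ContinuousMap.sub_apply, c.mulπ h hφ, c.mul _ hφ, c.D, c.D, c.π, c.π, c.π]
    exact hM u x
  · refine c.eqn (f := fun ξ => C.π (C.D (C.mul φ ξ)) x) (g := fun ξ => C.π (C.mul φ (C.D ξ)) x)
      (by fun_prop) (by fun_prop) (fun u => ?_) ξ
    simp only [c.mul _ hφ, c.D, c.π, h.mulj φ hφ, h.cm0 φ hφ u x hx]
  · rw [c.val, c.val]
    exact c.eqn (f := fun ξ => P.ev i x (C.π ξ x)) (g := fun ξ => L.g i j x * P.ev j x (C.π ξ x))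
      (by fun_prop) (by fun_prop) (fun u => by simp only [c.π, h.chg u i j x hi hj]) ξ
  · rw [c.val, c.Dt]
    exact c.eqn (f := fun ξ => P.ev i x (C.π (C.D ξ) x)) (g := fun _ => 0)
      (by fun_prop) (by fun_prop) (fun u => by simp only [c.D, c.π, h.evd]) ξ
  · simp only [c.Dt] at h2
    exact c.wey h hW ξ a i x hx S hS h1 h2
  · obtain ⟨u, h1, h2, h3⟩ := hL O hO t ht φ hφ hs
    refine ⟨ι u, by rw [c.N, h1, map_zero], fun τ => hE τ _, fun i x hx => ?_, fun x hx => ?_⟩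
    · rw [c.val, c.π, h2 i x hx]
    · rw [c.D, c.π, h3 x hx]

/-- extension of operators which are bounded for the graph norm -/
theorem exists_ext (T : A →ₗ[ℂ] A) {M : ℝ} (hM : 0 ≤ M)
    (hT : ∀ u, ‖P.j (T u)‖ + ‖P.j (P.d (T u))‖ ≤ M * (‖P.j u‖ + ‖P.j (P.d u)‖)) :
    ∃ T' : C.X →L[ℂ] C.X, ∀ u, T' (ι u) = ι (T u) := by
  refine ⟨(ι ∘ₗ T).extendOfNorm ι, LinearMap.extendOfNorm_eq c.dense
    ⟨M * (‖C.π‖ + ‖C.π ∘L C.D‖), fun u => ?_⟩⟩
  have h1 := c.nrm (ι (T u))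
  rw [c.D, c.π, c.π] at h1
  refine (h1.trans (hT u)).trans ?_
  rw [mul_assoc, add_mul, ← c.π, ← c.π, ← c.D]
  exact mul_le_mul_of_nonneg_left
    (add_le_add (C.π.le_opNorm _) ((C.π ∘L C.D).le_opNorm _)) hM

/-- the local homotopy on the completion -/
theorem exists_hom (h : P.Ok n K₀) {x : V} {W : Set V} {φ : V → ℂ}
    {H S S₂ R : C(V, C.Λ) →L[ℂ] C(V, C.Λ)} (l : P.Lh n x W φ H S S₂ R) :
    ∃ T : C.X →L[ℂ] C.X, (∀ ξ, C.π (T ξ) = H (C.π ξ)) ∧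
      (∀ ξ, C.π (C.D (T ξ)) + H (C.π (C.D ξ)) = C.π (C.mul φ ξ) - S (C.π ξ) - R (C.π ξ)) ∧
      ∀ ξ, C.N (T ξ) = T (C.N ξ) - T ξ := by
  choose a h1 h2 using l.hom
  obtain ⟨T, hT⟩ : ∃ T : A →ₗ[ℂ] A, ∀ u, T u = a u :=
    ⟨⟨⟨a, fun u v => h.inj (by simp only [map_add, h1])⟩,
      fun t u => h.inj (by simp only [map_smul, h1, RingHom.id_apply])⟩, fun _ => rfl⟩
  obtain ⟨T', hT'⟩ := c.exists_ext T
    (M := ‖H‖ + ‖(⟨φ, l.sm.cont⟩ : C(V, ℂ))‖ + ‖S‖ + ‖R‖) (by positivity) fun u => by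
      have e1 : ‖P.j (P.mul φ u)‖ ≤ ‖(⟨φ, l.sm.cont⟩ : C(V, ℂ))‖ * ‖P.j u‖ := by
        refine (ContinuousMap.norm_le _ (by positivity)).2 fun y => ?_
        rw [h.mulj φ l.sm, norm_smul]
        exact mul_le_mul (ContinuousMap.norm_coe_le_norm (⟨φ, l.sm.cont⟩ : C(V, ℂ)) y)
          (ContinuousMap.norm_coe_le_norm _ y) (norm_nonneg _) (norm_nonneg _)
      have e2 := norm_sub_le (P.j (P.mul φ u) - S (P.j u) - R (P.j u)) (H (P.j (P.d u)))
      have e3 := norm_sub_le (P.j (P.mul φ u) - S (P.j u)) (R (P.j u))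
      have e4 := norm_sub_le (P.j (P.mul φ u)) (S (P.j u))
      rw [hT, h1, eq_sub_of_add_eq (h2 u)]
      have e5 := H.le_opNorm (P.j u)
      have e6 := H.le_opNorm (P.j (P.d u))
      have e7 := S.le_opNorm (P.j u)
      have e8 := R.le_opNorm (P.j u)
      have e9 := mul_nonneg (add_nonneg (add_nonneg (norm_nonneg (⟨φ, l.sm.cont⟩ : C(V, ℂ)))
        (norm_nonneg S)) (norm_nonneg R)) (norm_nonneg (P.j (P.d u)))
      linarith
  refine ⟨T', c.eqn (by fun_prop) (by fun_prop) fun u => by rw [hT', c.π, c.π, hT, h1],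
    c.eqn (by fun_prop) (by fun_prop) fun u => ?_, c.eqn (by fun_prop) (by fun_prop) fun u => ?_⟩
  · rw [hT', c.D, c.D, c.mul φ l.sm, c.π, c.π, c.π, c.π, hT, h2]
  · rw [hT', c.N, c.N, hT', ← map_sub]
    refine congrArg ι (h.ext fun y => ?_)
    rw [h.jN, map_sub, ContinuousMap.sub_apply, hT, hT, h1, h1]
    exact (l.deg _ _ (h.jN u) y).1

end Cp

end Vale.Agent.P281Z.Gr
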