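import Vale.Agent.P281Z.Gr.Defs

/-!
# P281Z, block GR: from the local form to `GR`
-/

open scoped Manifold ContDiff Topology
open Set Filter Metric
open Vale.Agent.P272.K Vale.Agent.P285.H281.FD
open Vale.Agent.P277Z (Hol)
open Vale.Agent.P277Z.Slc (Ind LEq Snc)
open Vale.Agent.P277Z.Hir (Cpb)

noncomputable section

namespace Vale.Agent.P281Z.Gr

/-- **GR1**: the statement without poles -/
def GR1 : Prop :=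
  ∀ (n p : ℕ) (V : Mf n) (Y : Mf p) (f : V.X → Y.X) (L : Bd V.X) (Q : Set Y.X),
    ConnectedSpace Y.X → HolM n p f → IsLB n L → Thin p Q →
    (∀ y ∉ Q, ∀ x, f x = y → ∀ e' : Chart p Y.X, At e' y →
      Ind n (fun (a : Fin p) z => e' (f z) a) x) →
    ∃ (S : Set Y.X) (ρ : ℕ), Thin p S ∧ Q ⊆ S ∧ ∀ y₀, ∃ (U : Set Y.X) (k : ℕ)
      (s : Fin k → L.ι → V.X → ℂ), IsOpen U ∧ y₀ ∈ U ∧ (∀ j, SecOn n L (f ⁻¹' U) (s j)) ∧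
      (∀ U', IsOpen U' → ∀ t, SecOn n L (f ⁻¹' U') t → ∀ y ∈ U ∩ U',
        ∃ a : Fin k → Y.X → ℂ, (∀ j, Hol p (a j) y) ∧
          ∀ᶠ y' in 𝓝 y, t - ∑ j, a j y' • s j ∈ Van L (f ⁻¹' {y'})) ∧
      ∀ y ∈ U, y ∉ S → (∀ t ∈ FSec n L (f ⁻¹' {y}),
          ∃ a : Fin k → ℂ, t - ∑ j, a j • s j ∈ Van L (f ⁻¹' {y})) ∧
        ∀ W : Submodule ℂ (Fin k → ℂ), (∀ a, a ∈ W ↔ ∑ j, a j • s j ∈ Van L (f ⁻¹' {y})) →
          Module.finrank ℂ W + ρ = k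

/-- **TW**: the twisted bundle `L' = L + ∑ ⌊c l⌋ • G l`; `θ` identifies `L` and `L'` off `G` -/
def TW : Prop :=
  ∀ (n : ℕ) (V : Mf n) (L : Bd V.X) (κ : Type) [Fintype κ] (G : κ → Set V.X) (c : κ → ℤ),
    IsLB n L → Snc n G → ∃ (L' : Bd V.X) (θ : L'.ι → L.ι → V.X → ℂ), IsLB n L' ∧
      ∀ b a, ∀ x ∈ L'.U b, x ∈ L.U a →
        (x ∈ off G → Hol n (θ b a) x ∧ θ b a x ≠ 0 ∧
          (∀ a', x ∈ L.U a' → θ b a x * L.g a a' x = θ b a' x) ∧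
          ∀ b', x ∈ L'.U b' → L'.g b' b x * θ b a x = θ b' a x) ∧
        ∀ ζ : κ → V.X → ℂ, (∀ l, LEq n (G l) x (ζ l)) →
          Cpb (𝓝 x ⊓ 𝓟 (off G)) (fun y => ‖θ b a y‖) fun y => ∏ l, ‖ζ l y‖ ^ (c l : ℝ)

/-- **RIEM**: extension across a normal crossing divisor -/
def RIEM : Prop :=
  ∀ (d : ℕ) (W : Mf d) (κ : Type) [Fintype κ] (G : κ → Set W.X) (x : W.X) (ζ : κ → W.X → ℂ)
    (e : κ → ℝ) (u : W.X → ℂ), (∀ l, LEq d (G l) x (ζ l)) →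
    Ind d (fun l : {l // x ∈ G l} => ζ l) x → (∀ l, e l < 1) →
    (∀ᶠ y in 𝓝 x, y ∈ off G → Hol d u y) →
    (∃ C : ℝ, ∀ᶠ y in 𝓝 x, y ∈ off G → ‖u y‖ * ∏ l, ‖ζ l y‖ ^ e l ≤ C) →
    ∃ b, Hol d b x ∧ ∀ᶠ y in 𝓝 x, y ∈ off G → u y = b y

/-- **DENS** -/
def DENS : Prop :=
  ∀ (n : ℕ) (V : Mf n) (α β : Type) [Finite α] [Finite β] (ζ : α → V.X → ℂ) (F : β → V.X → ℂ)
    (x : V.X), Ind n (Sum.elim ζ F) x →
    ∃ᶠ y in 𝓝 x, (∀ b, F b y = F b x) ∧ ∀ a, ζ a y ≠ ζ a x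

/-- **EMBF**: embedded fibres -/
def EMBF : Prop :=
  ∀ (d n : ℕ) (W : Mf d) (V : Mf n) (i : W.X → V.X) (S : Set V.X), Emb d n i S → ∀ x,
    (∀ u, Hol d u x → ∃ b, Hol n b (i x) ∧ ∀ᶠ y in 𝓝 (i x), ∀ w, i w = y → u w = b y) ∧
    ∀ (α β : Type) [Finite α] [Finite β] (ζ : α → V.X → ℂ) (F : β → V.X → ℂ),
      Ind n (Sum.elim ζ F) (i x) → (∀ᶠ y in 𝓝 (i x), y ∈ S ↔ ∀ b, F b y = F b (i x)) →
      Ind d (fun a w => ζ a (i w)) x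

/-- **ASM0** -/
def ASM0 : Prop := BUMP → CX0 → CONE → LOC → FIN → PARX → HOL → ISO → FAM → GR0

/-- **GLOB** -/
def GLOB : Prop := RKF → GR0 → GR1

/-- **WRAP** -/
def WRAP : Prop := TW → RIEM → DENS → EMBF → GEN → GR1 → GR

end Vale.Agent.P281Z.Gr
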